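import Mathlib

/-!
P084 (Tingley's problem), library: isometries of compact convex sets, exposed points, and
convex hulls in finite dimension.
-/

namespace Vale.Agent.P084

open Filter Topology Metric

/-- An isometry of a compact set into itself is onto. -/
lemma surjOn_of_isometry {V : Type*} [MetricSpace V] {K : Set V} (hK : IsCompact K) {g : V → V}
    (hmaps : Set.MapsTo g K K) (hiso : ∀ x ∈ K, ∀ y ∈ K, dist (g x) (g y) = dist x y) :
    Set.SurjOn g K K := by
  intro q hq
  by_contra hne
  have hgc : ContinuousOn g K :=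
    (LipschitzOnWith.of_dist_le_mul (K := 1) fun x hx y hy => by
      rw [hiso x hx y hy, NNReal.coe_one, one_mul]).continuousOn
  have hclosed : IsClosed (g '' K) := (hK.image_of_continuousOn hgc).isClosed
  obtain ⟨δ, hδ, hball⟩ := Metric.isOpen_iff.1 hclosed.isOpen_compl q hne
  have hmem : ∀ n, g^[n] q ∈ K := fun n => hmaps.iterate n hq
  have hiter : ∀ n, ∀ x ∈ K, dist (g^[n] q) (g^[n] x) = dist q x := by
    intro n
    induction n with
    | zero => intro x _; rfl
    | succ n ih =>
      intro x hx
      rw [Function.iterate_succ_apply', Function.iterate_succ_apply',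
        hiso _ (hmem n) _ (hmaps.iterate n hx), ih x hx]
  have hsep : ∀ m n, m < n → δ ≤ dist (g^[m] q) (g^[n] q) := by
    intro m n hmn
    obtain ⟨k, rfl⟩ := Nat.exists_eq_add_of_lt hmn
    rw [show m + k + 1 = m + (k + 1) by ring, Function.iterate_add_apply, hiter m _ (hmem _)]
    by_contra hlt
    push Not at hlt
    refine hball (Metric.mem_ball'.2 hlt) ⟨g^[k] q, hmem k, ?_⟩
    rw [Function.iterate_succ_apply']
  obtain ⟨a, -, φ, hφ, hlim⟩ := hK.tendsto_subseq hmem
  obtain ⟨N, hN⟩ := (Metric.cauchySeq_iff.1 hlim.cauchySeq) δ hδ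
  exact absurd (hN N le_rfl (N + 1) (Nat.le_succ N))
    (not_lt.2 (hsep _ _ (hφ (Nat.lt_succ_self N))))

variable {V : Type*} [NormedAddCommGroup V] [NormedSpace ℝ V] [FiniteDimensional ℝ V]

/-- Vaisala's argument: a midpoint deep inside the set is respected. -/
lemma midpoint_of_deep {D : Set V} (hDc : IsCompact D) {g : V → V} (hmaps : Set.MapsTo g D D)
    (hiso : ∀ x ∈ D, ∀ y ∈ D, dist (g x) (g y) = dist x y) {a b : V} (ha : a ∈ D) (hb : b ∈ D)
    (hball : closedBall a (dist a b) ⊆ D) :
    g (midpoint ℝ a b) = midpoint ℝ (g a) (g b) := by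
  have : ProperSpace V := FiniteDimensional.proper_real V
  set r := dist a b with hr
  have hr0 : 0 ≤ r := dist_nonneg
  set B := closedBall a r with hB
  -- the image of the ball is the whole ball around the image
  have hgB : ∀ x ∈ B, g x ∈ closedBall (g a) r := fun x hx => by
    rw [mem_closedBall, hiso x (hball hx) a ha]; exact hx
  have hsurj : ∀ w ∈ closedBall (g a) r, ∃ x ∈ B, g x = w := by
    have h := surjOn_of_isometry (isCompact_closedBall a r) (g := fun x => g x - g a + a)
      (fun x hx => by
        have := hgB x hx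
        rw [mem_closedBall, dist_eq_norm] at this ⊢
        simpa using this)
      (fun x hx y hy => by
        rw [dist_add_right, dist_sub_right, hiso x (hball hx) y (hball hy)])
    intro w hw
    obtain ⟨x, hx, hxe⟩ := h (show w - g a + a ∈ closedBall a r by
      rw [mem_closedBall, dist_eq_norm] at hw ⊢; simpa using hw)
    exact ⟨x, hx, by simpa using hxe⟩
  let W : Set V := closedBall a r ∩ closedBall b r
  let W' : Set V := closedBall (g a) r ∩ closedBall (g b) r
  have hWc : IsCompact W := (isCompact_closedBall a r).inter_right isClosed_closedBall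
  have hgW : Set.MapsTo g W W' := fun x hx =>
    ⟨hgB x hx.1, by rw [mem_closedBall, hiso x (hball hx.1) b hb]; exact hx.2⟩
  have hWsurj : ∀ w ∈ W', ∃ x ∈ W, g x = w := fun w hw => by
    obtain ⟨x, hx, rfl⟩ := hsurj w hw.1
    refine ⟨x, ⟨hx, ?_⟩, rfl⟩
    have := hw.2
    rwa [mem_closedBall, hiso x (hball hx) b hb] at this
  set m := midpoint ℝ a b with hm
  let R : V → V := fun x => a + b - x
  have hR : ∀ x y, dist (R x) (R y) = dist x y := fun x y => by
    simp [R, dist_eq_norm, norm_sub_rev]
  have hRW : Set.MapsTo R W W := fun x hx => by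
    obtain ⟨h1, h2⟩ := hx
    rw [mem_closedBall, dist_eq_norm] at h1 h2
    constructor <;> rw [mem_closedBall, dist_eq_norm]
    · rw [show R x - a = -(x - b) by simp only [R]; abel, norm_neg]; exact h2
    · rw [show R x - b = -(x - a) by simp only [R]; abel, norm_neg]; exact h1
  have hRm : R m = m := by
    simp only [R, hm, midpoint_eq_smul_add, invOf_eq_inv]
    module
  have haW : a ∈ W := ⟨mem_closedBall_self hr0, by rw [mem_closedBall]⟩
  have hbW : b ∈ W := ⟨by rw [mem_closedBall, dist_comm], mem_closedBall_self hr0⟩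
  have hmW : m ∈ W := by
    constructor <;> rw [mem_closedBall, hm]
    · rw [dist_midpoint_left, ← hr]; norm_num; linarith
    · rw [dist_midpoint_right, ← hr]; norm_num; linarith
  -- bijective isometries of `W` fixing the end points fix the midpoint
  have key : ∀ h : V → V, Set.MapsTo h W W → (∀ x ∈ W, ∀ y ∈ W, dist (h x) (h y) = dist x y) →
      h a = a → h b = b → h m = m := by
    intro h hh hhi hha hhb
    let Ss : Set ℝ := {t | ∃ k : V → V, Set.MapsTo k W W ∧
      (∀ x ∈ W, ∀ y ∈ W, dist (k x) (k y) = dist x y) ∧ k a = a ∧ k b = b ∧ dist (k m) m = t}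
    have hne : Ss.Nonempty := ⟨_, h, hh, hhi, hha, hhb, rfl⟩
    have hbdd : BddAbove Ss := ⟨2 * r, by
      rintro _ ⟨k, hk, -, -, -, rfl⟩
      have h1 := (hk hmW).1
      have h2 := hmW.1
      rw [mem_closedBall] at h1 h2
      linarith [dist_triangle_right (k m) m a]⟩
    have hdouble : ∀ t ∈ Ss, 2 * t ∈ Ss := by
      rintro _ ⟨k, hk, hki, hka, hkb, rfl⟩
      have hks : ∀ z ∈ W, ∃ y, y ∈ W ∧ k y = z := fun z hz => surjOn_of_isometry hWc hk hki hz
      choose! k' hk'W hk'e using hks
      have hk'i : ∀ x ∈ W, ∀ y ∈ W, dist (k' x) (k' y) = dist x y := fun x hx y hy => by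
        rw [← hki _ (hk'W _ hx) _ (hk'W _ hy), hk'e _ hx, hk'e _ hy]
      have hk'a : ∀ z ∈ W, k z = z → k' z = z := fun z hz hkz => by
        have := hki _ (hk'W _ hz) _ hz
        rw [hk'e _ hz, hkz, dist_self] at this
        exact (dist_eq_zero.1 this.symm)
      refine ⟨fun x => R (k' (R (k x))), fun x hx => hRW (hk'W _ (hRW (hk hx))), ?_, ?_, ?_, ?_⟩
      · intro x hx y hy
        rw [hR, hk'i _ (hRW (hk hx)) _ (hRW (hk hy)), hR, hki x hx y hy]
      · simp only [hka]
        rw [show R a = b by simp [R], hk'a b hbW hkb]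
        simp [R]
      · simp only [hkb]
        rw [show R b = a by simp [R], hk'a a haW hka]
        simp [R]
      · show dist (R (k' (R (k m)))) m = 2 * dist (k m) m
        have h1 : dist (R (k' (R (k m)))) (R m) = dist (R (k m)) (k m) := by
          rw [hR, ← hki _ (hk'W _ (hRW (hk hmW))) _ hmW, hk'e _ (hRW (hk hmW))]
        rw [hRm] at h1
        rw [h1]
        have e : R (k m) - k m = (2 : ℝ) • (m - k m) := by
          simp only [R, hm, midpoint_eq_smul_add, invOf_eq_inv]
          module
        rw [dist_eq_norm, e, norm_smul, dist_eq_norm, norm_sub_rev]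
        norm_num
    by_contra hne'
    have hpos : 0 < dist (h m) m := dist_pos.2 hne'
    have h1 : dist (h m) m ≤ sSup Ss := le_csSup hbdd ⟨h, hh, hhi, hha, hhb, rfl⟩
    obtain ⟨t, ht, hlt⟩ := exists_lt_of_lt_csSup hne
      (show sSup Ss / 2 < sSup Ss by linarith)
    linarith [le_csSup hbdd (hdouble t ht)]
  -- apply it to the conjugated reflection
  choose! g' hg'W hg'e using hWsurj
  let R' : V → V := fun x => g a + g b - x
  have hR'W : Set.MapsTo R' W' W' := fun x hx => by
    obtain ⟨h1, h2⟩ := hx
    rw [mem_closedBall, dist_eq_norm] at h1 h2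
    constructor <;> rw [mem_closedBall, dist_eq_norm]
    · rw [show R' x - g a = -(x - g b) by simp only [R']; abel, norm_neg]; exact h2
    · rw [show R' x - g b = -(x - g a) by simp only [R']; abel, norm_neg]; exact h1
  have hgi : ∀ x ∈ W, ∀ y ∈ W, dist (g x) (g y) = dist x y := fun x hx y hy =>
    hiso x (hball hx.1) y (hball hy.1)
  have hg'i : ∀ x ∈ W', ∀ y ∈ W', dist (g' x) (g' y) = dist x y := fun x hx y hy => by
    rw [← hgi _ (hg'W x hx) _ (hg'W y hy), hg'e x hx, hg'e y hy]
  have hg'g : ∀ z ∈ W, g' (g z) = z := fun z hz => by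
    have := hgi _ (hg'W _ (hgW hz)) _ hz
    rw [hg'e _ (hgW hz), dist_self] at this
    exact dist_eq_zero.1 this.symm
  have hh := key (fun x => R (g' (R' (g x)))) (fun x hx => hRW (hg'W _ (hR'W (hgW hx))))
    (fun x hx y hy => by
      rw [hR, hg'i _ (hR'W (hgW hx)) _ (hR'W (hgW hy))]
      simp only [R', dist_eq_norm]
      rw [show g a + g b - g x - (g a + g b - g y) = -(g x - g y) by abel, norm_neg,
        ← dist_eq_norm, hgi x hx y hy, dist_eq_norm])
    (by
      show R (g' (R' (g a))) = a
      rw [show R' (g a) = g b by simp [R'], hg'g b hbW]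
      simp [R])
    (by
      show R (g' (R' (g b))) = b
      rw [show R' (g b) = g a by simp [R'], hg'g a haW]
      simp [R])
  have h1 : g' (R' (g m)) = m := by
    have h2 := congr_arg R hh
    rw [hRm] at h2
    simpa [R] using h2
  have h3 := congr_arg g h1
  rw [hg'e _ (hR'W (hgW hmW))] at h3
  simp only [R'] at h3
  rw [midpoint_eq_smul_add, invOf_eq_inv, ← h3]
  have h4 : g a + g b = g m + g m := sub_eq_iff_eq_add.1 h3
  rw [h4]
  module

/-- A closed set containing the midpoints of its points is convex. -/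
lemma convex_of_closed_midpoint {S : Set V} (hS : IsClosed S)
    (hmid : ∀ x ∈ S, ∀ y ∈ S, midpoint ℝ x y ∈ S) : Convex ℝ S := by
  rw [convex_iff_segment_subset]
  intro x hx y hy
  rw [segment_eq_image_lineMap]
  rintro _ ⟨t₀, ht₀, rfl⟩
  let l : ℝ → V := fun t => AffineMap.lineMap x y t
  have hlc : Continuous l := AffineMap.lineMap_continuous
  by_contra hnot
  let P : Set ℝ := Set.Icc 0 t₀ ∩ l ⁻¹' S
  let Q : Set ℝ := Set.Icc t₀ 1 ∩ l ⁻¹' S
  have hP : IsCompact P := isCompact_Icc.inter_right (hS.preimage hlc)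
  have hQ : IsCompact Q := isCompact_Icc.inter_right (hS.preimage hlc)
  obtain ⟨p, hp, hpmax⟩ := hP.exists_isGreatest ⟨0, ⟨le_rfl, ht₀.1⟩, by simpa [l] using hx⟩
  obtain ⟨q, hq, hqmin⟩ := hQ.exists_isLeast ⟨1, ⟨ht₀.2, le_rfl⟩, by simpa [l] using hy⟩
  have hp' : p < t₀ := lt_of_le_of_ne hp.1.2 fun e => hnot (e ▸ hp.2)
  have hq' : t₀ < q := lt_of_le_of_ne hq.1.1 fun e => hnot (e ▸ hq.2)
  have hm : l ((p + q) / 2) ∈ S := by
    have := hmid _ hp.2 _ hq.2
    convert this using 1
    simp only [l, AffineMap.lineMap_apply_module, midpoint_eq_smul_add, invOf_eq_inv]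
    module
  rcases le_total ((p + q) / 2) t₀ with h | h
  · linarith [hpmax ⟨⟨by linarith [hp.1.1, hq.1.1, ht₀.1], h⟩, hm⟩]
  · linarith [hqmin ⟨⟨h, by linarith [hp.1.2, hq.1.2, ht₀.2]⟩, hm⟩]

/-- An isometry of a convex body into itself is midpoint affine. -/
lemma midpoint_of_body {D : Set V} (hDc : IsCompact D) (hDv : Convex ℝ D)
    (hDi : (interior D).Nonempty) {g : V → V} (hmaps : Set.MapsTo g D D)
    (hiso : ∀ x ∈ D, ∀ y ∈ D, dist (g x) (g y) = dist x y) {x y : V} (hx : x ∈ D) (hy : y ∈ D) :
    g (midpoint ℝ x y) = midpoint ℝ (g x) (g y) := by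
  have : ProperSpace V := FiniteDimensional.proper_real V
  -- deep segments
  have hdeep : ∀ x ∈ interior D, ∀ y ∈ interior D,
      g (midpoint ℝ x y) = midpoint ℝ (g x) (g y) := by
    intro x hx y hy
    have hseg : segment ℝ x y ⊆ interior D := hDv.interior.segment_subset hx hy
    have hsc : IsCompact (segment ℝ x y) := by
      rw [segment_eq_image_lineMap]
      exact isCompact_Icc.image AffineMap.lineMap_continuous
    obtain ⟨δ, hδ, hsub⟩ := hsc.exists_cthickening_subset_open isOpen_interior hseg
    obtain ⟨n, hn⟩ := exists_nat_gt (dist x y / δ)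
    have hn0 : (0 : ℝ) < n := lt_of_le_of_lt (by positivity) hn
    set N := 2 * n
    let p : ℕ → V := fun i => AffineMap.lineMap x y ((i : ℝ) / N)
    have hN : (0 : ℝ) < N := by simp only [N, Nat.cast_mul, Nat.cast_ofNat]; linarith
    have hp : ∀ i ≤ N, p i ∈ segment ℝ x y := fun i hi => by
      rw [segment_eq_image_lineMap]
      exact ⟨_, ⟨by positivity, (div_le_one hN).2 (by exact_mod_cast hi)⟩, rfl⟩
    have hrec : ∀ i, i + 2 ≤ N → g (p (i + 2)) - g (p (i + 1)) = g (p (i + 1)) - g (p i) := by
      intro i hi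
      have hmid : midpoint ℝ (p i) (p (i + 2)) = p (i + 1) := by
        simp only [p, AffineMap.lineMap_apply_module, midpoint_eq_smul_add, invOf_eq_inv]
        push_cast
        module
      have hd : dist (p i) (p (i + 2)) ≤ δ := by
        simp only [p, dist_lineMap_lineMap, Real.dist_eq]
        rw [show (i : ℝ) / N - ((i + 2 : ℕ) : ℝ) / N = -(1 / n) by
          simp only [N, Nat.cast_mul, Nat.cast_ofNat, Nat.cast_add]; field_simp; ring,
          abs_neg, abs_of_pos (by positivity)]
        rw [div_lt_iff₀ hδ] at hn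
        rw [one_div_mul_eq_div, div_le_iff₀ hn0]
        linarith
      have h := midpoint_of_deep hDc hmaps hiso (interior_subset (hseg (hp i (by omega))))
        (interior_subset (hseg (hp (i + 2) hi))) (fun z hz => interior_subset <| hsub <|
          mem_cthickening_of_dist_le z (p i) δ _ (hp i (by omega))
            ((mem_closedBall.1 hz).trans hd))
      rw [hmid] at h
      rw [h, midpoint_eq_smul_add, invOf_eq_inv]
      module
    have hlin : ∀ i, i + 1 ≤ N → g (p (i + 1)) - g (p i) = g (p 1) - g (p 0) := by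
      intro i
      induction i with
      | zero => intro _; rfl
      | succ i ih => intro hi; rw [hrec i hi, ih (by omega)]
    have hsum : ∀ i ≤ N, g (p i) = g (p 0) + (i : ℝ) • (g (p 1) - g (p 0)) := by
      intro i
      induction i with
      | zero => intro _; simp
      | succ i ih =>
        intro hi
        have h := hlin i hi
        rw [sub_eq_iff_eq_add] at h
        rw [h, ih (by omega)]
        push_cast
        module
    have e0 : p 0 = x := by simp [p]
    have e1 : p N = y := by simp [p, hN.ne']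
    have e2 : p n = midpoint ℝ x y := by
      simp only [p, N, Nat.cast_mul, Nat.cast_ofNat, AffineMap.lineMap_apply_module,
        midpoint_eq_smul_add, invOf_eq_inv]
      rw [show (n : ℝ) / (2 * n) = 1 / 2 by field_simp]
      module
    have h1 := hsum n (by omega)
    have h2 := hsum N le_rfl
    rw [e0, e1] at h2
    rw [e0, e2] at h1
    rw [h1, h2, midpoint_eq_smul_add, invOf_eq_inv]
    simp only [N, Nat.cast_mul, Nat.cast_ofNat]
    module
  obtain ⟨c, hc⟩ := hDi
  let u : V → ℝ → V := fun z t => (1 - t) • z + t • c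
  have hu : ∀ z ∈ D, ∀ᶠ t in 𝓝[>] (0 : ℝ), u z t ∈ interior D := fun z hz => by
    filter_upwards [Ioo_mem_nhdsGT (show (0 : ℝ) < 1 by norm_num)] with t ht
    rw [show u z t = t • c + (1 - t) • z from add_comm _ _]
    exact hDv.combo_interior_closure_mem_interior hc (subset_closure hz) ht.1
      (by linarith [ht.2]) (by ring)
  have hgc : ContinuousOn g D :=
    (LipschitzOnWith.of_dist_le_mul (K := 1) fun x hx y hy => by
      rw [hiso x hx y hy, NNReal.coe_one, one_mul]).continuousOn
  have hlim : ∀ z, Tendsto (u z) (𝓝[>] (0 : ℝ)) (𝓝 z) := fun z =>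
    ((show Continuous (u z) by fun_prop).tendsto' 0 z (by simp [u])).mono_left nhdsWithin_le_nhds
  have hgl : ∀ z ∈ D, Tendsto (fun t => g (u z t)) (𝓝[>] (0 : ℝ)) (𝓝 (g z)) := fun z hz =>
    ((hgc z hz).tendsto).comp (tendsto_nhdsWithin_iff.2
      ⟨hlim z, (hu z hz).mono fun t ht => interior_subset ht⟩)
  have hm : midpoint ℝ x y ∈ D := hDv.segment_subset hx hy (midpoint_mem_segment x y)
  refine tendsto_nhds_unique_of_eventuallyEq (hgl _ hm) ((hgl x hx).midpoint (hgl y hy)) ?_
  filter_upwards [hu x hx, hu y hy] with t htx hty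
  rw [← hdeep _ htx _ hty]
  congr 1
  simp only [u, midpoint_eq_smul_add, invOf_eq_inv]
  module

/-- An isometry of a compact convex set into itself fixing a generating set is the identity. -/
lemma isometry_fix {D : Set V} (hDc : IsCompact D) (hDv : Convex ℝ D) {g : V → V}
    (hmaps : Set.MapsTo g D D) (hiso : ∀ x ∈ D, ∀ y ∈ D, dist (g x) (g y) = dist x y)
    {S : Set V} (hSD : S ⊆ D) (hfix : ∀ x ∈ S, g x = x) (hgen : D ⊆ convexHull ℝ S) :
    ∀ x ∈ D, g x = x := by
  intro x hx
  have hgc : ContinuousOn g D :=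
    (LipschitzOnWith.of_dist_le_mul (K := 1) fun x hx y hy => by
      rw [hiso x hx y hy, NNReal.coe_one, one_mul]).continuousOn
  let Fx : Set V := D ∩ (fun z => g z - z) ⁻¹' {0}
  have hFc : IsClosed Fx :=
    (hgc.sub continuousOn_id).preimage_isClosed_of_isClosed hDc.isClosed isClosed_singleton
  have hmid : ∀ a ∈ D, ∀ b ∈ D, g (midpoint ℝ a b) = midpoint ℝ (g a) (g b) := by
    obtain ⟨p, hp⟩ : D.Nonempty := ⟨x, hx⟩
    let W : Submodule ℝ V := vectorSpan ℝ D
    let ι : W → V := fun w => (w : V) + p
    let D' : Set W := ι ⁻¹' D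
    have hι : ∀ z ∈ D, ∃ w : W, ι w = z := fun z hz =>
      ⟨⟨z - p, vsub_mem_vectorSpan ℝ hz hp⟩, sub_add_cancel z p⟩
    have hdist : ∀ a b : W, dist (ι a) (ι b) = dist a b := fun a b => dist_add_right _ _ _
    have hιi : Function.Injective ι := fun a b h => Subtype.ext (add_right_cancel h)
    choose! j hj using hι
    let g' : W → W := fun w => j (g (ι w))
    have hD'c : IsCompact D' := by
      have hιe : IsClosedEmbedding ι :=
        (Homeomorph.addRight p).isClosedEmbedding.comp
          W.closed_of_finiteDimensional.isClosedEmbedding_subtypeVal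
      exact hιe.isCompact_preimage hDc
    have hD'v : Convex ℝ D' := by
      intro a ha b hb s t hs ht hst
      show ((s • a + t • b : W) : V) + p ∈ D
      have := hDv ha hb hs ht hst
      convert this using 1
      simp only [ι, Submodule.coe_add, Submodule.coe_smul, smul_add]
      nth_rewrite 1 [show p = (s + t) • p by rw [hst, one_smul]]
      module
    have hD'i : (interior D').Nonempty := by
      rw [hD'v.interior_nonempty_iff_affineSpan_eq_top]
      have h0 : (0 : W) ∈ D' := by show ((0 : W) : V) + p ∈ D; simpa using hp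
      refine (AffineSubspace.affineSpan_eq_top_iff_vectorSpan_eq_top_of_nonempty ℝ W W ⟨0, h0⟩).2 ?_
      apply Submodule.map_injective_of_injective W.injective_subtype
      rw [Submodule.map_top, Submodule.range_subtype]
      refine le_antisymm (Submodule.map_subtype_le W _) ?_
      show vectorSpan ℝ D ≤ _
      rw [vectorSpan_eq_span_vsub_set_right ℝ hp, Submodule.span_le]
      rintro _ ⟨z, hz, rfl⟩
      refine ⟨j z -ᵥ (0 : W), vsub_mem_vectorSpan ℝ ?_ h0, ?_⟩
      · show ι (j z) ∈ D
        rw [hj z hz]; exact hz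
      · have := hj z hz
        simp only [ι] at this
        show ((j z -ᵥ (0 : W) : W) : V) = z - p
        rw [vsub_eq_sub, sub_zero]
        exact eq_sub_of_add_eq this
    intro a ha b hb
    have h := midpoint_of_body hD'c hD'v hD'i (g := g')
      (fun w hw => by show ι (j (g (ι w))) ∈ D; rw [hj _ (hmaps hw)]; exact hmaps hw)
      (fun u hu v hv => by
        rw [← hdist, hj _ (hmaps hu), hj _ (hmaps hv), hiso _ hu _ hv, hdist])
      (x := j a) (y := j b) (by show ι (j a) ∈ D; rw [hj a ha]; exact ha)
      (by show ι (j b) ∈ D; rw [hj b hb]; exact hb)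
    have h' := congr_arg ι h
    have emid : ∀ u v : W, ι (midpoint ℝ u v) = midpoint ℝ (ι u) (ι v) := fun u v => by
      simp only [ι, midpoint_eq_smul_add, invOf_eq_inv, Submodule.coe_smul, Submodule.coe_add]
      module
    have hm : ι (midpoint ℝ (j a) (j b)) ∈ D := by
      rw [emid, hj a ha, hj b hb]
      exact hDv.segment_subset ha hb (midpoint_mem_segment a b)
    rw [hj _ (hmaps hm), emid, emid, hj a ha, hj b hb] at h'
    rwa [hj _ (hmaps (show ι (j a) ∈ D by rw [hj a ha]; exact ha)),
      hj _ (hmaps (show ι (j b) ∈ D by rw [hj b hb]; exact hb)), hj a ha, hj b hb] at h'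
  have hFv : Convex ℝ Fx := convex_of_closed_midpoint hFc fun a ha b hb => by
    refine ⟨hDv.segment_subset ha.1 hb.1 (midpoint_mem_segment a b), ?_⟩
    show g (midpoint ℝ a b) - midpoint ℝ a b = 0
    rw [hmid a ha.1 b hb.1, sub_eq_zero.1 ha.2, sub_eq_zero.1 hb.2, sub_self]
  exact sub_eq_zero.1 (convexHull_min (fun z hz => show z ∈ Fx from
    ⟨hSD hz, by simp [hfix z hz]⟩) hFv (hgen hx)).2

/-- The convex hull of a compact set is compact. -/
lemma isCompact_convexHull' {S : Set V} (hS : IsCompact S) : IsCompact (convexHull ℝ S) := by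
  classical
  let step : Set V → Set V := fun C =>
    C ∪ (fun p : ℝ × V × V => (1 - p.1) • p.2.1 + p.1 • p.2.2) '' (Set.Icc 0 1 ×ˢ S ×ˢ C)
  let C : ℕ → Set V := fun k => step^[k] S
  have hC : ∀ k, IsCompact (C k) ∧ C k ⊆ convexHull ℝ S := by
    intro k
    induction k with
    | zero => exact ⟨hS, subset_convexHull ℝ S⟩
    | succ k ih =>
      simp only [C, Function.iterate_succ_apply']
      refine ⟨ih.1.union ((isCompact_Icc.prod (hS.prod ih.1)).image (by fun_prop)),
        Set.union_subset ih.2 ?_⟩
      rintro _ ⟨⟨t, a, b⟩, ⟨ht, ha, hb⟩, rfl⟩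
      exact convex_convexHull ℝ S (subset_convexHull ℝ S ha) (ih.2 hb) (by linarith [ht.2]) ht.1
        (by ring)
  have hmono : ∀ k, C k ⊆ C (k + 1) := fun k => by
    simp only [C, Function.iterate_succ_apply']
    exact Set.subset_union_left
  have hcard : ∀ k, ∀ t : Finset V, t.card ≤ k + 1 → (t : Set V) ⊆ S →
      convexHull ℝ (t : Set V) ⊆ C k := by
    intro k
    induction k with
    | zero =>
      intro t ht htS
      rcases Finset.card_le_one_iff_subset_singleton.1 ht with ⟨a, ha⟩
      rcases Finset.subset_singleton_iff.1 ha with rfl | rfl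
      · simp
      · rw [Finset.coe_singleton, convexHull_singleton]
        simp only [C, Function.iterate_zero_apply, Set.singleton_subset_iff]
        simpa using htS
    | succ k ih =>
      intro t ht htS
      rcases Nat.lt_or_ge t.card (k + 2) with h | h
      · exact (ih t (by omega) htS).trans (hmono k)
      obtain ⟨a, ha⟩ : t.Nonempty := Finset.card_pos.1 (by omega)
      rw [← Finset.insert_erase ha, Finset.coe_insert]
      have hcard' : (t.erase a).card = k + 1 := by rw [Finset.card_erase_of_mem ha]; omega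
      rw [convexHull_insert (by
        rw [Finset.coe_nonempty]; exact Finset.card_pos.1 (by omega)), convexJoin_singleton_left]
      refine Set.iUnion₂_subset fun b hb => ?_
      have hbC := ih (t.erase a) hcard'.le
        ((Finset.coe_subset.2 (Finset.erase_subset _ _)).trans htS) hb
      rw [segment_eq_image]
      rintro _ ⟨θ, hθ, rfl⟩
      simp only [C, Function.iterate_succ_apply']
      exact Or.inr ⟨(θ, a, b), ⟨hθ, htS ha, hbC⟩, rfl⟩
  have e : convexHull ℝ S = C (Module.finrank ℝ V) := by
    refine Set.Subset.antisymm ?_ (hC _).2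
    rw [convexHull_eq_union]
    refine Set.iUnion_subset fun t => Set.iUnion_subset fun hts => Set.iUnion_subset fun hti => ?_
    refine hcard _ t ?_ hts
    have := hti.card_le_finrank_succ
    rw [Fintype.card_coe] at this
    exact this.trans (Nat.succ_le_succ (Submodule.finrank_le _))
  rw [e]
  exact (hC _).1

end Vale.Agent.P084
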