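import Vale.Agent.P084.Transport

/-!
P084 (Tingley's problem), library: finite-dimensional spaces with a `C²` norm of positive
curvature have the Mazur–Ulam property.
-/

namespace Vale.Agent.P084

open Metric

variable {E Y : Type*} [NormedAddCommGroup E] [NormedSpace ℝ E] [NormedAddCommGroup Y]
  [NormedSpace ℝ Y]

open Classical in
/-- The positively homogeneous extension of a map defined on the unit sphere. -/
noncomputable def homExt (f : sphere (0 : E) 1 → Y) (v : E) : Y :=
  if h : v = 0 then 0 else ‖v‖ • f ⟨‖v‖⁻¹ • v, by simp [norm_smul, h]⟩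

lemma homExt_zero (f : sphere (0 : E) 1 → Y) : homExt f 0 = 0 := by simp [homExt]

lemma homExt_unit (f : sphere (0 : E) 1 → Y) (x : sphere (0 : E) 1) : homExt f x = f x := by
  have hx : ‖(x : E)‖ = 1 := mem_sphere_zero_iff_norm.1 x.2
  have hne : (x : E) ≠ 0 := fun h => by simp [h] at hx
  simp [homExt, hne, hx]

lemma homExt_pos_smul (f : sphere (0 : E) 1 → Y) {r : ℝ} (hr : 0 < r) (x : sphere (0 : E) 1) :
    homExt f (r • (x : E)) = r • f x := by
  have hx : ‖(x : E)‖ = 1 := mem_sphere_zero_iff_norm.1 x.2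
  have hne : (x : E) ≠ 0 := fun h => by simp [h] at hx
  simp [homExt, smul_ne_zero hr.ne' hne, norm_smul, hx, abs_of_pos hr, smul_smul, hr.ne']

omit [NormedSpace ℝ E] in
/-- A surjective isometry of spheres is odd when the source is strictly convex. -/
lemma odd_of_isometry (hs : StrictNorm E) {f : sphere (0 : E) 1 → sphere (0 : Y) 1}
    (hf : Isometry f) (hsurj : Function.Surjective f) (x : sphere (0 : E) 1) :
    (f (-x) : Y) = -(f x : Y) := by
  obtain ⟨u, hu⟩ := hsurj (-(f x))
  have h : dist x u = 2 := by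
    rw [← hf.dist_eq x u, hu, Subtype.dist_eq, coe_neg_sphere, dist_eq_norm, sub_neg_eq_add,
      ← two_smul ℝ, norm_smul, mem_sphere_zero_iff_norm.1 (f x).2]
    norm_num
  rw [Subtype.dist_eq, dist_eq_norm] at h
  have hxu : (x : E) = -(u : E) := hs _ _ (mem_sphere_zero_iff_norm.1 x.2)
    (by rw [norm_neg]; exact mem_sphere_zero_iff_norm.1 u.2) (by rw [← sub_eq_add_neg]; exact h)
  have hneg : -x = u := Subtype.ext (by rw [coe_neg_sphere, hxu, neg_neg])
  rw [hneg, hu, coe_neg_sphere]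

/-- An odd surjective isometry between spheres gives a `SphIso`. -/
lemma exists_sphIso_of_odd {f : sphere (0 : E) 1 → sphere (0 : Y) 1}
    (hf : Isometry f) (hsurj : Function.Surjective f)
    (hodd : ∀ x : sphere (0 : E) 1, (f (-x) : Y) = -(f x : Y)) :
    ∃ s : SphIso E Y, ∀ x : sphere (0 : E) 1, s.G x = f x := by
  set g := Function.surjInv hsurj with hg
  have hfg : ∀ z, f (g z) = z := Function.surjInv_eq hsurj
  have hgf : ∀ x, g (f x) = x := fun x => hf.injective (hfg (f x))
  set G := homExt (fun x => (f x : Y)) with hG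
  set H := homExt (fun z => (g z : E)) with hH
  have polar : ∀ v : E, v = 0 ∨ ∃ r : ℝ, 0 < r ∧ ∃ x : sphere (0 : E) 1, v = r • (x : E) := by
    intro v
    rcases eq_or_ne v 0 with h | h
    · exact Or.inl h
    · exact Or.inr ⟨‖v‖, norm_pos_iff.2 h, ⟨‖v‖⁻¹ • v, by simp [norm_smul, h]⟩,
        by simp [smul_smul, h]⟩
  have hnorm : ∀ v, ‖G v‖ = ‖v‖ := by
    intro v
    rcases polar v with rfl | ⟨r, hr, x, rfl⟩
    · simp [hG, homExt_zero]
    · simp [hG, homExt_pos_smul _ hr, norm_smul, mem_sphere_zero_iff_norm.1 x.2,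
        mem_sphere_zero_iff_norm.1 (f x).2]
  refine ⟨⟨G, H, ?_, ?_, hnorm, ?_, ?_⟩, fun x => homExt_unit (fun x => (f x : Y)) x⟩
  · intro v
    rcases polar v with rfl | ⟨r, hr, x, rfl⟩
    · simp [hG, hH, homExt_zero]
    · simp [hG, hH, homExt_pos_smul _ hr, hgf]
  · intro w
    rcases eq_or_ne w 0 with rfl | h
    · simp [hG, hH, homExt_zero]
    · obtain ⟨z, hz⟩ : ∃ z : sphere (0 : Y) 1, w = ‖w‖ • (z : Y) :=
        ⟨⟨‖w‖⁻¹ • w, by simp [norm_smul, h]⟩, by simp [smul_smul, h]⟩
      have hw : 0 < ‖w‖ := norm_pos_iff.2 h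
      rw [hz]
      simp [hG, hH, homExt_pos_smul _ hw, hfg]
  · intro t v
    rcases polar v with rfl | ⟨r, hr, x, rfl⟩
    · simp [hG, homExt_zero]
    · rcases lt_trichotomy t 0 with ht | rfl | ht
      · have e : t • r • (x : E) = (-t * r) • ((-x : sphere (0 : E) 1) : E) := by
          simp [smul_smul]
        rw [hG, e, homExt_pos_smul _ (mul_pos (neg_pos.2 ht) hr), homExt_pos_smul _ hr,
          hodd x]
        simp [smul_smul]
      · simp [hG, homExt_zero]
      · rw [hG, smul_smul, homExt_pos_smul _ (mul_pos ht hr), homExt_pos_smul _ hr, smul_smul]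
  · intro v x hx
    rcases polar v with rfl | ⟨r, hr, u, rfl⟩
    · simp [hG, homExt_zero]
    · have hu : ‖r • (u : E)‖ = r := by
        simp [norm_smul, mem_sphere_zero_iff_norm.1 u.2, abs_of_pos hr]
      have hx' : G x = (f ⟨x, mem_sphere_zero_iff_norm.2 hx⟩ : Y) :=
        homExt_unit _ ⟨x, mem_sphere_zero_iff_norm.2 hx⟩
      have hd := hf.dist_eq u ⟨x, mem_sphere_zero_iff_norm.2 hx⟩
      rw [Subtype.dist_eq, Subtype.dist_eq, dist_eq_norm, dist_eq_norm] at hd
      rw [hu, hx', hG, homExt_pos_smul _ hr, ← smul_sub, ← smul_sub, norm_smul, norm_smul, hd]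

/-- A surjective isometry between spheres gives a `SphIso`. -/
lemma exists_sphIso (hs : StrictNorm E) {f : sphere (0 : E) 1 → sphere (0 : Y) 1}
    (hf : Isometry f) (hsurj : Function.Surjective f) :
    ∃ s : SphIso E Y, ∀ x : sphere (0 : E) 1, s.G x = f x :=
  exists_sphIso_of_odd hf hsurj (odd_of_isometry hs hf hsurj)

/-- **Main theorem.** -/
theorem extends_linearly [FiniteDimensional ℝ E] (hE : SmoothNorm E 2) (hc : Curved E)
    {f : sphere (0 : E) 1 → sphere (0 : Y) 1} (hf : Isometry f)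
    (hsurj : Function.Surjective f) :
    ∃ T : E ≃ₗᵢ[ℝ] Y, ∀ x : sphere (0 : E) 1, T x = f x := by
  obtain ⟨s, hs⟩ := exists_sphIso (hc.strictNorm hE) hf hsurj
  have : FiniteDimensional ℝ Y := by
    refine FiniteDimensional.of_isCompact_closedBall₀ ℝ zero_lt_one ?_
    convert (isCompact_closedBall (0 : E) 1).image s.continuous_G
    ext w
    simp only [Set.mem_image, mem_closedBall_zero_iff]
    exact ⟨fun h => ⟨s.H w, by rwa [s.norm_H], s.G_H w⟩,
      fun ⟨v, hv, e⟩ => by rwa [← e, s.norm_G]⟩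
  obtain ⟨L, hL⟩ : ∃ L : E →ₗ[ℝ] Y, ∀ v, L v = s.G v := by
    rcases subsingleton_or_nontrivial E with hsub | hnt
    · exact ⟨0, fun v => by rw [Subsingleton.elim v 0, map_zero, s.G_zero]⟩
    obtain ⟨y, hy, htr⟩ := s.exists_critical hE
    have hy0 : y ≠ 0 := fun h => by simp [h] at hy
    obtain ⟨A, hA⟩ := s.exists_equiv hE hy0
    have hB := s.ddG_eq_zero hE hc hy hA (htr A hA)
    have hunit : ∀ x : E, ‖x‖ = 1 → A x = s.G x := by
      intro x hx
      rcases eq_or_ne x y with rfl | hne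
      · rw [← s.dG_self hE hy0]
        exact DFunLike.congr_fun hA x
      · exact (s.eq_linear hE hc hy hA hB hx hne).symm
    refine ⟨A.toLinearEquiv.toLinearMap, fun v => ?_⟩
    show A v = s.G v
    rcases eq_or_ne v 0 with rfl | hv
    · rw [map_zero, s.G_zero]
    · have e : v = ‖v‖ • (‖v‖⁻¹ • v) := by simp [smul_smul, hv]
      have hun : ‖‖v‖⁻¹ • v‖ = 1 := norm_smul_inv_norm hv
      rw [e, map_smul, s.G_smul, hunit _ hun]
  have hbij : Function.Bijective L := by
    have : ⇑L = s.G := funext hL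
    rw [this]
    exact ⟨s.G_injective, fun w => ⟨s.H w, s.G_H w⟩⟩
  refine ⟨⟨LinearEquiv.ofBijective L hbij, fun v => ?_⟩, fun x => ?_⟩
  · show ‖L v‖ = ‖v‖
    rw [hL, s.norm_G]
  · show L (x : E) = (f x : Y)
    rw [hL, hs]

end Vale.Agent.P084
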