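import Vale.Agent.P084.Flat
import Vale.Agent.P084.CompactConvex
import Vale.Agent.P084.Main

/-!
P084 (Tingley's problem), library: surjective isometries between spheres preserve antipodes when
the source is finite-dimensional with a differentiable norm.
-/

namespace Vale.Agent.P084

open Filter Topology Metric

variable {E : Type*} [NormedAddCommGroup E] [NormedSpace ℝ E] [FiniteDimensional ℝ E]

omit [FiniteDimensional ℝ E] in
/-- Uniqueness of supporting functionals at a smooth point. -/
lemma eq_dN_of_le {x : E} (hd : DifferentiableAt ℝ (fun z : E => ‖z‖) x)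
    {β : E →L[ℝ] ℝ} {c : ℝ} (hle : ∀ v, β v ≤ c * ‖v‖) (hx : β x = c * ‖x‖) (v : E) :
    β v = c * dN x v := by
  have hl : HasDerivAt (fun t : ℝ => x + t • v) v 0 := by
    simpa using ((hasDerivAt_id (0 : ℝ)).smul_const v).const_add x
  have h1 : HasDerivAt (fun t : ℝ => c * ‖x + t • v‖ - β (x + t • v)) (c * dN x v - β v) 0 :=
    ((hd.hasFDerivAt.comp_hasDerivAt_of_eq 0 hl (by simp)).const_mul c).sub
      (β.hasFDerivAt.comp_hasDerivAt 0 hl)
  have hmin : IsLocalMin (fun t : ℝ => c * ‖x + t • v‖ - β (x + t • v)) 0 :=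
    Eventually.of_forall fun t => by
      simp only [zero_smul, add_zero, hx, sub_self]
      linarith [hle (x + t • v)]
  linarith [hmin.hasDerivAt_eq_zero h1]

/-- Unit vectors exposed by their supporting functional. -/
def Sharp (p : E) : Prop := ‖p‖ = 1 ∧ ∀ q, ‖q‖ ≤ 1 → dN p q = 1 → q = p

/-- The closed convex hull of the sharp points is the whole ball. -/
lemma closedBall_subset_hull [Nontrivial E] (hE : SmoothNorm E 1) :
    closedBall (0 : E) 1 ⊆ convexHull ℝ (closure {p : E | Sharp p}) := by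
  have : ProperSpace E := FiniteDimensional.proper_real E
  intro z hz
  by_contra hzn
  set S := closure {p : E | Sharp p} with hS
  have hSc : IsCompact S := (isCompact_closedBall (0 : E) 1).of_isClosed_subset isClosed_closure
    (closure_minimal (fun p hp => mem_closedBall_zero_iff.2 hp.1.le) isClosed_closedBall)
  obtain ⟨φ, u, hlt, hgt⟩ := geometric_hahn_banach_closed_point (convex_convexHull ℝ S)
    (isCompact_convexHull' hSc).isClosed hzn
  obtain ⟨R⟩ := nonempty_riesz (E := E)
  set w := R.inv φ with hw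
  have hwφ : ∀ v, R.form w v = φ v := R.form_inv φ
  set t : ℝ := ‖R.form‖ / (φ z - u) with ht
  have hgap : 0 < φ z - u := sub_pos.2 hgt
  set c : E := -t • w with hc
  obtain ⟨p, hp, hmax⟩ := (isCompact_closedBall (0 : E) 1).exists_isMaxOn ⟨0, by simp⟩
    (f := fun q => R.form (q - c) (q - c))
    ((R.form.continuous.comp (continuous_id.sub continuous_const)).clm_apply
      (continuous_id.sub continuous_const)).continuousOn
  rw [mem_closedBall_zero_iff] at hp
  have hstrict : ∀ q : E, ‖q‖ ≤ 1 → q ≠ p → R.form (p - c) q < R.form (p - c) p := by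
    intro q hq hne
    have h1 : R.form (q - c) (q - c) ≤ R.form (p - c) (p - c) :=
      hmax (mem_closedBall_zero_iff.2 hq)
    rw [show q - c = (q - p) + (p - c) by abel] at h1
    simp only [map_add, add_apply] at h1
    have h2 := R.pos (q - p) (sub_ne_zero.2 hne)
    have h3 : R.form (p - c) (q - p) = R.form (p - c) q - R.form (p - c) p := map_sub _ _ _
    rw [R.symm (q - p) (p - c)] at h1
    linarith
  have hpos : 0 < R.form (p - c) p := by
    obtain ⟨v, hv⟩ := exists_ne (0 : E)
    by_contra hle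
    push Not at hle
    rcases eq_or_ne p 0 with rfl | hp0
    · have hn : ‖‖v‖⁻¹ • v‖ = 1 := norm_smul_inv_norm hv
      have h1 := hstrict (‖v‖⁻¹ • v) hn.le (smul_ne_zero (inv_ne_zero (norm_ne_zero_iff.2 hv)) hv)
      have h2 := hstrict (-(‖v‖⁻¹ • v)) (by rw [norm_neg]; exact hn.le)
        (neg_ne_zero.2 (smul_ne_zero (inv_ne_zero (norm_ne_zero_iff.2 hv)) hv))
      rw [map_neg, map_zero] at h2
      rw [map_zero] at h1
      linarith
    · have h1 := hstrict 0 (by simp) (Ne.symm hp0)
      rw [map_zero] at h1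
      linarith
  set k := R.form (p - c) p with hk
  have hp0 : p ≠ 0 := fun h => by rw [hk, h, map_zero] at hpos; exact lt_irrefl _ hpos
  have hp1 : ‖p‖ = 1 := by
    refine le_antisymm hp ?_
    by_contra hlt'
    push Not at hlt'
    have hr : 0 < ‖p‖ := norm_pos_iff.2 hp0
    have hne : ‖p‖⁻¹ • p ≠ p := fun h => by
      have := congr_arg norm h
      have e : ‖‖p‖⁻¹ • p‖ = 1 := norm_smul_inv_norm hp0
      rw [e] at this
      exact absurd this.symm hlt'.ne
    have h1 := hstrict (‖p‖⁻¹ • p) (norm_smul_inv_norm hp0).le hne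
    rw [map_smul, smul_eq_mul, inv_mul_lt_iff₀ hr] at h1
    nlinarith
  have hkle : ∀ v, R.form (p - c) v ≤ k * ‖v‖ := by
    intro v
    rcases eq_or_ne v 0 with rfl | hv
    · simp
    have hle : R.form (p - c) (‖v‖⁻¹ • v) ≤ k := by
      rcases eq_or_ne (‖v‖⁻¹ • v) p with h | h
      · rw [h]
      · exact (hstrict _ (norm_smul_inv_norm hv).le h).le
    rw [map_smul, smul_eq_mul, inv_mul_le_iff₀ (norm_pos_iff.2 hv)] at hle
    linarith
  have hsharp : Sharp p := by
    refine ⟨hp1, fun q hq hdq => ?_⟩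
    by_contra hne
    have h1 := hstrict q hq hne
    rw [eq_dN_of_le (hE.differentiableAt le_rfl hp0) (β := R.form (p - c)) hkle
      (by rw [hp1, mul_one]) q, hdq, mul_one] at h1
    exact lt_irrefl _ h1
  have hpu : φ p < u := hlt p (subset_convexHull ℝ S (subset_closure hsharp))
  have h1 : R.form (z - c) (z - c) ≤ R.form (p - c) (p - c) := hmax hz
  have e : ∀ q, R.form (q - c) (q - c) = R.form q q + 2 * t * φ q + R.form c c := fun q => by
    have e1 : R.form c q = -t * φ q := by simp [hc, hwφ]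
    have e2 : R.form q c = -t * φ q := by rw [R.symm, e1]
    simp only [map_sub, sub_apply]
    linarith
  rw [e, e] at h1
  have h2 : R.form p p ≤ ‖R.form‖ := by
    have h := (Real.le_norm_self _).trans (R.form.le_opNorm₂ p p)
    rwa [hp1, mul_one, mul_one] at h
  have h3 := R.nonneg z
  have ht0 : 0 ≤ t := by positivity
  have h4 : t * (φ z - u) = ‖R.form‖ := div_mul_cancel₀ _ hgap.ne'
  rcases eq_or_lt_of_le (norm_nonneg R.form) with h0 | h0
  · have hz0 := R.pos p hp0
    linarith
  · nlinarith [mul_le_mul_of_nonneg_left hpu.le ht0]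

variable {Y : Type*} [NormedAddCommGroup Y] [NormedSpace ℝ Y]

/-- A surjective isometry of spheres preserves antipodes. -/
theorem odd_of_smooth (hE : SmoothNorm E 1) {f : sphere (0 : E) 1 → sphere (0 : Y) 1}
    (hf : Isometry f) (hsurj : Function.Surjective f) (x : sphere (0 : E) 1) :
    (f (-x) : Y) = -(f x : Y) := by
  have : ProperSpace E := FiniteDimensional.proper_real E
  have hxn : ‖(x : E)‖ = 1 := mem_sphere_zero_iff_norm.1 x.2
  have : Nontrivial E := ⟨⟨(x : E), 0, fun h => by simp [h] at hxn⟩⟩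
  set g := Function.surjInv hsurj with hg
  have hfg : ∀ z, f (g z) = z := Function.surjInv_eq hsurj
  have hne : ∀ u : sphere (0 : E) 1, (u : E) ≠ 0 := fun u => ne_zero_of_mem_unit_sphere u
  have hn : ∀ u : sphere (0 : E) 1, ‖(u : E)‖ = 1 := fun u => mem_sphere_zero_iff_norm.1 u.2
  let σ : sphere (0 : E) 1 → sphere (0 : E) 1 := fun u => -g (-f u)
  have hσi : ∀ u v, dist (σ u) (σ v) = dist u v := fun u v => by
    have hnn : ∀ a b : sphere (0 : E) 1, dist (-a) (-b) = dist a b := fun a b => by
      simp [Subtype.dist_eq, coe_neg_sphere]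
    have hnn' : ∀ a b : sphere (0 : Y) 1, dist (-a) (-b) = dist a b := fun a b => by
      simp [Subtype.dist_eq, coe_neg_sphere]
    show dist (-g (-f u)) (-g (-f v)) = dist u v
    rw [hnn, ← hf.dist_eq, hfg, hfg, hnn', hf.dist_eq]
  have hσd : ∀ u : sphere (0 : E) 1, dN (u : E) (σ u : E) = 1 := by
    intro u
    have h2 : ‖(u : E) + (σ u : E)‖ = 2 := by
      have h := hf.dist_eq u (g (-f u))
      rw [hfg, Subtype.dist_eq, Subtype.dist_eq, coe_neg_sphere, dist_eq_norm, dist_eq_norm,
        sub_neg_eq_add, ← two_smul ℝ, norm_smul, mem_sphere_zero_iff_norm.1 (f u).2] at h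
      show ‖(u : E) + ((-g (-f u) : sphere (0 : E) 1) : E)‖ = 2
      rw [coe_neg_sphere, ← sub_eq_add_neg]
      norm_num at h
      linarith
    set β := dN ((u : E) + (σ u : E)) with hβ
    have hs0 : (u : E) + (σ u : E) ≠ 0 := fun h => by simp [h] at h2
    have hsum : β u + β (σ u : E) = 2 := by
      rw [← map_add, hβ, hE.dN_self le_rfl hs0, h2]
    have h3 := dN_le ((u : E) + (σ u : E)) (u : E)
    have h4 := dN_le ((u : E) + (σ u : E)) (σ u : E)
    rw [← hβ, hn] at h3 h4
    have hu1 : β u = 1 := by linarith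
    have h5 := eq_dN_of_le (hE.differentiableAt le_rfl (hne u)) (β := β) (c := 1)
      (fun v => by rw [one_mul]; exact dN_le _ v) (by rw [one_mul, hn, hu1]) (σ u : E)
    rw [one_mul] at h5
    linarith
  -- work in the face of `x`
  set D : Set E := closedBall 0 1 ∩ {q | dN (x : E) q = 1} with hD
  have hDn : ∀ q ∈ D, ‖q‖ = 1 := fun q hq => by
    have h := dN_le (x : E) q
    rw [show dN (x : E) q = 1 from hq.2] at h
    exact le_antisymm (mem_closedBall_zero_iff.1 hq.1) h
  classical
  let σ' : E → E := fun q => if h : ‖q‖ = 1 then (σ ⟨q, mem_sphere_zero_iff_norm.2 h⟩ : E) else q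
  have hσ' : ∀ q (h : ‖q‖ = 1), σ' q = (σ ⟨q, mem_sphere_zero_iff_norm.2 h⟩ : E) := fun q h =>
    dif_pos h
  have hDd : ∀ q ∈ D, ∀ v, dN q v = dN (x : E) v := fun q hq v => by
    have hq0 : q ≠ 0 := fun h => by simpa [h] using hDn q hq
    have := eq_dN_of_le (hE.differentiableAt le_rfl hq0) (β := dN (x : E)) (c := 1)
      (fun v => by rw [one_mul]; exact dN_le _ v)
      (by rw [one_mul, hDn q hq]; exact hq.2) v
    rw [one_mul] at this
    exact this.symm
  have hmaps : Set.MapsTo σ' D D := fun q hq => by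
    have h := hDn q hq
    rw [hσ' q h]
    refine ⟨mem_closedBall_zero_iff.2 (hn _).le, ?_⟩
    show dN (x : E) (σ ⟨q, _⟩ : E) = 1
    rw [← hDd q hq]
    exact hσd ⟨q, mem_sphere_zero_iff_norm.2 h⟩
  have hiso : ∀ a ∈ D, ∀ b ∈ D, dist (σ' a) (σ' b) = dist a b := fun a ha b hb => by
    rw [hσ' a (hDn a ha), hσ' b (hDn b hb), ← Subtype.dist_eq, hσi, Subtype.dist_eq]
  set F₀ := closure {p : E | Sharp p} with hF₀
  have hfix : ∀ p ∈ F₀ ∩ D, σ' p = p := by
    have hFs : IsClosed {u : sphere (0 : E) 1 | σ u = u} :=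
      isClosed_eq (Isometry.of_dist_eq hσi).continuous continuous_id
    have hcl : IsClosed (((↑) : sphere (0 : E) 1 → E) '' {u | σ u = u}) := by
      have : CompactSpace (sphere (0 : E) 1) := isCompact_iff_compactSpace.1 (isCompact_sphere _ _)
      exact (hFs.isCompact.image continuous_subtype_val).isClosed
    have hsub : F₀ ⊆ ((↑) : sphere (0 : E) 1 → E) '' {u | σ u = u} := by
      refine closure_minimal (fun p hp => ?_) hcl
      exact ⟨⟨p, mem_sphere_zero_iff_norm.2 hp.1⟩,
        Subtype.ext (hp.2 _ (hn _).le (hσd ⟨p, mem_sphere_zero_iff_norm.2 hp.1⟩)), rfl⟩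
    rintro p ⟨hp, hpD⟩
    obtain ⟨u, hu, rfl⟩ := hsub hp
    rw [hσ' _ (hn u)]
    exact congr_arg Subtype.val hu
  have hgen : D ⊆ convexHull ℝ (F₀ ∩ D) := by
    intro q hq
    let C : Set E := {v | ‖v‖ ≤ 1 ∧ (dN (x : E) v = 1 → v ∈ convexHull ℝ (F₀ ∩ D))}
    have hCv : Convex ℝ C := by
      rintro a ⟨ha, ha'⟩ b ⟨hb, hb'⟩ s t hs ht hst
      refine ⟨?_, fun h => ?_⟩
      · refine (norm_add_le _ _).trans ?_
        rw [norm_smul, norm_smul, Real.norm_of_nonneg hs, Real.norm_of_nonneg ht]
        nlinarith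
      · rw [map_add, map_smul, map_smul, smul_eq_mul, smul_eq_mul] at h
        have h1 := (dN_le (x : E) a).trans ha
        have h2 := (dN_le (x : E) b).trans hb
        rcases hs.eq_or_lt' with rfl | hs0
        · rw [zero_add] at hst; subst hst
          simp only [zero_smul, one_smul, zero_add]
          exact hb' (by linarith)
        rcases ht.eq_or_lt' with rfl | ht0
        · rw [add_zero] at hst; subst hst
          simp only [zero_smul, one_smul, add_zero]
          exact ha' (by linarith)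
        have h3 : s * dN (x : E) a ≤ s * 1 := mul_le_mul_of_nonneg_left h1 hs
        have h4 : t * dN (x : E) b ≤ t * 1 := mul_le_mul_of_nonneg_left h2 ht
        exact convex_convexHull ℝ _
          (ha' (mul_left_cancel₀ hs0.ne' (by linarith)))
          (hb' (mul_left_cancel₀ ht0.ne' (by linarith))) hs ht hst
    have hFC : F₀ ⊆ C := fun v hv => by
      have hv1 : ‖v‖ ≤ 1 :=
        mem_closedBall_zero_iff.1 (closure_minimal (fun p hp =>
          mem_closedBall_zero_iff.2 (hp : Sharp p).1.le) isClosed_closedBall hv)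
      exact ⟨hv1, fun h => subset_convexHull ℝ _ ⟨hv, mem_closedBall_zero_iff.2 hv1, h⟩⟩
    exact (convexHull_min hFC hCv (closedBall_subset_hull hE hq.1)).2 hq.2
  have hDc : IsCompact D :=
    (isCompact_closedBall 0 1).inter_right (isClosed_eq (dN (x : E)).continuous continuous_const)
  have hDv : Convex ℝ D :=
    (convex_closedBall 0 1).inter (convex_hyperplane (dN (x : E)).toLinearMap.isLinear 1)
  have hxD : (x : E) ∈ D :=
    ⟨mem_closedBall_zero_iff.2 hxn.le, by
      show dN (x : E) (x : E) = 1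
      rw [hE.dN_self le_rfl (hne x), hxn]⟩
  have hfin := isometry_fix hDc hDv hmaps hiso Set.inter_subset_right hfix hgen (x : E) hxD
  rw [hσ' _ hxn] at hfin
  have hσx : -g (-f x) = x := Subtype.ext hfin
  rw [← hσx, neg_neg, hfg, hσx, coe_neg_sphere]

end Vale.Agent.P084
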