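import Vale.Agent.P084.Norm

/-!
P084 (Tingley's problem), library: an inner product invariant under all linear isometries.
-/

namespace Vale.Agent.P084

open Filter Topology MeasureTheory Metric

variable {V : Type*} [NormedAddCommGroup V] [NormedSpace ℝ V] [FiniteDimensional ℝ V]

/-- Infinitesimal isometries generate isometries. -/
lemma norm_exp_apply (hV : SmoothNorm V 1) {M : V →L[ℝ] V}
    (hM : ∀ ξ, ξ ≠ 0 → dN ξ (M ξ) = 0) (t : ℝ) (v : V) :
    ‖(NormedSpace.exp (t • M)) v‖ = ‖v‖ := by
  have : CompleteSpace V := FiniteDimensional.complete ℝ V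
  rcases eq_or_ne v 0 with rfl | hv
  · simp
  have hu : ∀ r : ℝ, HasDerivAt (fun r : ℝ => (NormedSpace.exp (r • M)) v)
      (M ((NormedSpace.exp (r • M)) v)) r := fun r => by
    have h := (hasDerivAt_exp_smul_const' (𝕂 := ℝ) M r).clm_apply (hasDerivAt_const r v)
    simpa using h
  have hne : ∀ r : ℝ, (NormedSpace.exp (r • M)) v ≠ 0 := fun r h => by
    let : NormedAlgebra ℚ (V →L[ℝ] V) := NormedAlgebra.restrictScalars ℚ ℝ (V →L[ℝ] V)
    have h1 : NormedSpace.exp (-(r • M)) * NormedSpace.exp (r • M) = 1 := by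
      rw [← NormedSpace.exp_add_of_commute (Commute.refl (r • M)).neg_left, neg_add_cancel,
        NormedSpace.exp_zero]
    have h2 := DFunLike.congr_fun h1 v
    rw [ContinuousLinearMap.mul_apply, h, map_zero] at h2
    exact hv h2.symm
  have hd : ∀ r : ℝ, HasDerivAt (fun r : ℝ => ‖(NormedSpace.exp (r • M)) v‖) 0 r := fun r => by
    have h := (hV.hasFDerivAt le_rfl (hne r)).comp_hasDerivAt r (hu r)
    rwa [hM _ (hne r)] at h
  have := is_const_of_deriv_eq_zero (fun r => (hd r).differentiableAt) (fun r => (hd r).deriv) t 0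
  simpa using this

/-- There is an inner product for which all infinitesimal isometries are skew. -/
theorem exists_invariant_form (hV : SmoothNorm V 1) :
    ∃ G : V →L[ℝ] V →L[ℝ] ℝ, (∀ a b, G a b = G b a) ∧ (∀ a, a ≠ 0 → 0 < G a a) ∧
      ∀ M : V →L[ℝ] V, (∀ ξ, ξ ≠ 0 → dN ξ (M ξ) = 0) → ∀ a b, G (M a) b + G a (M b) = 0 := by
  have : CompleteSpace V := FiniteDimensional.complete ℝ V
  let D := V →L[ℝ] ℝ
  letI : MeasurableSpace D := borel D
  haveI : BorelSpace D := ⟨rfl⟩
  let μ : Measure D := Measure.addHaar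
  let B : Set D := closedBall 0 1
  have hBc : IsCompact B := isCompact_closedBall 0 1
  have hint : ∀ a b : V, IntegrableOn (fun φ : D => φ a * φ b) B μ := fun a b =>
    ((ContinuousLinearMap.apply ℝ ℝ a).continuous.mul
      (ContinuousLinearMap.apply ℝ ℝ b).continuous).continuousOn.integrableOn_compact hBc
  let G₀ : V →ₗ[ℝ] V →ₗ[ℝ] ℝ := LinearMap.mk₂ ℝ (fun a b => ∫ φ in B, φ a * φ b ∂μ)
    (fun a a' b => by
      simp only [map_add, add_mul]
      exact integral_add (hint a b) (hint a' b))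
    (fun c a b => by simp only [map_smul, smul_eq_mul, mul_assoc, integral_const_mul])
    (fun a b b' => by
      simp only [map_add, mul_add]
      exact integral_add (hint a b) (hint a b'))
    (fun c a b => by simp only [map_smul, smul_eq_mul, mul_left_comm _ c, integral_const_mul])
  let G : V →L[ℝ] V →L[ℝ] ℝ := LinearMap.toContinuousLinearMap
    ((LinearMap.toContinuousLinearMap (𝕜 := ℝ) (E := V) (F' := ℝ)).toLinearMap.comp G₀)
  have hG : ∀ a b, G a b = ∫ φ in B, φ a * φ b ∂μ := fun a b => rfl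
  refine ⟨G, fun a b => by rw [hG, hG]; simp only [mul_comm], fun a ha => ?_, ?_⟩
  · rw [hG, setIntegral_pos_iff_support_of_nonneg_ae
      (Eventually.of_forall fun φ : D => mul_self_nonneg (φ a)) (hint a a)]
    have ho : IsOpen ({φ : D | φ a ≠ 0} ∩ ball 0 1) :=
      (isOpen_ne_fun (ContinuousLinearMap.apply ℝ ℝ a).continuous continuous_const).inter
        isOpen_ball
    have hne : ({φ : D | φ a ≠ 0} ∩ ball 0 1).Nonempty := by
      obtain ⟨g, hg, hga⟩ := exists_dual_vector'' ℝ a
      refine ⟨(1 / 2 : ℝ) • g, ?_, ?_⟩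
      · simpa [hga] using ha
      · rw [mem_ball_zero_iff, norm_smul]
        norm_num
        linarith
    refine (ho.measure_pos μ hne).trans_le (measure_mono fun φ hφ => ⟨?_, ball_subset_closedBall hφ.2⟩)
    simpa [Function.mem_support] using hφ.1
  · intro M hM a b
    have hL : ∀ t : ℝ, ∀ a b : V,
        G ((NormedSpace.exp (t • M)) a) ((NormedSpace.exp (t • M)) b) = G a b := by
      intro t a b
      set L : V →L[ℝ] V := NormedSpace.exp (t • M) with hLdef
      have hLn : ∀ v, ‖L v‖ = ‖v‖ := norm_exp_apply hV hM t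
      let L' : V ≃ₗᵢ[ℝ] V := LinearIsometry.toLinearIsometryEquiv
        ⟨(L : V →ₗ[ℝ] V), hLn⟩ rfl
      let T : D →L[ℝ] D := (ContinuousLinearMap.compL ℝ V V ℝ).flip L
      have hTn : ∀ φ : D, ‖T φ‖ = ‖φ‖ := fun φ => by
        show ‖φ.comp L‖ = ‖φ‖
        exact ContinuousLinearMap.opNorm_comp_linearIsometryEquiv φ L'
      let T' : D ≃ₗᵢ[ℝ] D := LinearIsometry.toLinearIsometryEquiv
        ⟨(T : D →ₗ[ℝ] D), hTn⟩ rfl
      have hdet : LinearMap.det (T'.toLinearEquiv : D →ₗ[ℝ] D) ≠ 0 :=
        (LinearEquiv.isUnit_det' _).ne_zero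
      have hpre : (T'.toLinearEquiv : D →ₗ[ℝ] D) ⁻¹' B = B := by
        ext φ
        simp [B]
      have hdet1 : ENNReal.ofReal |(LinearMap.det (T'.toLinearEquiv : D →ₗ[ℝ] D))⁻¹| = 1 := by
        have h := Measure.addHaar_preimage_linearMap μ hdet B
        rw [hpre] at h
        exact (ENNReal.mul_eq_right (measure_closedBall_pos μ 0 one_pos).ne'
          hBc.measure_lt_top.ne).1 h.symm
      have hmp : MeasurePreserving T' μ μ := by
        refine ⟨T'.continuous.measurable, ?_⟩
        show Measure.map ((T'.toLinearEquiv : D →ₗ[ℝ] D)) μ = μ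
        rw [Measure.map_linearMap_addHaar_eq_smul_addHaar μ hdet, hdet1, one_smul]
      have h := hmp.setIntegral_preimage_emb T'.toHomeomorph.measurableEmbedding
        (fun φ : D => φ a * φ b) B
      rw [show T' ⁻¹' B = B by ext φ; simp [B]] at h
      rw [hG, hG]
      exact h
    have hu : ∀ c : V, HasDerivAt (fun r : ℝ => (NormedSpace.exp (r • M)) c) (M c) 0 := fun c => by
      have h := (hasDerivAt_exp_smul_const' (𝕂 := ℝ) M 0).clm_apply (hasDerivAt_const 0 c)
      simpa using h
    have h1 := (G.hasFDerivAt.comp_hasDerivAt (0 : ℝ) (hu a)).clm_apply (hu b)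
    have h2 : HasDerivAt (fun r : ℝ => G ((NormedSpace.exp (r • M)) a)
        ((NormedSpace.exp (r • M)) b)) 0 0 := by
      simp only [hL]
      exact hasDerivAt_const 0 _
    have := h1.unique h2
    simpa using this

end Vale.Agent.P084
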