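import Mathlib

/-!
P084 (Tingley's problem), library: algebra of totally symmetric cubic forms.
-/

namespace Vale.Agent.P084

open Filter Topology

/-- The inner product space structure given by a positive definite symmetric form. -/
noncomputable abbrev formCore {V : Type*} [AddCommGroup V] [Module ℝ V] (Q : V →ₗ[ℝ] V →ₗ[ℝ] ℝ)
    (hs : ∀ a b, Q a b = Q b a) (hp : ∀ a, a ≠ 0 → 0 < Q a a) : InnerProductSpace.Core ℝ V where
  inner a b := Q a b
  conj_inner_symm a b := by simpa using hs b a
  re_inner_nonneg a := by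
    rcases eq_or_ne a 0 with rfl | ha
    · simp
    · simpa using (hp a ha).le
  add_left a b c := by simp
  smul_left a b r := by simp
  definite a ha := by
    by_contra h
    exact (hp a h).ne' ha

/-- Simultaneous diagonalisation of a positive definite form and a symmetric form. -/
theorem exists_diag {V : Type*} [AddCommGroup V] [Module ℝ V] [FiniteDimensional ℝ V]
    (Q R : V →ₗ[ℝ] V →ₗ[ℝ] ℝ) (hQs : ∀ a b, Q a b = Q b a) (hQp : ∀ a, a ≠ 0 → 0 < Q a a)
    (hRs : ∀ a b, R a b = R b a) :
    ∃ (b : Module.Basis (Fin (Module.finrank ℝ V)) ℝ V) (lam : Fin (Module.finrank ℝ V) → ℝ),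
      (∀ v i, b.repr v i = Q (b i) v) ∧ (∀ v i, R (b i) v = lam i * Q (b i) v) := by
  letI : NormedAddCommGroup V :=
    @InnerProductSpace.Core.toNormedAddCommGroup ℝ V _ _ _ (formCore Q hQs hQp)
  letI : InnerProductSpace ℝ V := InnerProductSpace.ofCore (formCore Q hQs hQp).toCore
  have hin : ∀ a b : V, inner ℝ a b = Q a b := fun a b => rfl
  let o := stdOrthonormalBasis ℝ V
  let T : V →ₗ[ℝ] V := ∑ i, (R.flip (o i)).smulRight (o i)
  have hTR : ∀ a c, inner ℝ (T a) c = R a c := by
    intro a c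
    have hc : ∑ i, inner ℝ (o i) c • o i = c := o.sum_repr' c
    conv_rhs => rw [← hc]
    simp [T, sum_inner, real_inner_smul_left, mul_comm]
  have hT : T.IsSymmetric := fun a c => by
    show inner ℝ (T a) c = inner ℝ a (T c)
    rw [hTR, real_inner_comm (T c), hTR, hRs]
  refine ⟨(hT.eigenvectorBasis rfl).toBasis, hT.eigenvalues rfl, fun v i => ?_, fun v i => ?_⟩
  · simp [OrthonormalBasis.repr_apply_apply, hin]
  · rw [← hTR, OrthonormalBasis.coe_toBasis, hT.apply_eigenvectorBasis rfl i]
    simp [real_inner_smul_left, hin]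

section Rigidity

variable {V : Type*} [AddCommGroup V] [Module ℝ V] [FiniteDimensional ℝ V]

/-- A totally symmetric cubic form with the norm-type side condition has no nonzero
self-reproducing direction outside a single line. -/
theorem rigid (hdim : 2 ≤ Module.finrank ℝ V) (Q : V →ₗ[ℝ] V →ₗ[ℝ] ℝ)
    (hQs : ∀ a b, Q a b = Q b a) (hQp : ∀ a, a ≠ 0 → 0 < Q a a) (B : V →ₗ[ℝ] V →ₗ[ℝ] V)
    (hBs : ∀ a b, B a b = B b a) (hC : ∀ a b c, Q a (B b c) = Q b (B a c))
    (p : V → V →ₗ[ℝ] ℝ) (δ : V → ℝ) (hp : ∀ ξ, ξ ≠ 0 → 0 < p ξ ξ)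
    (hpc : ∀ ξ, ξ ≠ 0 → ∀ v w, Tendsto (fun t : ℝ => p (ξ + t • v) w) (𝓝 0) (𝓝 (p ξ w)))
    (hid : ∀ ξ, ξ ≠ 0 → ∀ η, p ξ (B η ξ) = Q η ξ * δ ξ) : B = 0 := by
  letI : NormedAddCommGroup V :=
    @InnerProductSpace.Core.toNormedAddCommGroup ℝ V _ _ _ (formCore Q hQs hQp)
  letI : InnerProductSpace ℝ V := InnerProductSpace.ofCore (formCore Q hQs hQp).toCore
  have hin : ∀ a b : V, inner ℝ a b = Q a b := fun a b => rfl
  -- (a) an eigenvector orthogonal to the direction has eigenvalue zero
  have ha : ∀ η ξ : V, ∀ lam : ℝ, ξ ≠ 0 → B η ξ = lam • ξ → Q η ξ = 0 → lam = 0 := by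
    intro η ξ lam hξ h h0
    have h1 := hid ξ hξ η
    rw [h, h0, zero_mul, map_smul, smul_eq_mul] at h1
    exact (mul_eq_zero.1 h1).resolve_right (hp ξ hξ).ne'
  -- (b) the operator of an idempotent direction has rank at most one
  have hb : ∀ (e : V) (d : ℝ), Q e e = 1 → B e e = d • e → ∀ v, B e v = (d * Q e v) • e := by
    intro e d he hee
    let T : V →ₗ[ℝ] V := B e - ((Q e).smulRight (d • e))
    have hT : T.IsSymmetric := fun a c => by
      show inner ℝ (T a) c = inner ℝ a (T c)
      have h1 : Q c (B e a) = Q a (B e c) := by rw [hC c e a, hBs c a, hC e a c]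
      simp only [T, LinearMap.sub_apply, LinearMap.smulRight_apply]
      rw [inner_sub_left, inner_sub_right, real_inner_smul_left, real_inner_smul_right,
        real_inner_smul_left, real_inner_smul_right]
      simp only [hin]
      rw [hQs (B e a) c, h1, hQs a e]
      ring
    have hTe : T e = 0 := by simp [T, hee, he]
    have hT0 : T = 0 := by
      refine (hT.eigenvectorBasis rfl).toBasis.ext fun i => ?_
      rw [OrthonormalBasis.coe_toBasis, hT.apply_eigenvectorBasis rfl i, LinearMap.zero_apply]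
      set ξ := hT.eigenvectorBasis rfl i with hξ
      set l := (RCLike.ofReal (hT.eigenvalues rfl i) : ℝ) with hl
      rcases eq_or_ne l 0 with hl0 | hl0
      · rw [hl0, zero_smul]
      exfalso
      have hξ0 : ξ ≠ 0 := (hT.eigenvectorBasis rfl).orthonormal.ne_zero i
      have hTξ : T ξ = l • ξ := hT.apply_eigenvectorBasis rfl i
      have horth : Q e ξ = 0 := by
        have h1 : inner ℝ (T e) ξ = inner ℝ e (T ξ) := hT e ξ
        rw [hTe, hTξ, inner_zero_left, real_inner_smul_right, hin] at h1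
        exact (mul_eq_zero.1 h1.symm).resolve_left hl0
      refine hl0 (ha e ξ l hξ0 ?_ horth)
      simpa [T, horth] using hTξ
    intro v
    have := LinearMap.congr_fun hT0 v
    simp only [T, LinearMap.sub_apply, LinearMap.smulRight_apply, LinearMap.zero_apply,
      sub_eq_zero] at this
    rw [this, smul_smul, mul_comm]
  -- (c) idempotent directions in invariant subspaces
  have hc : ∀ W : Submodule ℝ V, (∀ a ∈ W, ∀ b ∈ W, B a b ∈ W) →
      (∃ a ∈ W, ∃ b ∈ W, B a b ≠ 0) → ∃ e ∈ W, ∃ d : ℝ, 0 < d ∧ Q e e = 1 ∧ B e e = d • e := by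
    intro W hW hne
    let φ : V → ℝ := fun x => inner ℝ x (B x x)
    have hQn : ∀ x : V, Q x x = ‖x‖ ^ 2 := fun x => by rw [← hin, real_inner_self_eq_norm_sq]
    have hcomm : ∀ x y z : V, Q x (B y z) = Q y (B x z) := hC
    have hφc : Continuous φ := by
      let B' : V →ₗ[ℝ] V →L[ℝ] V :=
        (LinearMap.toContinuousLinearMap (𝕜 := ℝ) (E := V) (F' := V)).toLinearMap.comp B
      exact continuous_id.inner (B'.continuous_of_finiteDimensional.clm_apply continuous_id :)
    obtain ⟨a, haW, b, hbW, hab⟩ := hne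
    have hW0 : ∃ w ∈ W, w ≠ 0 := ⟨B a b, hW a haW b hbW, hab⟩
    obtain ⟨w, hwW, hw⟩ := hW0
    have hS : IsCompact ((W : Set V) ∩ Metric.sphere 0 1) :=
      (isCompact_sphere 0 1).inter_left W.closed_of_finiteDimensional
    obtain ⟨e, ⟨heW, he⟩, hmax⟩ := hS.exists_isMaxOn
      ⟨‖w‖⁻¹ • w, W.smul_mem _ hwW, mem_sphere_zero_iff_norm.2 (norm_smul_inv_norm hw)⟩
      hφc.continuousOn
    rw [mem_sphere_zero_iff_norm] at he
    have hhom : ∀ (t : ℝ) (x : V), φ (t • x) = t ^ 3 * φ x := fun t x => by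
      simp [φ, real_inner_smul_left, real_inner_smul_right]
      ring
    have hle : ∀ x ∈ W, φ x ≤ φ e * ‖x‖ ^ 3 := by
      intro x hx
      rcases eq_or_ne x 0 with rfl | hx0
      · simp [φ]
      have h := hmax (show ‖x‖⁻¹ • x ∈ (W : Set V) ∩ Metric.sphere 0 1 from
        ⟨W.smul_mem _ hx, mem_sphere_zero_iff_norm.2 (norm_smul_inv_norm hx0)⟩)
      simp only [Set.mem_ofPred_eq, hhom, inv_pow] at h
      have : 0 < ‖x‖ ^ 3 := pow_pos (norm_pos_iff.2 hx0) 3
      rw [inv_mul_le_iff₀ this] at h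
      linarith
    have hd : 0 < φ e := by
      by_contra hcon
      push Not at hcon
      have hzero : ∀ x ∈ W, φ x = 0 := by
        intro x hx
        have h1 := hle x hx
        have h2 := hle (-x) (W.neg_mem hx)
        rw [show -x = (-1 : ℝ) • x by simp, hhom, norm_smul] at h2
        norm_num at h2
        have h3 : φ e * ‖x‖ ^ 3 ≤ 0 :=
          mul_nonpos_of_nonpos_of_nonneg hcon (pow_nonneg (norm_nonneg x) 3)
        linarith
      have hdiag : ∀ y ∈ W, B y y = 0 := by
        intro y hy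
        have key : ∀ x ∈ W, Q x (B y y) = 0 := by
          intro x hx
          have h1 := hzero (x + y) (W.add_mem hx hy)
          have h2 := hzero (x - y) (W.sub_mem hx hy)
          have h3 := hzero x hx
          simp only [φ, hin, map_add, map_sub, LinearMap.add_apply, LinearMap.sub_apply] at h1 h2 h3
          have e1 : Q y (B x y) = Q x (B y y) := hcomm y x y
          have e2 : Q y (B y x) = Q x (B y y) := by rw [hBs y x]; exact e1
          linarith
        have := key _ (hW y hy y hy)
        by_contra hne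
        exact (hQp _ hne).ne' this
      apply hab
      have h := hdiag (a + b) (W.add_mem haW hbW)
      simp only [map_add, LinearMap.add_apply, hdiag a haW, hdiag b hbW, zero_add, add_zero,
        hBs b a] at h
      rw [← two_smul ℝ] at h
      exact (smul_eq_zero.1 h).resolve_left two_ne_zero
    refine ⟨e, heW, φ e, hd, by rw [hQn, he, one_pow], ?_⟩
    have hlag : ∀ z ∈ W, Q e z = 0 → Q z (B e e) = 0 := by
      intro z hz hez
      have hmin : IsLocalMin (fun t : ℝ => φ e * (1 + t ^ 2 * ‖z‖ ^ 2) ^ 2 -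
          (φ e + 3 * Q z (B e e) * t + 3 * Q z (B e z) * t ^ 2 + φ z * t ^ 3)) 0 := by
        refine Eventually.of_forall fun t => ?_
        have hn : ‖e + t • z‖ ^ 2 = 1 + t ^ 2 * ‖z‖ ^ 2 := by
          rw [norm_add_sq_real, real_inner_smul_right, hin, hez, norm_smul, he, mul_pow,
            Real.norm_eq_abs, sq_abs]
          ring
        have hexp : φ (e + t • z) =
            φ e + 3 * Q z (B e e) * t + 3 * Q z (B e z) * t ^ 2 + φ z * t ^ 3 := by
          simp only [φ, hin, map_add, map_smul, LinearMap.add_apply, LinearMap.smul_apply,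
            smul_eq_mul, hBs z e]
          rw [show Q e (B e z) = Q z (B e e) by rw [hcomm z e e, hBs z e],
            show Q e (B z z) = Q z (B e z) by rw [hcomm e z z]]
          ring
        have h1 := hle _ (W.add_mem heW (W.smul_mem t hz))
        have h2 : ‖e + t • z‖ ^ 3 ≤ (1 + t ^ 2 * ‖z‖ ^ 2) ^ 2 := by
          rw [← hn, ← pow_mul]
          refine pow_le_pow_right₀ ?_ (by norm_num)
          nlinarith [norm_nonneg (e + t • z), sq_nonneg (t * ‖z‖)]
        have h3 := mul_le_mul_of_nonneg_left h2 hd.le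
        simp only [ne_eq, OfNat.ofNat_ne_zero, not_false_eq_true, zero_pow, zero_mul, add_zero,
          one_pow, mul_one, mul_zero, sub_self]
        linarith
      have hder : HasDerivAt (fun t : ℝ => φ e * (1 + t ^ 2 * ‖z‖ ^ 2) ^ 2 -
          (φ e + 3 * Q z (B e e) * t + 3 * Q z (B e z) * t ^ 2 + φ z * t ^ 3))
          (-(3 * Q z (B e e))) 0 := by
        refine (((((hasDerivAt_pow 2 (0 : ℝ)).mul_const (‖z‖ ^ 2)).const_add 1).pow 2).const_mul
          (φ e) |>.sub (((((hasDerivAt_id' (0 : ℝ)).const_mul (3 * Q z (B e e))).const_add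
          (φ e)).add ((hasDerivAt_pow 2 (0 : ℝ)).const_mul (3 * Q z (B e z)))).add
          ((hasDerivAt_pow 3 (0 : ℝ)).const_mul (φ z)))).congr_deriv ?_
        simp
      have := hmin.hasDerivAt_eq_zero hder
      linarith
    set r := B e e - φ e • e with hr
    have her : Q e r = 0 := by
      simp only [hr, map_sub, map_smul, smul_eq_mul, hQn e, he]
      simp [φ, hin]
    have h1 := hlag r (W.sub_mem (hW e heW e heW) (W.smul_mem _ heW)) her
    have h2 : Q r r = 0 := by
      rw [show Q r r = Q r (B e e - φ e • e) by rw [← hr], map_sub, map_smul, smul_eq_mul, h1,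
        hQs r e, her]
      ring
    by_contra hne
    exact (hQp r (sub_ne_zero.2 hne)).ne' h2
  -- (d) conclusion
  by_contra hB
  have hex : ∃ a ∈ (⊤ : Submodule ℝ V), ∃ b ∈ (⊤ : Submodule ℝ V), B a b ≠ 0 := by
    by_contra! h
    exact hB (LinearMap.ext fun a => LinearMap.ext fun b => h a trivial b trivial)
  obtain ⟨e, -, d, hd, he, hee⟩ := hc ⊤ (fun _ _ _ _ => trivial) hex
  have hBe := hb e d he hee
  let W : Submodule ℝ V := LinearMap.ker (Q e)
  have hW : ∀ {v : V}, v ∈ W ↔ Q e v = 0 := Iff.rfl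
  have hWB : ∀ a ∈ W, ∀ b ∈ W, B a b ∈ W := by
    intro a _ b hb'
    rw [hW, hC e a b, hBe, hW.1 hb']
    simp
  have hδ : ∀ (e : V) (d : ℝ), Q e e = 1 → B e e = d • e → ∀ ξ, Q e ξ ≠ 0 →
      δ ξ = d * p ξ e := by
    intro e d he hee ξ hξ
    have hξ0 : ξ ≠ 0 := fun h => hξ (by rw [h, map_zero])
    have h := hid ξ hξ0 e
    rw [hb e d he hee, map_smul, smul_eq_mul] at h
    refine mul_left_cancel₀ hξ ?_
    linarith
  have he0 : e ≠ 0 := fun h => by simp [h] at he
  by_cases h2 : ∃ a ∈ W, ∃ b ∈ W, B a b ≠ 0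
  · obtain ⟨e', he'W, d', hd', he', hee'⟩ := hc W hWB h2
    have hee0 : Q e e' = 0 := hW.1 he'W
    set z := d • e - d' • e' with hz
    have h1 : Q e z = d := by simp [hz, he, hee0]
    have h3 : Q e' z = -d' := by simp [hz, he', hQs e' e, hee0]
    have e1 := hδ e d he hee z (by rw [h1]; exact hd.ne')
    have e2 := hδ e' d' he' hee' z (by rw [h3]; exact (neg_ne_zero.2 hd'.ne'))
    have hz0 : z ≠ 0 := fun h => by rw [h, map_zero] at h1; exact hd.ne h1
    have := hp z hz0
    rw [show p z z = p z (d • e - d' • e') from rfl, map_sub, map_smul, map_smul, smul_eq_mul,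
      smul_eq_mul, ← e1, ← e2, sub_self] at this
    exact lt_irrefl _ this
  · push Not at h2
    obtain ⟨v, hvW, hv0⟩ : ∃ v ∈ W, v ≠ 0 := by
      refine Submodule.exists_mem_ne_zero_of_ne_bot fun h => ?_
      have hinj : Function.Injective (Q e) := LinearMap.ker_eq_bot.1 h
      have := LinearMap.finrank_le_finrank_of_injective hinj
      rw [Module.finrank_self] at this
      omega
    have hlim := hpc e he0 v e
    have hzero : ∀ t : ℝ, t ≠ 0 → p (e + t • v) e = 0 := by
      intro t ht
      have hQ : Q e (e + t • v) = 1 := by simp [he, hW.1 hvW]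
      have hξ0 : e + t • v ≠ 0 := fun h => by rw [h, map_zero] at hQ; exact zero_ne_one hQ
      have h := hid _ hξ0 v
      rw [map_add, map_smul, h2 v hvW v hvW, smul_zero, add_zero, hBs v e, hBe, hW.1 hvW,
        mul_zero, zero_smul, map_zero, map_add, map_smul, hQs v e, hW.1 hvW, zero_add,
        smul_eq_mul, hδ e d he hee _ (by rw [hQ]; exact one_ne_zero)] at h
      have hvv := hQp v hv0
      have h' : t * Q v v * d * p (e + t • v) e = 0 := by linarith
      exact (mul_eq_zero.1 h').resolve_left (by positivity)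
    have hp0 : p e e = 0 := tendsto_nhds_unique (hlim.mono_left nhdsWithin_le_nhds)
      (tendsto_const_nhds.congr' (eventually_mem_nhdsWithin.mono fun t ht => (hzero t ht).symm) :
        Tendsto (fun t : ℝ => p (e + t • v) e) (𝓝[≠] 0) (𝓝 0))
    exact (hp e he0).ne' hp0

end Rigidity

end Vale.Agent.P084
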