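import Vale.Agent.P084.Identity
import Vale.Agent.P084.InvForm
import Vale.Agent.P084.Rigidity

/-!
P084 (Tingley's problem), library: the second derivative of the extension is dominated by the
second derivative of the norm, uniformly.
-/

namespace Vale.Agent.P084

open Filter Topology

/-- The finite combinatorial estimate. -/
lemma gamma_bound {ι : Type*} [Fintype ι] (lam : ι → ℝ) (hl : ∀ i, 0 ≤ lam i)
    (Γ : ι → ι → ι → ℝ) (hsym : ∀ k j i, Γ k j i = Γ j k i)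
    (hQ : ∀ k j i, lam i * Γ k j i = lam k * Γ i j k) {C o : ℝ} (hC : 0 ≤ C) (ho : 0 ≤ o)
    (ho' : o * Fintype.card ι ^ 2 ≤ 1 / 10)
    (hskew : ∀ k j i, |Γ k j i + Γ k i j| ≤ C * lam k + o * ∑ b, ∑ c, |Γ k b c|)
    (k j i : ι) : |Γ k j i| ≤ 4 * C * lam k := by
  have key : ∀ ε > 0, |Γ k j i| ≤ 4 * C * (lam k + ε) := by
    intro ε hε
    have hpos : ∀ k, 0 < lam k + ε := fun k => by linarith [hl k]
    obtain ⟨⟨k₀, j₀, i₀⟩, -, hmax⟩ := Finset.exists_max_image Finset.univ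
      (fun t : ι × ι × ι => |Γ t.1 t.2.1 t.2.2| / (lam t.1 + ε)) ⟨(k, j, i), Finset.mem_univ _⟩
    set R := |Γ k₀ j₀ i₀| / (lam k₀ + ε) with hR
    have hR0 : 0 ≤ R := div_nonneg (abs_nonneg _) (hpos k₀).le
    have hle : ∀ k j i, |Γ k j i| ≤ R * (lam k + ε) := fun k j i =>
      (div_le_iff₀ (hpos k)).1 (hmax (k, j, i) (Finset.mem_univ _))
    set a := C + o * Fintype.card ι ^ 2 * R with ha
    have ha0 : 0 ≤ a := by positivity
    have he : ∀ k j i, |Γ k j i + Γ k i j| ≤ a * (lam k + ε) := by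
      intro k j i
      refine (hskew k j i).trans ?_
      have h1 : ∑ b, ∑ c, |Γ k b c| ≤ Fintype.card ι ^ 2 * (R * (lam k + ε)) := by
        refine (Finset.sum_le_sum fun b _ => Finset.sum_le_sum fun c _ => hle k b c).trans_eq ?_
        simp [sq, mul_assoc]
      rw [ha]
      nlinarith [mul_le_mul_of_nonneg_left h1 ho, mul_nonneg hC hε.le]
    have hmain : ∀ k j i, |Γ k j i| ≤ 5 / 2 * a * (lam k + ε) := by
      intro k j i
      have ek := abs_le.1 (he k j i)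
      have ei := abs_le.1 (he i j k)
      have ej := abs_le.1 (he j i k)
      rw [hsym j i k, hsym j k i] at ej
      rw [hsym i k j] at ei
      have hXi := hQ k j i
      have hYj := hQ k i j
      rw [hsym j i k] at hYj
      set X := Γ k j i
      set Y := Γ k i j
      set Z := Γ i j k
      rw [abs_le]
      rcases le_total (lam i) (lam j) with hij | hij
      · rcases le_or_gt (lam j) (lam k) with hjk | hjk
        · have h1 := mul_le_mul_of_nonneg_left hjk ha0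
          have h2 := mul_le_mul_of_nonneg_left (hij.trans hjk) ha0
          have := mul_nonneg ha0 (hpos k).le
          constructor <;> linarith
        · have hj : 0 < lam j := lt_of_le_of_lt (hl k) hjk
          have hZ : |Z| ≤ 3 / 2 * a * (lam j + ε) := by
            have h1 := mul_le_mul_of_nonneg_left hjk.le ha0
            have h2 := mul_le_mul_of_nonneg_left hij ha0
            rw [abs_le]; constructor <;> linarith
          have hY : |Y| ≤ 3 / 2 * a * (lam k + ε) := by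
            refine le_of_mul_le_mul_left ?_ hj
            rw [← abs_of_pos hj, ← abs_mul, hYj, abs_mul, abs_of_pos hj, abs_of_nonneg (hl k)]
            refine (mul_le_mul_of_nonneg_left hZ (hl k)).trans ?_
            nlinarith [mul_le_mul_of_nonneg_left hjk.le (mul_nonneg ha0 hε.le)]
          have hY' := abs_le.1 hY
          constructor <;> linarith
      · rcases le_or_gt (lam i) (lam k) with hik | hik
        · have h1 := mul_le_mul_of_nonneg_left hik ha0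
          have h2 := mul_le_mul_of_nonneg_left (hij.trans hik) ha0
          have := mul_nonneg ha0 (hpos k).le
          constructor <;> linarith
        · have hi : 0 < lam i := lt_of_le_of_lt (hl k) hik
          have hZ : |Z| ≤ 3 / 2 * a * (lam i + ε) := by
            have h1 := mul_le_mul_of_nonneg_left hik.le ha0
            have h2 := mul_le_mul_of_nonneg_left hij ha0
            rw [abs_le]; constructor <;> linarith
          have hX : |X| ≤ 3 / 2 * a * (lam k + ε) := by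
            refine le_of_mul_le_mul_left ?_ hi
            rw [← abs_of_pos hi, ← abs_mul, hXi, abs_mul, abs_of_pos hi, abs_of_nonneg (hl k)]
            refine (mul_le_mul_of_nonneg_left hZ (hl k)).trans ?_
            nlinarith [mul_le_mul_of_nonneg_left hik.le (mul_nonneg ha0 hε.le)]
          have hX' := abs_le.1 hX
          have := mul_nonneg ha0 (hpos k).le
          constructor <;> linarith
    have hR4 : R ≤ 4 * C := by
      have h1 : R ≤ 5 / 2 * a := (div_le_iff₀ (hpos k₀)).2 (hmain k₀ j₀ i₀)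
      have h2 := mul_le_mul_of_nonneg_right ho' hR0
      rw [ha] at h1
      linarith
    exact (hle k j i).trans (mul_le_mul_of_nonneg_right hR4 (hpos k).le)
  rcases hC.eq_or_lt' with rfl | hC'
  · simpa using key 1 one_pos
  refine le_of_forall_pos_le_add fun η hη => ?_
  refine (key (η / (4 * C)) (by positivity)).trans_eq ?_
  field_simp

/-- A positive definite form controls the norm. -/
lemma exists_coercive {H : Type*} [NormedAddCommGroup H] [NormedSpace ℝ H]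
    [FiniteDimensional ℝ H] (G : H →L[ℝ] H →L[ℝ] ℝ) (hGp : ∀ a, a ≠ 0 → 0 < G a a) :
    ∃ β : ℝ, 0 ≤ β ∧ ∀ a : H, G a a ≤ 1 → ‖a‖ ≤ β := by
  have : ProperSpace H := FiniteDimensional.proper_real H
  obtain ⟨κ, hκ, hκle⟩ := (isCompact_sphere (0 : H) 1).exists_forall_le'
    (G.continuous.clm_apply continuous_id).continuousOn (a := 0)
    (fun a ha => hGp a (ne_zero_of_mem_unit_sphere ⟨a, ha⟩))
  refine ⟨Real.sqrt κ⁻¹, Real.sqrt_nonneg _, fun a ha => ?_⟩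
  rcases eq_or_ne a 0 with rfl | ha0
  · simp [Real.sqrt_nonneg]
  have h := hκle (‖a‖⁻¹ • a) (mem_sphere_zero_iff_norm.2 (norm_smul_inv_norm ha0))
  simp only [id, map_smul, smul_apply, smul_eq_mul] at h
  rw [← Real.sqrt_sq (norm_nonneg a)]
  refine Real.sqrt_le_sqrt ?_
  rw [← one_div, le_div_iff₀ hκ]
  have hp : 0 < ‖a‖ := norm_pos_iff.2 ha0
  calc ‖a‖ ^ 2 * κ ≤ ‖a‖ ^ 2 * (‖a‖⁻¹ * (‖a‖⁻¹ * G a a)) := by gcongr
    _ = G a a := by field_simp
    _ ≤ 1 := ha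

/-- Projection along `x` onto the kernel of `f`. -/
noncomputable def Pr {E : Type*} [NormedAddCommGroup E] [NormedSpace ℝ E] (f : E →L[ℝ] ℝ)
    (x v : E) : E :=
  v - (f v / f x) • x

section Pr

variable {E : Type*} [NormedAddCommGroup E] [NormedSpace ℝ E]

lemma Pr_apply_self {f : E →L[ℝ] ℝ} {x : E} (h : f x ≠ 0) (v : E) : f (Pr f x v) = 0 := by
  simp [Pr, h]

lemma Pr_smul (f : E →L[ℝ] ℝ) (x : E) (c : ℝ) (v : E) : Pr f x (c • v) = c • Pr f x v := by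
  simp [Pr, smul_sub, smul_smul, mul_div_assoc]

lemma Pr_Pr (f : E →L[ℝ] ℝ) {x : E} (hfx : f x ≠ 0) (g : E →L[ℝ] ℝ) {v : E} (hv : f v = 0) :
    Pr f x (Pr g x v) = v := by
  have e : f (v - (g v / g x) • x) / f x = -(g v / g x) := by
    rw [map_sub, map_smul, hv, smul_eq_mul, zero_sub, neg_div, mul_div_cancel_right₀ _ hfx]
  show v - (g v / g x) • x - (f (v - (g v / g x) • x) / f x) • x = v
  rw [e, neg_smul, sub_neg_eq_add, sub_add_cancel]

lemma norm_Pr_le {f : E →L[ℝ] ℝ} {x : E} (hf : ∀ v, |f v| ≤ ‖v‖) {K : ℝ} (hfx : 0 < f x)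
    (hK : ‖x‖ ≤ K * f x) (v : E) : ‖Pr f x v‖ ≤ (1 + K) * ‖v‖ := by
  refine (norm_sub_le _ _).trans ?_
  rw [norm_smul, Real.norm_eq_abs, abs_div, abs_of_pos hfx, div_mul_eq_mul_div, add_mul, one_mul]
  gcongr
  rw [div_le_iff₀ hfx]
  nlinarith [mul_le_mul (hf v) hK (norm_nonneg x) (norm_nonneg v)]

end Pr

variable {E F : Type*} [NormedAddCommGroup E] [NormedSpace ℝ E] [FiniteDimensional ℝ E]
  [NormedAddCommGroup F] [NormedSpace ℝ F] [FiniteDimensional ℝ F]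
  {H : Type*} [NormedAddCommGroup H] [NormedSpace ℝ H] [FiniteDimensional ℝ H]

namespace SphIso

variable (s : SphIso E F)
variable (hE : SmoothNorm E 2)
include hE

lemma Bop_Pr {x : E} (hx : x ≠ 0) {f : E →L[ℝ] ℝ} (a b : E) :
    s.Bop x (Pr f x a) (Pr f x b) = s.Bop x a b := by
  simp [Pr, s.Bop_self_left hE hx, s.Bop_self_right hE hx]

omit [FiniteDimensional ℝ F] in
include s in
lemma ddN_Pr {x : E} (hx : x ≠ 0) (f : E →L[ℝ] ℝ) :
    (∀ a b, ddN x (Pr f x a) b = ddN x a b) ∧ ∀ {a b}, ddN x a (Pr f x b) = ddN x a b := by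
  constructor
  · intro a b; simp [Pr, hE.ddN_self_left hx]
  · intro a b; simp [Pr, hE.ddN_self_right hx]

/-- The pulled back second derivative seen on the model `H` of the tangent space. -/
def Adapted (x₀ x : E) (ι : H →L[ℝ] E) (η : H) (N : H →L[ℝ] H) : Prop :=
  ∀ ξ, ι (N ξ) = Pr (dN x₀) x (s.Bop x (ι η) (ι ξ))

/-- Compactness: skewness up to a small error. -/
lemma defect_bound {x₀ : E} (hx₀ : ‖x₀‖ = 1) (ι : H →L[ℝ] E) (hι : ∀ a, ‖ι a‖ = ‖a‖)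
    (hH : ∀ a, dN x₀ (ι a) = 0) (G : H →L[ℝ] H →L[ℝ] ℝ)
    (hGM : ∀ M : H →L[ℝ] H, (∀ ξ, ξ ≠ 0 → dN ξ (M ξ) = 0) → ∀ a b, G (M a) b + G a (M b) = 0)
    {o : ℝ} (hopos : 0 < o) :
    ∃ C₁ : ℝ, 0 ≤ C₁ ∧ ∀ᶠ x in 𝓝 x₀, ∀ (η : H) (N : H →L[ℝ] H), Adapted s x₀ x ι η N →
      ∀ a b, |G (N a) b + G a (N b)| ≤ (C₁ * ‖ddN x (ι η)‖ + o * ‖N‖) * (‖a‖ * ‖b‖) := by
  have hx₀0 : x₀ ≠ 0 := fun h => by simp [h] at hx₀
  have hn0 : dN x₀ x₀ = 1 := by rw [hE.dN_self one_le_two hx₀0, hx₀]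
  have hιi : Function.Injective ι := fun a b h => sub_eq_zero.1 <| norm_eq_zero.1 <| by
    rw [← hι, map_sub, h, sub_self, norm_zero]
  have hcoe : ∀ {a : H}, a ≠ 0 → ι a ≠ 0 := fun h e => h (hιi (by rw [e, map_zero]))
  have hHd : ∀ x : H, x ≠ 0 → ∀ h : H, dN x h = dN (ι x) (ι h) := fun x hx h => by
    have h1 : HasFDerivAt (fun z : H => ‖z‖) ((dN (ι x)).comp ι) x := by
      rw [show (fun z : H => ‖z‖) = fun z => ‖ι z‖ from funext fun z => (hι z).symm]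
      exact (hE.hasFDerivAt one_le_two (hcoe hx)).comp x ι.hasFDerivAt
    exact DFunLike.congr_fun h1.fderiv h
  let F₁ : E → (H →L[ℝ] H) → H → ℝ := fun x N ξ =>
    dN (Pr (dN x) x (ι ξ)) (Pr (dN x) x (ι (N ξ)))
  let φ : (H →L[ℝ] H) → H → H → ℝ := fun N a b => G (N a) b + G a (N b)
  have hφle : ∀ N a b, |φ N a b| ≤ 2 * ‖G‖ * ‖N‖ * (‖a‖ * ‖b‖) := fun N a b => by
    refine (abs_add_le _ _).trans ?_
    have h1 : ‖G (N a) b‖ ≤ ‖G‖ * (‖N‖ * ‖a‖) * ‖b‖ :=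
      (G.le_opNorm₂ _ _).trans (by gcongr; exact N.le_opNorm a)
    have h2 : ‖G a (N b)‖ ≤ ‖G‖ * ‖a‖ * (‖N‖ * ‖b‖) :=
      (G.le_opNorm₂ _ _).trans (by gcongr; exact N.le_opNorm b)
    rw [Real.norm_eq_abs] at h1 h2
    linarith
  have : ProperSpace (H →L[ℝ] H) := FiniteDimensional.proper_real _
  have : ProperSpace H := FiniteDimensional.proper_real H
  let bad : Set ((H →L[ℝ] H) × H × H) :=
    (Metric.sphere 0 1 ×ˢ Metric.closedBall 0 1 ×ˢ Metric.closedBall 0 1) ∩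
      {q | o ≤ |φ q.1 q.2.1 q.2.2|}
  have hbad : IsCompact bad :=
    ((isCompact_sphere 0 1).prod ((isCompact_closedBall 0 1).prod (isCompact_closedBall 0 1)))
      |>.inter_right (isClosed_le continuous_const (by fun_prop))
  have hev : ∀ᶠ p : ℝ × E in 𝓝 (0, x₀), ∀ q ∈ bad,
      ∃ ξ : H, ‖ξ‖ = 1 ∧ p.1 < |F₁ p.2 q.1 ξ| := by
    refine hbad.eventually_forall_of_forall_eventually fun q hq => ?_
    obtain ⟨N, a₁, b₁⟩ := q
    obtain ⟨ξ, hξ, hξN⟩ : ∃ ξ : H, ξ ≠ 0 ∧ dN ξ (N ξ) ≠ 0 := by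
      by_contra! hcon
      have h1 : o ≤ |φ N a₁ b₁| := hq.2
      rw [show φ N a₁ b₁ = 0 from hGM N hcon a₁ b₁, abs_zero] at h1
      linarith
    set ξ₁ := ‖ξ‖⁻¹ • ξ with hξ₁
    have hξ1 : ‖ξ₁‖ = 1 := norm_smul_inv_norm hξ
    have hξ₁0 : ξ₁ ≠ 0 := fun h => by simp [h] at hξ1
    have e1 : ∀ a : H, Pr (dN x₀) x₀ (ι a) = ι a := fun a => by simp [Pr, hH a]
    have hval : F₁ x₀ N ξ₁ ≠ 0 := by
      show dN (Pr (dN x₀) x₀ (ι ξ₁)) (Pr (dN x₀) x₀ (ι (N ξ₁))) ≠ 0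
      rw [e1, e1, ← hHd ξ₁ hξ₁0, hξ₁, dN_smul_pos _ (inv_pos.2 (norm_pos_iff.2 hξ)), map_smul,
        map_smul]
      exact smul_ne_zero (inv_ne_zero (norm_ne_zero_iff.2 hξ)) hξN
    have hc : ContinuousAt (fun p : (ℝ × E) × ((H →L[ℝ] H) × H × H) => |F₁ p.1.2 p.2.1 ξ₁|)
        ((0, x₀), (N, a₁, b₁)) := by
      have hx : ContinuousAt (fun p : (ℝ × E) × ((H →L[ℝ] H) × H × H) => p.1.2)
          ((0, x₀), (N, a₁, b₁)) := by fun_prop
      have hN' : ContinuousAt (fun p : (ℝ × E) × ((H →L[ℝ] H) × H × H) => ι (p.2.1 ξ₁))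
          ((0, x₀), (N, a₁, b₁)) := by fun_prop
      have hd : ContinuousAt (fun p : (ℝ × E) × ((H →L[ℝ] H) × H × H) => dN p.1.2)
          ((0, x₀), (N, a₁, b₁)) := (hE.continuousAt_dN one_le_two hx₀0).comp hx
      have hP : ∀ g : (ℝ × E) × ((H →L[ℝ] H) × H × H) → E,
          ContinuousAt g ((0, x₀), (N, a₁, b₁)) →
          ContinuousAt (fun p => Pr (dN p.1.2) p.1.2 (g p)) ((0, x₀), (N, a₁, b₁)) := fun g hg =>
        hg.sub (((hd.clm_apply hg).div (hd.clm_apply hx) (by simp [hn0])).smul hx)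
      exact ((((hE.continuousAt_dN one_le_two (by rw [e1]; exact hcoe hξ₁0 :
        Pr (dN x₀) x₀ (ι ξ₁) ≠ 0)).comp_of_eq
        (hP _ continuousAt_const) rfl)).clm_apply (hP _ hN')).abs
    exact ((continuous_fst.comp continuous_fst).continuousAt.eventually_lt hc
      (abs_pos.2 hval)).mono fun p hp => ⟨ξ₁, hξ1, hp⟩
  rw [nhds_prod_eq, eventually_prod_iff] at hev
  obtain ⟨p, hp, q, hq, hpq⟩ := hev
  obtain ⟨c, hc, hcpos : 0 < c⟩ :=
    ((hp.filter_mono nhdsWithin_le_nhds).and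
      (eventually_mem_nhdsWithin (s := Set.Ioi (0 : ℝ)))).exists
  refine ⟨8 * ‖G‖ / c, by positivity, ?_⟩
  filter_upwards [hq, eventually_ne_nhds hx₀0,
    (dN x₀).continuous.continuousAt.eventually (lt_mem_nhds (show (0 : ℝ) < dN x₀ x₀ by
      rw [hn0]; norm_num))] with x hqx hx0 hxd η N hN a b
  have hnx : dN x x ≠ 0 := by rw [hE.dN_self one_le_two hx0]; exact norm_ne_zero_iff.2 hx0
  show |φ N a b| ≤ _
  have hC1 : 0 ≤ 8 * ‖G‖ / c * ‖ddN x (ι η)‖ := by positivity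
  rcases eq_or_ne N 0 with h0 | h0
  · simp [φ, h0]; positivity
  rcases eq_or_ne a 0 with rfl | ha
  · simp [φ]
  rcases eq_or_ne b 0 with rfl | hb
  · simp [φ]
  have hNn : 0 < ‖N‖ := norm_pos_iff.2 h0
  have hab : 0 < ‖a‖ * ‖b‖ := mul_pos (norm_pos_iff.2 ha) (norm_pos_iff.2 hb)
  have e : φ (‖N‖⁻¹ • N) (‖a‖⁻¹ • a) (‖b‖⁻¹ • b) = φ N a b / (‖N‖ * (‖a‖ * ‖b‖)) := by
    simp [φ]; ring
  rcases lt_or_ge |φ (‖N‖⁻¹ • N) (‖a‖⁻¹ • a) (‖b‖⁻¹ • b)| o with hlt | hge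
  · rw [e, abs_div, abs_of_pos (mul_pos hNn hab), div_lt_iff₀ (mul_pos hNn hab)] at hlt
    linarith [mul_nonneg hC1 hab.le]
  obtain ⟨ξ, hξ, hlt⟩ := hpq hc hqx (‖N‖⁻¹ • N, ‖a‖⁻¹ • a, ‖b‖⁻¹ • b)
    ⟨⟨mem_sphere_zero_iff_norm.2 (norm_smul_inv_norm h0),
      mem_closedBall_zero_iff.2 (norm_smul_inv_norm ha).le,
      mem_closedBall_zero_iff.2 (norm_smul_inv_norm hb).le⟩, hge⟩
  have hξH : ξ ≠ 0 := fun h => by simp [h] at hξ
  have hPξ : Pr (dN x) x (ι ξ) ≠ 0 := by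
    intro h
    have h' := Pr_Pr (dN x₀) hxd.ne' (dN x) (hH ξ)
    rw [h] at h'
    exact hcoe hξH (h'.symm.trans (by simp [Pr]))
  have hval : F₁ x (‖N‖⁻¹ • N) ξ = ‖N‖⁻¹ * dN (Pr (dN x) x (ι ξ)) (Pr (dN x) x (ι (N ξ))) := by
    show dN (Pr (dN x) x (ι ξ)) (Pr (dN x) x (ι ((‖N‖⁻¹ • N) ξ))) = _
    rw [smul_apply, map_smul, Pr_smul, map_smul, smul_eq_mul]
  have hid : dN (Pr (dN x) x (ι ξ)) (Pr (dN x) x (ι (N ξ))) =
      ddN x (ι η) (ι ξ) * s.dlt x (Pr (dN x) x (ι ξ)) := by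
    rw [hN, Pr_Pr (dN x) hnx (dN x₀) (s.dN_Bop hE hx0 _ _),
      ← s.Bop_Pr hE hx0 (f := dN x) (ι η),
      s.dN_Bop_identity hE hx0 (Pr_apply_self hnx _) hPξ (Pr_apply_self hnx _),
      (s.ddN_Pr hE hx0 _).1, (s.ddN_Pr hE hx0 _).2]
  rw [hval, abs_mul, abs_inv, abs_norm, hid, abs_mul, lt_inv_mul_iff₀ hNn] at hlt
  have h1 : |ddN x (ι η) (ι ξ)| ≤ ‖ddN x (ι η)‖ := by
    have := (ddN x (ι η)).le_opNorm (ι ξ)
    rwa [Real.norm_eq_abs, hι, hξ, mul_one] at this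
  have h2 := mul_le_mul h1 (s.abs_dlt_le x (Pr (dN x) x (ι ξ))) (abs_nonneg _) (norm_nonneg _)
  have h3 : ‖N‖ ≤ 2 * ‖ddN x (ι η)‖ / c := by
    rw [le_div_iff₀ hcpos]; linarith
  refine (hφle N a b).trans (mul_le_mul_of_nonneg_right ?_ hab.le)
  have h4 := mul_le_mul_of_nonneg_left h3 (show 0 ≤ 2 * ‖G‖ by positivity)
  have h5 : 2 * ‖G‖ * (2 * ‖ddN x (ι η)‖ / c) ≤ 8 * ‖G‖ / c * ‖ddN x (ι η)‖ := by
    rw [show 8 * ‖G‖ / c * ‖ddN x (ι η)‖ = 2 * (2 * ‖G‖ * (2 * ‖ddN x (ι η)‖ / c)) by ring]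
    have : 0 ≤ 2 * ‖G‖ * (2 * ‖ddN x (ι η)‖ / c) := by positivity
    linarith
  linarith [mul_nonneg hopos.le hNn.le]

/-- The pointwise algebraic part. -/
lemma pointwise_bound {x₀ x : E} (ι : H →L[ℝ] E) (π₀ : E →L[ℝ] H) (hι : ∀ a, ‖ι a‖ = ‖a‖)
    (hπ₀ : ∀ v, dN x₀ v = 0 → ι (π₀ v) = v)
    (hx0 : x ≠ 0) (hxd : 1 / 2 < dN x₀ x) (hxn : ‖x‖ < 3 / 2)
    {G : H →L[ℝ] H →L[ℝ] ℝ} (hGs : ∀ a b, G a b = G b a) (hGp : ∀ a, a ≠ 0 → 0 < G a a)
    {β C₁ o : ℝ} (hβ0 : 0 ≤ β) (hβ : ∀ a : H, G a a ≤ 1 → ‖a‖ ≤ β) (hC₁ : 0 ≤ C₁) (hopos : 0 ≤ o)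
    (ho : o * (((10 : ℝ) * (Module.finrank ℝ H : ℝ) ^ 2 + 1) * (β ^ 4 * ‖G‖ + 1)) ≤ 1)
    (hdef : ∀ (η : H) (N : H →L[ℝ] H), Adapted s x₀ x ι η N →
      ∀ a b, |G (N a) b + G a (N b)| ≤ (C₁ * ‖ddN x (ι η)‖ + o * ‖N‖) * (‖a‖ * ‖b‖))
    (u v : E) :
    ‖s.ddG x u v‖ ≤ 24 * ((Module.finrank ℝ H : ℝ) ^ 3 * (4 * (β ^ 2 * (C₁ * (4 * ‖G‖ * β))) *
      β * β * (‖G‖ * β))) * ‖ddN x u‖ * ‖v‖ := by
  have hr : 0 < ‖x‖ := norm_pos_iff.2 hx0
  have hxd0 : dN x₀ x ≠ 0 := by linarith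
  have hxd0' : dN x x ≠ 0 := by rw [hE.dN_self one_le_two hx0]; exact hr.ne'
  have hτle : ∀ v, ‖Pr (dN x₀) x v‖ ≤ 4 * ‖v‖ := fun v => by
    have h := norm_Pr_le (abs_dN_le x₀) (K := 3) (by linarith) (by linarith) v
    linarith
  have hPle : ∀ v, ‖Pr (dN x) x v‖ ≤ 2 * ‖v‖ := fun v => by
    have h := norm_Pr_le (abs_dN_le x) (K := 1) (by rw [hE.dN_self one_le_two hx0]; exact hr)
      (by rw [hE.dN_self one_le_two hx0, one_mul]) v
    linarith
  set m := Module.finrank ℝ H with hm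
  set C₂ := β ^ 2 * (C₁ * (4 * ‖G‖ * β)) with hC₂
  set K := (m : ℝ) ^ 3 * (4 * C₂ * β * β * (‖G‖ * β)) with hK
  have hC₂0 : 0 ≤ C₂ := by positivity
  have hK0 : 0 ≤ K := by positivity
  have hιi : Function.Injective ι := fun a b h => sub_eq_zero.1 <| norm_eq_zero.1 <| by
    rw [← hι, map_sub, h, sub_self, norm_zero]
  let L : E →L[ℝ] H :=
    π₀.comp (ContinuousLinearMap.id ℝ E - (dN x₀).smulRight ((dN x₀ x)⁻¹ • x))
  let M : H →L[ℝ] H →L[ℝ] H := ((ContinuousLinearMap.compL ℝ H E H) L).comp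
    (((ContinuousLinearMap.compL ℝ H E E).flip ι).comp ((s.Bop x).comp ι))
  have hMA : ∀ η, Adapted s x₀ x ι η (M η) := fun η ξ => by
    show ι (π₀ ((ContinuousLinearMap.id ℝ E - (dN x₀).smulRight ((dN x₀ x)⁻¹ • x))
      (s.Bop x (ι η) (ι ξ)))) = _
    rw [show (ContinuousLinearMap.id ℝ E - (dN x₀).smulRight ((dN x₀ x)⁻¹ • x))
      (s.Bop x (ι η) (ι ξ)) = Pr (dN x₀) x (s.Bop x (ι η) (ι ξ)) by
        simp [Pr, smul_smul, div_eq_mul_inv]]
    exact hπ₀ _ (Pr_apply_self hxd0 _)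
  let G₂ : H →ₗ[ℝ] H →ₗ[ℝ] ℝ :=
    LinearMap.mk₂ ℝ (fun a b => G a b) (by simp) (by simp) (by simp) (by simp)
  let R₂ : H →ₗ[ℝ] H →ₗ[ℝ] ℝ :=
    LinearMap.mk₂ ℝ (fun a b : H => ddN x (ι a) (ι b)) (by simp) (by simp) (by simp) (by simp)
  obtain ⟨b, lam, hrepr, hlam⟩ := exists_diag G₂ R₂ hGs hGp
    (fun a b => hE.ddN_symm hx0 (ι a) (ι b))
  replace hrepr : ∀ v i, b.repr v i = G (b i) v := hrepr
  replace hlam : ∀ v i, ddN x (ι (b i)) (ι v) = lam i * G (b i) v := hlam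
  have hGb : ∀ i, G (b i) (b i) = 1 := fun i => by rw [← hrepr]; simp
  have hbn : ∀ i, ‖b i‖ ≤ β := fun i => hβ _ (hGb i).le
  have hl0 : ∀ i, 0 ≤ lam i := fun i => by
    have h := hlam (b i) i
    rw [hGb, mul_one] at h
    rw [← h]
    exact hE.ddN_nonneg hx0 _
  have hcoord : ∀ v i, |b.repr v i| ≤ ‖G‖ * β * ‖v‖ := fun v i => by
    rw [hrepr, ← Real.norm_eq_abs]
    refine (G.le_opNorm₂ _ _).trans ?_
    gcongr
    exact hbn i
  let Γ : Fin m → Fin m → Fin m → ℝ := fun k j i => b.repr (M (b k) (b j)) i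
  have hsum : ∀ η v, M η v =
      ∑ k, ∑ j, ∑ i, (b.repr η k * b.repr v j * Γ k j i) • b i := by
    intro η v
    conv_lhs => rw [← b.sum_repr η, ← b.sum_repr v]
    simp only [map_sum, map_smul, FunLike.coe_sum, Finset.sum_apply, smul_apply,
      Finset.smul_sum, smul_smul]
    rw [Finset.sum_comm]
    refine Finset.sum_congr rfl fun k _ => Finset.sum_congr rfl fun j _ => ?_
    rw [← b.sum_repr (M (b k) (b j)), Finset.smul_sum]
    simp only [smul_smul, Γ]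
    exact Finset.sum_congr rfl fun i _ => by congr 1; ring
  have hMk : ∀ k, ‖M (b k)‖ ≤ ‖G‖ * β ^ 2 * ∑ j, ∑ i, |Γ k j i| := by
    intro k
    refine ContinuousLinearMap.opNorm_le_bound _ (by positivity) fun v => ?_
    have e : M (b k) v = ∑ j, ∑ i, (b.repr v j * Γ k j i) • b i := by
      conv_lhs => rw [← b.sum_repr v]
      simp only [map_sum, map_smul]
      refine Finset.sum_congr rfl fun j _ => ?_
      rw [← b.sum_repr (M (b k) (b j)), Finset.smul_sum]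
      simp only [smul_smul, Γ]
      rfl
    rw [e, Finset.mul_sum, Finset.sum_mul]
    refine norm_sum_le_of_le _ fun j _ => ?_
    rw [Finset.mul_sum, Finset.sum_mul]
    refine norm_sum_le_of_le _ fun i _ => ?_
    rw [norm_smul, Real.norm_eq_abs, abs_mul]
    calc |b.repr v j| * |Γ k j i| * ‖b i‖ ≤ ‖G‖ * β * ‖v‖ * |Γ k j i| * β := by
          gcongr
          · exact hcoord v j
          · exact hbn i
      _ = _ := by ring
  have hqk : ∀ k, ‖ddN x (ι (b k))‖ ≤ 4 * ‖G‖ * β * lam k := by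
    intro k
    refine ContinuousLinearMap.opNorm_le_bound _ (by have := hl0 k; positivity) fun w => ?_
    obtain ⟨w', hw', hw'n⟩ : ∃ w' : H, ι w' = Pr (dN x₀) x w ∧ ‖w'‖ ≤ 4 * ‖w‖ := by
      have h := hπ₀ (Pr (dN x₀) x w) (Pr_apply_self hxd0 _)
      exact ⟨π₀ (Pr (dN x₀) x w), h, by rw [← hι, h]; exact hτle w⟩
    rw [show ddN x (ι (b k)) w = lam k * G (b k) w' by rw [← hlam, hw', (s.ddN_Pr hE hx0 _).2], Real.norm_eq_abs,
      abs_mul, abs_of_nonneg (hl0 k), ← Real.norm_eq_abs]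
    calc lam k * ‖G (b k) w'‖ ≤ lam k * (‖G‖ * β * (4 * ‖w‖)) := by
          refine mul_le_mul_of_nonneg_left ((G.le_opNorm₂ _ _).trans ?_) (hl0 k)
          gcongr
          · exact hbn k
      _ = _ := by ring
  have hsymΓ : ∀ k j i, Γ k j i = Γ j k i := by
    intro k j i
    have e : M (b k) (b j) = M (b j) (b k) :=
      hιi (by rw [hMA, hMA, s.Bop_symm hE hx0])
    simp only [Γ, e]
  have hQΓ : ∀ k j i, lam i * Γ k j i = lam k * Γ i j k := by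
    intro k j i
    simp only [Γ]
    rw [hrepr, hrepr, ← hlam, ← hlam, hMA, hMA, (s.ddN_Pr hE hx0 _).2, (s.ddN_Pr hE hx0 _).2,
      s.ddN_Bop_symm hE hx0]
  have hskew : ∀ k j i,
      |Γ k j i + Γ k i j| ≤ C₂ * lam k + o * (β ^ 4 * ‖G‖) * ∑ b', ∑ c', |Γ k b' c'| := by
    intro k j i
    have e : Γ k j i + Γ k i j = (G (M (b k) (b j)) (b i) + G (b j) (M (b k) (b i))) := by
      simp only [Γ]
      rw [hrepr, hrepr, hGs (b i)]
    rw [e]
    calc |G (M (b k) (b j)) (b i) + G (b j) (M (b k) (b i))|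
        ≤ (C₁ * ‖ddN x (ι (b k))‖ + o * ‖M (b k)‖) * (‖b j‖ * ‖b i‖) := hdef _ _ (hMA _) _ _
      _ ≤ (C₁ * ‖ddN x (ι (b k))‖ + o * ‖M (b k)‖) * (β * β) := by
          gcongr
          · exact hbn j
          · exact hbn i
      _ ≤ (C₁ * (4 * ‖G‖ * β * lam k) + o * (‖G‖ * β ^ 2 * ∑ b', ∑ c', |Γ k b' c'|)) * (β * β) := by
          gcongr
          · exact hqk k
          · exact hMk k
      _ = _ := by rw [hC₂]; ring
  have hΓ := gamma_bound lam hl0 Γ hsymΓ hQΓ (show 0 ≤ C₂ by positivity)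
    (show 0 ≤ o * (β ^ 4 * ‖G‖) by positivity) (by
      rw [Fintype.card_fin]
      nlinarith [mul_nonneg hopos (sq_nonneg (m : ℝ)), mul_nonneg hopos (pow_nonneg hβ0 4),
        mul_nonneg (mul_nonneg hopos (sq_nonneg (m : ℝ))) (pow_nonneg hβ0 4),
        mul_nonneg (mul_nonneg hopos (pow_nonneg hβ0 4)) (norm_nonneg G)]) hskew
  have hMb : ∀ η v : H, ‖M η v‖ ≤ K * ‖ddN x (ι η)‖ * ‖v‖ := by
    intro η v
    rw [hsum]
    refine (norm_sum_le_of_le _ fun k _ => norm_sum_le_of_le _ fun j _ =>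
      norm_sum_le_of_le (f := fun i => (b.repr η k * b.repr v j * Γ k j i) • b i)
        (n := fun _ => 4 * C₂ * β * β * (‖G‖ * β) * ‖ddN x (ι η)‖ * ‖v‖) _ fun i _ => ?_).trans_eq ?_
    · rw [norm_smul, Real.norm_eq_abs, abs_mul, abs_mul]
      have h1 : |b.repr η k| * lam k ≤ ‖ddN x (ι η)‖ * β := by
        rw [← abs_of_nonneg (hl0 k), ← abs_mul, hrepr, mul_comm, ← hlam,
          hE.ddN_symm hx0, ← Real.norm_eq_abs]
        refine ((ddN x (ι η)).le_opNorm _).trans ?_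
        rw [hι]
        gcongr
        exact hbn k
      calc |b.repr η k| * |b.repr v j| * |Γ k j i| * ‖b i‖
          ≤ |b.repr η k| * (‖G‖ * β * ‖v‖) * (4 * C₂ * lam k) * β := by
            have hl := hl0 k
            exact mul_le_mul (mul_le_mul (mul_le_mul_of_nonneg_left (hcoord v j) (abs_nonneg _))
              (hΓ k j i) (abs_nonneg _) (by positivity)) (hbn i) (norm_nonneg _) (by positivity)
        _ = 4 * C₂ * β * (‖G‖ * β * ‖v‖) * (|b.repr η k| * lam k) := by ring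
        _ ≤ 4 * C₂ * β * (‖G‖ * β * ‖v‖) * (‖ddN x (ι η)‖ * β) :=
            mul_le_mul_of_nonneg_left h1 (by positivity)
        _ = _ := by ring
    · simp only [hK, hm, Finset.sum_const, Finset.card_univ, Fintype.card_fin, nsmul_eq_mul]
      ring
  obtain ⟨u', hu'⟩ : ∃ u' : H, ι u' = Pr (dN x₀) x u := ⟨_, hπ₀ _ (Pr_apply_self hxd0 _)⟩
  obtain ⟨v', hv'⟩ : ∃ v' : H, ι v' = Pr (dN x₀) x v := ⟨_, hπ₀ _ (Pr_apply_self hxd0 _)⟩
  have e : s.Bop x u v = Pr (dN x) x (ι (M u' v')) := by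
    rw [hMA, Pr_Pr (dN x) hxd0' (dN x₀) (s.dN_Bop hE hx0 _ _), hu', hv', s.Bop_Pr hE hx0]
  have hq' : ddN x (ι u') = ddN x u := by rw [hu']; exact ContinuousLinearMap.ext fun b => (s.ddN_Pr hE hx0 _).1 u b
  have hv'n : ‖v'‖ ≤ 4 * ‖v‖ := by rw [← hι, hv']; exact hτle v
  rw [← s.dG_Bop hE hx0, e]
  have hdG : ‖s.dG x‖ ≤ 3 := by
    simpa using norm_fderiv_le_of_lipschitz ℝ (f := s.G) (x₀ := x) (C := 3)
      (LipschitzWith.of_dist_le_mul fun a b => by simpa [dist_eq_norm] using s.norm_G_sub_le a b)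
  calc ‖s.dG x (Pr (dN x) x (ι (M u' v')))‖ ≤ ‖s.dG x‖ * ‖Pr (dN x) x (ι (M u' v'))‖ := (s.dG x).le_opNorm _
    _ ≤ 3 * (2 * (K * ‖ddN x u‖ * (4 * ‖v‖))) := by
        refine mul_le_mul hdG ((hPle _).trans (mul_le_mul_of_nonneg_left ?_ zero_le_two))
          (norm_nonneg _) (by norm_num)
        rw [hι]
        refine (hMb u' v').trans ?_
        rw [hq']
        exact mul_le_mul_of_nonneg_left hv'n (by positivity)
    _ = _ := by ring


/-- The estimate near a unit vector, with a model `H` of the tangent space. -/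
lemma local_bound_aux {x₀ : E} (hx₀ : ‖x₀‖ = 1) (ι : H →L[ℝ] E) (π₀ : E →L[ℝ] H)
    (hι : ∀ a, ‖ι a‖ = ‖a‖) (hH : ∀ a, dN x₀ (ι a) = 0)
    (hπ₀ : ∀ v, dN x₀ v = 0 → ι (π₀ v) = v) :
    ∃ C : ℝ, ∀ᶠ x in 𝓝 x₀, ∀ u v : E, ‖s.ddG x u v‖ ≤ C * ‖ddN x u‖ * ‖v‖ := by
  have hx₀0 : x₀ ≠ 0 := fun h => by simp [h] at hx₀
  have hn0 : dN x₀ x₀ = 1 := by rw [hE.dN_self one_le_two hx₀0, hx₀]
  have hιi : Function.Injective ι := fun a b h => sub_eq_zero.1 <| norm_eq_zero.1 <| by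
    rw [← hι, map_sub, h, sub_self, norm_zero]
  have hHs : SmoothNorm H 1 := fun x hx => by
    rw [show (fun z : H => ‖z‖) = fun z => ‖ι z‖ from funext fun z => (hι z).symm]
    exact ((hE _ fun e => hx (hιi (by rw [e, map_zero]))).of_le (by norm_num)).comp x
      ι.contDiff.contDiffAt
  obtain ⟨G, hGs, hGp, hGM⟩ := exists_invariant_form hHs
  obtain ⟨β, hβ0, hβ⟩ := exists_coercive G hGp
  set o : ℝ := (((10 : ℝ) * (Module.finrank ℝ H : ℝ) ^ 2 + 1) * (β ^ 4 * ‖G‖ + 1))⁻¹ with ho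
  have hopos : 0 < o := by positivity
  obtain ⟨C₁, hC₁, hev⟩ := s.defect_bound hE hx₀ ι hι hH G hGM hopos
  exact ⟨_, by
    filter_upwards [hev, eventually_ne_nhds hx₀0,
      (dN x₀).continuous.continuousAt.eventually (lt_mem_nhds (show (1 / 2 : ℝ) < dN x₀ x₀ by
        rw [hn0]; norm_num)),
      continuous_norm.continuousAt.eventually (gt_mem_nhds (show ‖x₀‖ < 3 / 2 by
        rw [hx₀]; norm_num))] with x hdef hx0 hxd hxn
    exact s.pointwise_bound hE ι π₀ hι hπ₀ hx0 hxd hxn hGs hGp hβ0 hβ hC₁ hopos.le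
      (by rw [ho, inv_mul_cancel₀ (by positivity)]) hdef⟩

/-- The estimate near a unit vector. -/
lemma local_bound {x₀ : E} (hx₀ : ‖x₀‖ = 1) :
    ∃ C : ℝ, ∀ᶠ x in 𝓝 x₀, ∀ u v : E, ‖s.ddG x u v‖ ≤ C * ‖ddN x u‖ * ‖v‖ := by
  have hn0 : dN x₀ x₀ = 1 := by
    rw [hE.dN_self one_le_two (fun h => by simp [h] at hx₀), hx₀]
  let H : Submodule ℝ E := LinearMap.ker (dN x₀).toLinearMap
  let π₀ : E →L[ℝ] H := LinearMap.toContinuousLinearMap
    (((LinearMap.id : E →ₗ[ℝ] E) - (dN x₀).toLinearMap.smulRight x₀).codRestrict H fun v => by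
      show dN x₀ (v - dN x₀ v • x₀) = 0
      simp [hn0])
  exact s.local_bound_aux hE hx₀ H.subtypeL π₀ (fun _ => rfl) (fun a => a.2) fun v hv => by
    show v - dN x₀ v • x₀ = v
    rw [hv, zero_smul, sub_zero]

/-- The estimate everywhere. -/
lemma global_bound : ∃ C : ℝ, 0 < C ∧ ∀ x : E, x ≠ 0 → ∀ u,
    ‖s.ddG x u‖ ≤ C * ‖ddN x u‖ := by
  have hev : ∀ᶠ c : ℝ in 𝓝 0, ∀ x ∈ Metric.sphere (0 : E) 1, ∀ u v : E,
      c * ‖s.ddG x u v‖ ≤ ‖ddN x u‖ * ‖v‖ := by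
    refine (isCompact_sphere 0 1).eventually_forall_of_forall_eventually fun x₀ hx₀ => ?_
    obtain ⟨C, hC⟩ := s.local_bound hE (mem_sphere_zero_iff_norm.1 hx₀)
    have hpos : (0 : ℝ) < (|C| + 1)⁻¹ := by positivity
    rw [nhds_prod_eq]
    filter_upwards [prod_mem_prod (gt_mem_nhds hpos) hC] with ⟨c, x⟩ ⟨hc, hx⟩ u v
    rcases le_or_gt c 0 with h0 | h0
    · exact le_trans (mul_nonpos_of_nonpos_of_nonneg h0 (norm_nonneg _)) (by positivity)
    have h1 : c * C ≤ 1 := by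
      have hc' : c * (|C| + 1) < 1 := by
        rwa [← lt_div_iff₀ (by positivity), one_div]
      nlinarith [le_abs_self C]
    have h2 := mul_le_mul_of_nonneg_left (hx u v) h0.le
    have h3 := mul_le_mul_of_nonneg_right h1 (mul_nonneg (norm_nonneg (ddN x u)) (norm_nonneg v))
    dsimp only
    linarith
  obtain ⟨c, hc, hc0 : 0 < c⟩ :=
    ((hev.filter_mono nhdsWithin_le_nhds).and (eventually_mem_nhdsWithin (s := Set.Ioi (0 : ℝ)))).exists
  refine ⟨c⁻¹, inv_pos.2 hc0, fun x hx u => ?_⟩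
  refine ContinuousLinearMap.opNorm_le_bound _ (by positivity) fun v => ?_
  have hr : 0 < ‖x‖⁻¹ := inv_pos.2 (norm_pos_iff.2 hx)
  have h := hc (‖x‖⁻¹ • x) (mem_sphere_zero_iff_norm.2 (norm_smul_inv_norm hx)) u v
  rw [s.ddG_smul_pos hE hx hr, hE.ddN_smul_pos hx hr] at h
  simp only [inv_inv, smul_apply, norm_smul, norm_norm] at h
  rw [mul_assoc, ← div_eq_inv_mul, le_div_iff₀ hc0]
  refine le_of_mul_le_mul_left ?_ (norm_pos_iff.2 hx)
  linarith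

end SphIso

end Vale.Agent.P084
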