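import Vale.Agent.P084.Sphere

/-!
P084 (Tingley's problem), library: calculus consequences of the defining identity.
-/

namespace Vale.Agent.P084

open Filter Topology

variable {E F : Type*} [NormedAddCommGroup E] [NormedSpace ℝ E] [NormedAddCommGroup F]
  [NormedSpace ℝ F]

/-- Second derivative of the norm of a `C²` map. -/
lemma fderiv_fderiv_norm_comp (hF : SmoothNorm F 2) {g : E → F} {v : E}
    (hg : ContDiffAt ℝ 2 g v) (h0 : g v ≠ 0) (a b : E) :
    fderiv ℝ (fderiv ℝ (fun u => ‖g u‖)) v a b =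
      ddN (g v) (fderiv ℝ g v a) (fderiv ℝ g v b) + dN (g v) (fderiv ℝ (fderiv ℝ g) v a b) := by
  have hev : ∀ᶠ u in 𝓝 v, fderiv ℝ (fun u => ‖g u‖) u = (dN (g u)).comp (fderiv ℝ g u) := by
    filter_upwards [hg.eventually (by norm_num), hg.continuousAt.eventually_ne h0] with u hu hu0
    exact ((hF.hasFDerivAt (by norm_num) hu0).comp u
      (hu.differentiableAt (by norm_num)).hasFDerivAt).fderiv
  have hgd : HasFDerivAt g (fderiv ℝ g v) v := (hg.differentiableAt (by norm_num)).hasFDerivAt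
  have h1 : HasFDerivAt (fun u => dN (g u)) ((ddN (g v)).comp (fderiv ℝ g v)) v :=
    (hF.differentiableAt_dN h0).hasFDerivAt.comp v hgd
  have h2 : HasFDerivAt (fderiv ℝ g) (fderiv ℝ (fderiv ℝ g) v) v :=
    ((hg.fderiv_right (m := 1) (by norm_num)).differentiableAt (by norm_num)).hasFDerivAt
  rw [Filter.EventuallyEq.fderiv_eq hev, (h1.clm_comp h2).fderiv]
  simp [add_comm]

/-- A product of a map vanishing at `x` and differentiable there with a continuous map. -/
lemma hasFDerivAt_clm_comp_of_eq_zero {X Y Z W : Type*} [NormedAddCommGroup X] [NormedSpace ℝ X]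
    [NormedAddCommGroup Y] [NormedSpace ℝ Y] [NormedAddCommGroup Z] [NormedSpace ℝ Z]
    [NormedAddCommGroup W] [NormedSpace ℝ W] {c : X → Y →L[ℝ] Z} {c' : X →L[ℝ] Y →L[ℝ] Z}
    {d : X → W →L[ℝ] Y} {x : X} (hc : HasFDerivAt c c' x) (h0 : c x = 0)
    (hd : ContinuousAt d x) :
    HasFDerivAt (fun u => (c u).comp (d u))
      (((ContinuousLinearMap.compL ℝ W Y Z).flip (d x)).comp c') x := by
  have h1 : HasFDerivAt (fun u => (c u).comp (d x))
      (((ContinuousLinearMap.compL ℝ W Y Z).flip (d x)).comp c') x :=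
    (((ContinuousLinearMap.compL ℝ W Y Z).flip (d x)).hasFDerivAt).comp x hc
  have h2 : HasFDerivAt (fun u => (c u).comp (d u - d x)) (0 : X →L[ℝ] W →L[ℝ] Z) x := by
    rw [hasFDerivAt_iff_isLittleO]
    simp only [h0, ContinuousLinearMap.zero_comp, sub_zero, zero_apply]
    have hA : c =O[𝓝 x] fun u => ‖u - x‖ := by
      simpa [h0] using (hc.isBigO_sub).norm_right
    have hB : (fun u => d u - d x) =o[𝓝 x] fun _ => (1 : ℝ) := by
      rw [Asymptotics.isLittleO_one_iff]
      simpa using hd.tendsto.sub_const (d x)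
    refine (Asymptotics.IsBigO.trans_isLittleO ?_ (hA.norm_left.mul_isLittleO hB.norm_left)).trans_isBigO ?_
    · exact Asymptotics.IsBigO.of_bound 1 (Eventually.of_forall fun u => by
        simpa using (c u).opNorm_comp_le (d u - d x))
    · exact Asymptotics.IsBigO.of_bound 1 (Eventually.of_forall fun u => by simp)
  refine ((h1.fun_add h2).congr_fderiv (add_zero _)).congr_of_eventuallyEq
    (Eventually.of_forall fun u => ?_)
  simp [ContinuousLinearMap.comp_sub]

namespace SphIso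

variable (s : SphIso E F)

/-- Derivative of the extension. -/
noncomputable abbrev dG (v : E) : E →L[ℝ] F := fderiv ℝ s.G v

/-- Second derivative of the extension. -/
noncomputable abbrev ddG (v : E) : E →L[ℝ] E →L[ℝ] F := fderiv ℝ (fderiv ℝ s.G) v

include s

lemma strictNorm (hs : StrictNorm E) : StrictNorm F := by
  intro a b ha hb hab
  have h := s.symm.norm_G_sub_of_unit (x := a) (y := -b) ha (by rw [norm_neg, hb])
  rw [s.symm.G_neg, symm_G, sub_neg_eq_add, sub_neg_eq_add, hab] at h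
  exact s.symm.G_injective (hs _ _ (by rw [symm_G, s.norm_H, ha]) (by rw [symm_G, s.norm_H, hb]) h)

variable [FiniteDimensional ℝ E] [FiniteDimensional ℝ F]
variable (hE : SmoothNorm E 2)
include hE

lemma contDiffAt_two {v : E} (hv : v ≠ 0) : ContDiffAt ℝ 2 s.G v :=
  s.contDiffAt_G one_le_two hE (s.smoothNorm_two hE) hv

lemma hasFDerivAt_G {v : E} (hv : v ≠ 0) : HasFDerivAt s.G (s.dG v) v :=
  ((s.contDiffAt_two hE hv).differentiableAt (by norm_num)).hasFDerivAt

lemma hasFDerivAt_dG {v : E} (hv : v ≠ 0) : HasFDerivAt (fderiv ℝ s.G) (s.ddG v) v :=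
  (((s.contDiffAt_two hE hv).fderiv_right (m := 1) (by norm_num)).differentiableAt
    (by norm_num)).hasFDerivAt

lemma continuousAt_dG {v : E} (hv : v ≠ 0) : ContinuousAt (fun u => s.dG u) v :=
  (s.hasFDerivAt_dG hE hv).continuousAt

lemma continuousAt_ddG {v : E} (hv : v ≠ 0) : ContinuousAt (fun u => s.ddG u) v :=
  (((s.contDiffAt_two hE hv).fderiv_right (m := 1) (by norm_num)).fderiv_right (m := 0)
    (by norm_num)).continuousAt

lemma dG_self {v : E} (hv : v ≠ 0) : s.dG v v = s.G v := by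
  have h1 : HasDerivAt (fun t : ℝ => s.G (v + t • v)) (s.dG v v) 0 := by
    have : HasDerivAt (fun t : ℝ => v + t • v) v 0 := by
      simpa using ((hasDerivAt_id (0 : ℝ)).smul_const v).const_add v
    exact (s.hasFDerivAt_G hE hv).comp_hasDerivAt_of_eq 0 this (by simp)
  have h2 : HasDerivAt (fun t : ℝ => s.G (v + t • v)) (s.G v) 0 := by
    have e : (fun t : ℝ => s.G (v + t • v)) = fun t => (1 + t) • s.G v := by
      funext t
      rw [← s.G_smul, add_smul, one_smul]
    rw [e]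
    simpa using ((hasDerivAt_id (0 : ℝ)).const_add 1).smul_const (s.G v)
  exact h1.unique h2

lemma dG_smul {v : E} (hv : v ≠ 0) {t : ℝ} (ht : t ≠ 0) : s.dG (t • v) = s.dG v := by
  have h1 : HasFDerivAt (fun u => s.G (t • u)) (t • s.dG (t • v)) v := by
    have h := (s.hasFDerivAt_G hE (smul_ne_zero ht hv)).comp v ((hasFDerivAt_id v).const_smul t)
    refine h.congr_fderiv ?_
    ext a
    simp
  have h2 : HasFDerivAt (fun u => s.G (t • u)) (t • s.dG v) v := by
    simp only [s.G_smul]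
    exact (s.hasFDerivAt_G hE hv).const_smul t
  exact smul_right_injective _ ht (h1.unique h2)

lemma ddG_self_left {v : E} (hv : v ≠ 0) : s.ddG v v = 0 := by
  have hd : HasDerivAt (fun t : ℝ => s.dG (v + t • v)) (s.ddG v v) 0 := by
    have h1 : HasDerivAt (fun t : ℝ => v + t • v) v 0 := by
      simpa using ((hasDerivAt_id (0 : ℝ)).smul_const v).const_add v
    exact (s.hasFDerivAt_dG hE hv).comp_hasDerivAt_of_eq 0 h1 (by simp)
  have hc : (fun t : ℝ => s.dG (v + t • v)) =ᶠ[𝓝 0] fun _ => s.dG v := by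
    filter_upwards [eventually_gt_nhds (show (-1 : ℝ) < 0 by norm_num)] with t ht
    rw [show v + t • v = (1 + t) • v by rw [add_smul, one_smul]]
    exact s.dG_smul hE hv (by linarith)
  exact hd.unique ((hasDerivAt_const (0 : ℝ) (s.dG v)).congr_of_eventuallyEq hc)

lemma ddG_symm {v : E} (hv : v ≠ 0) (a b : E) : s.ddG v a b = s.ddG v b a :=
  (s.contDiffAt_two hE hv).isSymmSndFDerivAt (by simp) a b

/-- The derivative at a point, as an equivalence. -/
lemma exists_equiv {v : E} (hv : v ≠ 0) : ∃ A : E ≃L[ℝ] F, (A : E →L[ℝ] F) = s.dG v := by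
  have hw : s.G v ≠ 0 := fun h => hv (s.G_injective (by rw [h, G_zero]))
  have hH : HasFDerivAt s.H (fderiv ℝ s.H (s.G v)) (s.G v) :=
    s.symm.hasFDerivAt_G (s.smoothNorm_two hE) hw
  have hGd := s.hasFDerivAt_G hE hv
  have hJL : ∀ x, fderiv ℝ s.H (s.G v) (s.dG v x) = x := fun x => by
    have h1 : HasFDerivAt (fun y => s.H (s.G y)) ((fderiv ℝ s.H (s.G v)).comp (s.dG v)) v :=
      hH.comp v hGd
    simp only [s.H_G] at h1
    exact DFunLike.congr_fun (h1.unique (hasFDerivAt_id v)) x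
  have hLJ : ∀ x, s.dG v (fderiv ℝ s.H (s.G v) x) = x := fun x => by
    have h1 : HasFDerivAt (fun y => s.G (s.H y)) ((s.dG v).comp (fderiv ℝ s.H (s.G v))) (s.G v) :=
      (show HasFDerivAt s.G (s.dG v) (s.H (s.G v)) by rw [s.H_G]; exact hGd).comp (s.G v) hH
    simp only [s.G_H] at h1
    exact DFunLike.congr_fun (h1.unique (hasFDerivAt_id (s.G v))) x
  exact ⟨ContinuousLinearEquiv.equivOfInverse (s.dG v) (fderiv ℝ s.H (s.G v)) hJL hLJ, rfl⟩

/-- `dN ∘ dG = dN`. -/
lemma dN_dG {v : E} (hv : v ≠ 0) (a : E) : dN (s.G v) (s.dG v a) = dN v a := by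
  have hw : s.G v ≠ 0 := fun h => hv (s.G_injective (by rw [h, G_zero]))
  have h1 : HasFDerivAt (fun u => ‖s.G u‖) ((dN (s.G v)).comp (s.dG v)) v :=
    ((s.smoothNorm_two hE).hasFDerivAt (by norm_num) hw).comp v (s.hasFDerivAt_G hE hv)
  simp only [s.norm_G] at h1
  exact DFunLike.congr_fun (h1.unique (hE.hasFDerivAt (by norm_num) hv)) a

omit hE [FiniteDimensional ℝ E] [FiniteDimensional ℝ F] in
lemma chord_ne {v x : E} (hx : ‖x‖ = 1) (h : v - ‖v‖ • x ≠ 0) :
    s.G v - ‖v‖ • s.G x ≠ 0 := by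
  rw [← norm_ne_zero_iff, s.key v x hx, norm_ne_zero_iff]
  exact h

/-- First derivative of the identity, along the tangent space. -/
lemma first_identity {v x : E} (hv : v ≠ 0) (hx : ‖x‖ = 1) (h : v - ‖v‖ • x ≠ 0) {a : E}
    (ha : dN v a = 0) :
    dN (s.G v - ‖v‖ • s.G x) (s.dG v a) = dN (v - ‖v‖ • x) a := by
  have hn := hE.hasFDerivAt (by norm_num) hv
  have hgd : HasFDerivAt (fun u => s.G u - ‖u‖ • s.G x)
      (s.dG v - (dN v).smulRight (s.G x)) v :=
    (s.hasFDerivAt_G hE hv).sub (hn.smul_const _)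
  have hhd : HasFDerivAt (fun u => u - ‖u‖ • x)
      (ContinuousLinearMap.id ℝ E - (dN v).smulRight x) v :=
    (hasFDerivAt_id v).sub (hn.smul_const _)
  have h1 : HasFDerivAt (fun u => ‖s.G u - ‖u‖ • s.G x‖)
      ((dN (s.G v - ‖v‖ • s.G x)).comp (s.dG v - (dN v).smulRight (s.G x))) v :=
    ((s.smoothNorm_two hE).hasFDerivAt (by norm_num) (s.chord_ne hx h)).comp v hgd
  have h2 : HasFDerivAt (fun u => ‖u - ‖u‖ • x‖)
      ((dN (v - ‖v‖ • x)).comp (ContinuousLinearMap.id ℝ E - (dN v).smulRight x)) v :=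
    (hE.hasFDerivAt (by norm_num) h).comp v hhd
  simp only [fun u => s.key u x hx] at h1
  simpa [ha] using DFunLike.congr_fun (h1.unique h2) a

/-- Second derivative of the identity, along the tangent space. -/
lemma second_identity {v x : E} (hv : v ≠ 0) (hx : ‖x‖ = 1) (h : v - ‖v‖ • x ≠ 0) {a b : E}
    (ha : dN v a = 0) (hb : dN v b = 0) :
    ddN (s.G v - ‖v‖ • s.G x) (s.dG v a) (s.dG v b) +
        dN (s.G v - ‖v‖ • s.G x) (s.ddG v a b - ddN v a b • s.G x) =
      ddN (v - ‖v‖ • x) a b + dN (v - ‖v‖ • x) (-(ddN v a b • x)) := by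
  have hF := s.smoothNorm_two hE
  have hn := hE v hv
  set g : E → F := fun u => s.G u - ‖u‖ • s.G x with hg
  set k : E → E := fun u => u - ‖u‖ • x with hk
  have hgc : ContDiffAt ℝ 2 g v := (s.contDiffAt_two hE hv).sub (hn.smul contDiffAt_const)
  have hkc : ContDiffAt ℝ 2 k v := contDiffAt_id.sub (hn.smul contDiffAt_const)
  have heq : (fun u => ‖g u‖) = fun u => ‖k u‖ := funext fun u => s.key u x hx
  have hN := fderiv_fderiv_norm_comp hF hgc (s.chord_ne hx h) a b
  rw [heq, fderiv_fderiv_norm_comp hE hkc h a b] at hN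
  have hne : ∀ᶠ u in 𝓝 v, u ≠ 0 := eventually_ne_nhds hv
  have hgd : fderiv ℝ g v = s.dG v - (dN v).smulRight (s.G x) :=
    ((s.hasFDerivAt_G hE hv).sub ((hE.hasFDerivAt (by norm_num) hv).smul_const _)).fderiv
  have hkd : fderiv ℝ k v = ContinuousLinearMap.id ℝ E - (dN v).smulRight x :=
    ((hasFDerivAt_id v).sub ((hE.hasFDerivAt (by norm_num) hv).smul_const _)).fderiv
  have hgev : fderiv ℝ g =ᶠ[𝓝 v] fun u =>
      fderiv ℝ s.G u - ((ContinuousLinearMap.smulRightL ℝ E F).flip (s.G x)) (dN u) :=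
    hne.mono fun u hu =>
      ((s.hasFDerivAt_G hE hu).sub ((hE.hasFDerivAt (by norm_num) hu).smul_const _)).fderiv
  have hkev : fderiv ℝ k =ᶠ[𝓝 v] fun u =>
      ContinuousLinearMap.id ℝ E - ((ContinuousLinearMap.smulRightL ℝ E E).flip x) (dN u) :=
    hne.mono fun u hu =>
      ((hasFDerivAt_id u).sub ((hE.hasFDerivAt (by norm_num) hu).smul_const _)).fderiv
  have hdn := (hE.differentiableAt_dN hv).hasFDerivAt
  have hgdd : fderiv ℝ (fderiv ℝ g) v a b = s.ddG v a b - ddN v a b • s.G x := by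
    have hcd : HasFDerivAt
        (fun u => ((ContinuousLinearMap.smulRightL ℝ E F).flip (s.G x)) (dN u))
        (((ContinuousLinearMap.smulRightL ℝ E F).flip (s.G x)).comp (ddN v)) v :=
      ((ContinuousLinearMap.smulRightL ℝ E F).flip (s.G x)).hasFDerivAt.comp v hdn
    rw [hgev.fderiv_eq, ((s.hasFDerivAt_dG hE hv).fun_sub hcd).fderiv]
    simp
  have hkdd : fderiv ℝ (fderiv ℝ k) v a b = -(ddN v a b • x) := by
    have hcd : HasFDerivAt
        (fun u => ((ContinuousLinearMap.smulRightL ℝ E E).flip x) (dN u))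
        (((ContinuousLinearMap.smulRightL ℝ E E).flip x).comp (ddN v)) v :=
      ((ContinuousLinearMap.smulRightL ℝ E E).flip x).hasFDerivAt.comp v hdn
    rw [hkev.fderiv_eq, (hcd.const_sub (ContinuousLinearMap.id ℝ E)).fderiv]
    simp
  rw [hgdd, hkdd, hgd, hkd] at hN
  simp [ha, hb] at hN
  simpa [hg, hk] using hN.symm

lemma norm_G_second {v : E} (hv : v ≠ 0) (a b : E) :
    ddN (s.G v) (s.dG v a) (s.dG v b) + dN (s.G v) (s.ddG v a b) = ddN v a b := by
  have hw : s.G v ≠ 0 := fun h => hv (s.G_injective (by rw [h, G_zero]))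
  have h := fderiv_fderiv_norm_comp (s.smoothNorm_two hE) (s.contDiffAt_two hE hv) hw a b
  simp only [s.norm_G] at h
  exact h.symm

/-- The second derivative of `G` is tangent to the sphere. -/
lemma dN_ddG {v : E} (hv : v ≠ 0) (a b : E) : dN (s.G v) (s.ddG v a b) = 0 := by
  have hw : s.G v ≠ 0 := fun h => hv (s.G_injective (by rw [h, G_zero]))
  have hF := s.smoothNorm_two hE
  have hr : 0 < ‖v‖ := norm_pos_iff.2 hv
  have key : ∀ a b, dN v a = 0 → dN v b = 0 → dN (s.G v) (s.ddG v a b) = 0 := by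
    intro a b ha hb
    have hx : ‖-(‖v‖⁻¹ • v)‖ = 1 := by
      rw [norm_neg]
      exact norm_smul_inv_norm hv
    have e1 : v - ‖v‖ • -(‖v‖⁻¹ • v) = (2 : ℝ) • v := by
      simp [smul_smul, hr.ne', two_smul]
    have h := s.second_identity hE hv hx (by rw [e1]; exact smul_ne_zero two_ne_zero hv) ha hb
    have e2 : s.G v - ‖v‖ • s.G (-(‖v‖⁻¹ • v)) = (2 : ℝ) • s.G v := by
      simp [s.G_neg, s.G_smul, smul_smul, hr.ne', two_smul]
    rw [e1, e2, hE.ddN_smul_pos hv two_pos, hF.ddN_smul_pos hw two_pos, dN_smul_pos _ two_pos,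
      dN_smul_pos _ two_pos] at h
    have h2 := s.norm_G_second hE hv a b
    simp [s.G_neg, s.G_smul, hE.dN_self one_le_two hv, hF.dN_self one_le_two hw, s.norm_G,
      hr.ne'] at h
    linarith
  have hdv : ∀ c, s.ddG v v c = 0 := fun c => by rw [s.ddG_self_left hE hv]; rfl
  have hdv' : ∀ c, s.ddG v c v = 0 := fun c => by rw [s.ddG_symm hE hv]; exact hdv c
  have hnv : dN v v = ‖v‖ := hE.dN_self one_le_two hv
  have h := key (a - (dN v a / ‖v‖) • v) (b - (dN v b / ‖v‖) • v)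
    (by simp [hnv, hr.ne']) (by simp [hnv, hr.ne'])
  simpa [map_sub, map_smul, hdv, hdv'] using h

/-- The two second derivatives of the norms correspond under `dG`. -/
lemma ddN_dG {v : E} (hv : v ≠ 0) (a b : E) :
    ddN (s.G v) (s.dG v a) (s.dG v b) = ddN v a b := by
  have h := s.norm_G_second hE hv a b
  rwa [s.dN_ddG hE hv, add_zero] at h

/-- `dG v` preserves the norm of tangent vectors. -/
lemma norm_dG {v : E} (hv : v ≠ 0) {a : E} (ha : dN v a = 0) : ‖s.dG v a‖ = ‖a‖ := by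
  have hr : 0 < ‖v‖ := norm_pos_iff.2 hv
  have hl : HasDerivAt (fun t : ℝ => v + t • a) a 0 := by
    simpa using ((hasDerivAt_id (0 : ℝ)).smul_const a).const_add v
  have hn : HasDerivAt (fun t : ℝ => ‖v + t • a‖) 0 0 := by
    have := (hE.hasFDerivAt one_le_two hv).comp_hasDerivAt_of_eq 0 hl (by simp)
    rwa [ha] at this
  have hne : ‖v + (0 : ℝ) • a‖ ≠ 0 := by simp [hv]
  set γ : ℝ → E := fun t => (‖v‖ * ‖v + t • a‖⁻¹) • (v + t • a) with hγ
  have hγ0 : γ 0 = v := by simp [hγ, hr.ne']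
  have hγd : HasDerivAt γ a 0 := by
    refine (((hn.inv hne).const_mul ‖v‖).smul hl).congr_deriv ?_
    simp [hr.ne']
  have hGγ : HasDerivAt (fun t => s.G (γ t)) (s.dG v a) 0 :=
    (s.hasFDerivAt_G hE hv).comp_hasDerivAt_of_eq 0 hγd hγ0.symm
  have hne' : ∀ᶠ t in 𝓝 (0 : ℝ), v + t • a ≠ 0 :=
    hl.continuousAt.tendsto.eventually_ne (by simpa using hv)
  have hev : ∀ᶠ t in 𝓝[≠] (0 : ℝ),
      ‖t⁻¹ • (γ (0 + t) - γ 0)‖ = ‖t⁻¹ • (s.G (γ (0 + t)) - s.G (γ 0))‖ := by
    filter_upwards [hne'.filter_mono nhdsWithin_le_nhds] with t ht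
    rw [zero_add, hγ0, norm_smul, norm_smul]
    congr 1
    have hxt : ‖‖v + t • a‖⁻¹ • (v + t • a)‖ = 1 := norm_smul_inv_norm ht
    have := s.key v _ hxt
    rw [← s.G_smul, smul_smul] at this
    rw [norm_sub_rev, ← this, norm_sub_rev]
  exact tendsto_nhds_unique hGγ.tendsto_slope_zero.norm (hγd.tendsto_slope_zero.norm.congr' hev)

end SphIso

end Vale.Agent.P084
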