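import Vale.Agent.P084.Calc

/-!
P084 (Tingley's problem), library: a point of the sphere at which the determinant of the
derivative is critical.
-/

namespace Vale.Agent.P084

open Filter Topology

lemma hasDerivAt_det_one {ι : Type*} [Fintype ι] [DecidableEq ι] {R : ℝ → Matrix ι ι ℝ}
    {R' : Matrix ι ι ℝ} (h : ∀ i j, HasDerivAt (fun t => R t i j) (R' i j) 0) (h1 : R 0 = 1) :
    HasDerivAt (fun t => (R t).det) R'.trace 0 := by
  simp only [Matrix.det_apply']
  have hσ : ∀ σ : Equiv.Perm ι, HasDerivAt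
      (fun t => ((Equiv.Perm.sign σ : ℤ) : ℝ) * ∏ i, R t (σ i) i)
      (if σ = 1 then R'.trace else 0) 0 := by
    intro σ
    refine ((HasDerivAt.fun_finsetProd fun i (_ : i ∈ Finset.univ) => h (σ i) i).const_mul
      ((Equiv.Perm.sign σ : ℤ) : ℝ)).congr_deriv ?_
    rcases eq_or_ne σ 1 with rfl | hne
    · simp only [if_true, Equiv.Perm.sign_one, Units.val_one, Int.cast_one, one_mul,
        Equiv.Perm.one_apply, smul_eq_mul, h1, Matrix.one_apply_eq, Finset.prod_const_one,
        Matrix.trace, Matrix.diag]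
    · rw [if_neg hne, Finset.sum_eq_zero, mul_zero]
      intro i _
      obtain ⟨j, hj⟩ : ∃ j, σ j ≠ j := by
        by_contra! hc
        exact hne (Equiv.ext hc)
      obtain ⟨k, hki, hk⟩ : ∃ k, k ≠ i ∧ σ k ≠ k := by
        rcases eq_or_ne j i with rfl | hji
        · exact ⟨σ j, hj, fun e => hj (σ.injective e)⟩
        · exact ⟨j, hji, hj⟩
      rw [Finset.prod_eq_zero (Finset.mem_erase.2 ⟨hki, Finset.mem_univ k⟩)
        (by rw [h1]; exact Matrix.one_apply_ne hk), zero_smul]
  refine (HasDerivAt.fun_sum fun σ (_ : σ ∈ Finset.univ) => hσ σ).congr_deriv ?_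
  simp

variable {E F : Type*} [NormedAddCommGroup E] [NormedSpace ℝ E] [FiniteDimensional ℝ E]
  [NormedAddCommGroup F] [NormedSpace ℝ F] [FiniteDimensional ℝ F]

namespace SphIso

variable (s : SphIso E F)

include s in
/-- Some unit vector is a critical point of the determinant of the derivative. -/
lemma exists_critical [Nontrivial E] (hE : SmoothNorm E 2) :
    ∃ y : E, ‖y‖ = 1 ∧ ∀ A : E ≃L[ℝ] F, (A : E →L[ℝ] F) = s.dG y → ∀ a : E,
      LinearMap.trace ℝ E
        (((A.symm : F →L[ℝ] E).comp (s.ddG y a)).toLinearMap) = 0 := by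
  obtain ⟨v₀, hv₀⟩ := exists_ne (0 : E)
  obtain ⟨A₀, hA₀⟩ := s.exists_equiv hE hv₀
  set f : E → ℝ := fun u => ((A₀.symm : F →L[ℝ] E).comp (s.dG u)).det with hf
  have hfc : ∀ u, u ≠ 0 → ContinuousAt f u := fun u hu =>
    (ContinuousLinearMap.continuous_det.tendsto _).comp
      ((((ContinuousLinearMap.compL ℝ E F E) (A₀.symm : F →L[ℝ] E)).continuous.tendsto _).comp
        (s.continuousAt_dG hE hu))
  have hS : (Metric.sphere (0 : E) 1).Nonempty := (NormedSpace.sphere_nonempty).2 zero_le_one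
  obtain ⟨y, hy, hmax⟩ := (isCompact_sphere (0 : E) 1).exists_isMaxOn hS
    (fun u hu => ((hfc u (ne_zero_of_mem_unit_sphere ⟨u, hu⟩)).pow 2).continuousWithinAt :
      ContinuousOn (fun u => f u ^ 2) _)
  rw [mem_sphere_zero_iff_norm] at hy
  have hy0 : y ≠ 0 := fun h => by simp [h] at hy
  refine ⟨y, hy, fun A hA a => ?_⟩
  set g : E → ℝ := fun u => ((A.symm : F →L[ℝ] E).comp (s.dG u)).det with hg
  set c : ℝ := ((A.symm : F →L[ℝ] E).comp (A₀ : E →L[ℝ] F)).det with hc
  have hgf : ∀ u, g u = c * f u := by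
    intro u
    simp only [hg, hf, hc, ContinuousLinearMap.det]
    rw [← LinearMap.det_comp]
    congr 1
    ext x
    simp
  have hgy : g y = 1 := by
    simp only [hg, ← hA, ContinuousLinearEquiv.coe_symm_comp_coe, ContinuousLinearMap.det,
      ContinuousLinearMap.coe_id, LinearMap.det_id]
  have hg_le : ∀ u, u ≠ 0 → g u ≤ 1 := by
    intro u hu
    have e : f u = f (‖u‖⁻¹ • u) := by
      simp only [hf, s.dG_smul hE hu (inv_ne_zero (norm_ne_zero_iff.2 hu))]
    have h1 : f u ^ 2 ≤ f y ^ 2 := by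
      rw [e]
      exact hmax (mem_sphere_zero_iff_norm.2 (norm_smul_inv_norm hu))
    have h2 : g u ^ 2 ≤ 1 ^ 2 := by
      rw [← hgy, hgf u, hgf y, mul_pow, mul_pow]
      exact mul_le_mul_of_nonneg_left h1 (sq_nonneg c)
    exact (abs_le_of_sq_le_sq' h2 zero_le_one).2
  set b := Module.finBasis ℝ E with hb
  set R : ℝ → Matrix (Fin (Module.finrank ℝ E)) (Fin (Module.finrank ℝ E)) ℝ := fun t =>
    LinearMap.toMatrix b b (((A.symm : F →L[ℝ] E).comp (s.dG (y + t • a))).toLinearMap) with hR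
  set R' := LinearMap.toMatrix b b (((A.symm : F →L[ℝ] E).comp (s.ddG y a)).toLinearMap) with hR'
  have hl : HasDerivAt (fun t : ℝ => y + t • a) a 0 := by
    simpa using ((hasDerivAt_id (0 : ℝ)).smul_const a).const_add y
  have hdG : HasDerivAt (fun t : ℝ => s.dG (y + t • a)) (s.ddG y a) 0 :=
    (s.hasFDerivAt_dG hE hy0).comp_hasDerivAt_of_eq 0 hl (by simp)
  have hentry : ∀ i j, HasDerivAt (fun t => R t i j) (R' i j) 0 := by
    intro i j
    have h := ((b.coord i).toContinuousLinearMap.comp (A.symm : F →L[ℝ] E)).hasFDerivAt.comp_hasDerivAt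
      0 (hdG.clm_apply (hasDerivAt_const 0 (b j)))
    simp only [hR, hR', LinearMap.toMatrix_apply]
    simpa [Function.comp_def] using h
  have hR0 : R 0 = 1 := by
    simp only [hR, zero_smul, add_zero, ← hA, ContinuousLinearEquiv.coe_symm_comp_coe,
      ContinuousLinearMap.coe_id, LinearMap.toMatrix_id]
  have hRg : ∀ t : ℝ, (R t).det = g (y + t • a) := fun t => by
    simp [hR, hg, ContinuousLinearMap.det, LinearMap.det_toMatrix]
  have hmaxloc : IsLocalMax (fun t => (R t).det) 0 := by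
    filter_upwards [hl.continuousAt.tendsto.eventually_ne (by simpa using hy0)] with t ht
    rw [hRg, hRg, zero_smul, add_zero, hgy]
    exact hg_le _ ht
  rw [LinearMap.trace_eq_matrix_trace ℝ b]
  exact hmaxloc.hasDerivAt_eq_zero (hasDerivAt_det_one hentry hR0)

end SphIso

end Vale.Agent.P084
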