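import Vale.Agent.P084.Norm

/-!
P084 (Tingley's problem), library: a totally symmetric trace-free cubic form compatible with a
smooth norm vanishes.
-/

namespace Vale.Agent.P084

open Filter Topology

variable {V : Type*} [NormedAddCommGroup V] [NormedSpace ℝ V] [FiniteDimensional ℝ V]

omit [FiniteDimensional ℝ V] in
lemma trace_eq_sum_repr {ι : Type*} [Fintype ι] [DecidableEq ι] (b : Module.Basis ι ℝ V)
    (A : V →ₗ[ℝ] V) : LinearMap.trace ℝ V A = ∑ i, b.repr (A (b i)) i := by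
  rw [LinearMap.trace_eq_matrix_trace ℝ b, Matrix.trace]
  simp [Matrix.diag, LinearMap.toMatrix_apply]

/-- The key algebraic fact. -/
theorem cubic_eq_zero (hV : SmoothNorm V 2) (hK : ∀ x : V, x ≠ 0 → ∀ v, 0 ≤ ddN x v v)
    (Q : LinearMap.BilinForm ℝ V) (B : V →ₗ[ℝ] V →ₗ[ℝ] V)
    (hQs : ∀ a b, Q a b = Q b a) (hQp : ∀ a, a ≠ 0 → 0 < Q a a)
    (hBs : ∀ a b, B a b = B b a) (hC : ∀ a b c, Q a (B b c) = Q b (B a c))
    (htr : ∀ a, LinearMap.trace ℝ V (B a) = 0) (δ : V → ℝ)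
    (hid : ∀ ξ, ξ ≠ 0 → ∀ η, dN ξ (B η ξ) = Q η ξ * δ ξ) : B = 0 := by
  have hQdef : ∀ a, (∀ τ, Q τ a = 0) → a = 0 := fun a h => by
    by_contra ha
    exact (hQp a ha).ne' (h a)
  let W : Submodule ℝ V :=
    { carrier := {w | ∀ u, B u = 0 → Q u w = 0}
      zero_mem' := fun u _ => map_zero _
      add_mem' := fun ha hb u hu => by simp [ha u hu, hb u hu]
      smul_mem' := fun c _ ha u hu => by simp [ha u hu] }
  have hBW : ∀ a b, B a b ∈ W := fun a b u hu => by rw [hC u a b, hu]; simp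
  by_contra hB
  obtain ⟨a₁, b₁, hab⟩ : ∃ a b, B a b ≠ 0 := by
    by_contra! h
    exact hB (LinearMap.ext fun a => LinearMap.ext fun b => h a b)
  -- maximise `Q` on the unit sphere of `W`
  set S : Set V := (W : Set V) ∩ Metric.sphere 0 1 with hS
  have hSc : IsCompact S :=
    (isCompact_sphere 0 1).inter_left W.closed_of_finiteDimensional
  have hSne : S.Nonempty :=
    ⟨‖B a₁ b₁‖⁻¹ • B a₁ b₁, W.smul_mem _ (hBW _ _), mem_sphere_zero_iff_norm.2 (norm_smul_inv_norm hab)⟩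
  have hQc : Continuous fun w : V => Q w w := by
    let Q' : V →ₗ[ℝ] V →L[ℝ] ℝ :=
      (LinearMap.toContinuousLinearMap (𝕜 := ℝ) (E := V) (F' := ℝ)).toLinearMap.comp Q
    exact (Q'.continuous_of_finiteDimensional.clm_apply continuous_id :)
  obtain ⟨ξ₀, ⟨hξW, hξ1⟩, hmax⟩ := hSc.exists_isMaxOn hSne hQc.continuousOn
  rw [mem_sphere_zero_iff_norm] at hξ1
  have hξ0 : ξ₀ ≠ 0 := fun h => by simp [h] at hξ1
  set lam := Q ξ₀ ξ₀ with hlam
  have hlpos : 0 < lam := hQp ξ₀ hξ0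
  have hle : ∀ w ∈ W, Q w w ≤ lam * ‖w‖ ^ 2 := by
    intro w hw
    rcases eq_or_ne w 0 with rfl | hw0
    · simp
    have h := hmax (show ‖w‖⁻¹ • w ∈ S from
      ⟨W.smul_mem _ hw, mem_sphere_zero_iff_norm.2 (norm_smul_inv_norm hw0)⟩)
    simp only [Set.mem_ofPred_eq, map_smul, LinearMap.smul_apply, smul_eq_mul] at h
    have hp : 0 < ‖w‖ := norm_pos_iff.2 hw0
    have e : Q w w = ‖w‖ ^ 2 * (‖w‖⁻¹ * (‖w‖⁻¹ * Q w w)) := by field_simp
    rw [e, mul_comm lam]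
    gcongr
  have hlag : ∀ w ∈ W, Q ξ₀ w = lam * dN ξ₀ w := by
    intro w hw
    have hmax' : IsLocalMax (fun t : ℝ => Q (ξ₀ + t • w) (ξ₀ + t • w) - lam * ‖ξ₀ + t • w‖ ^ 2) 0 :=
      Eventually.of_forall fun t => by
        simpa [hξ1, ← hlam] using hle _ (W.add_mem hξW (W.smul_mem t hw))
    have h1 : HasDerivAt (fun t : ℝ => lam + 2 * Q ξ₀ w * t + Q w w * t ^ 2) (2 * Q ξ₀ w) 0 := by
      refine HasDerivAt.congr_deriv ((((hasDerivAt_id' (0 : ℝ)).const_mul (2 * Q ξ₀ w)).const_add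
        lam).add ((hasDerivAt_pow 2 (0 : ℝ)).const_mul (Q w w))) ?_
      simp
    have h2 : HasDerivAt (fun t : ℝ => Q (ξ₀ + t • w) (ξ₀ + t • w)) (2 * Q ξ₀ w) 0 := by
      refine h1.congr_of_eventuallyEq (Eventually.of_forall fun t => ?_)
      simp [hQs w ξ₀, ← hlam]
      ring
    have hl : HasDerivAt (fun t : ℝ => ξ₀ + t • w) w 0 := by
      simpa using ((hasDerivAt_id (0 : ℝ)).smul_const w).const_add ξ₀
    have h3 : HasDerivAt (fun t : ℝ => ‖ξ₀ + t • w‖) (dN ξ₀ w) 0 :=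
      (hV.hasFDerivAt (by norm_num) hξ0).comp_hasDerivAt_of_eq 0 hl (by simp)
    have := hmax'.hasDerivAt_eq_zero (h2.sub ((h3.pow 2).const_mul lam))
    simp [hξ1] at this
    linarith
  have hnB : ∀ a b, dN ξ₀ (B a b) = Q ξ₀ (B a b) / lam := fun a b => by
    rw [hlag _ (hBW a b), mul_div_assoc]
    field_simp
  set A := B ξ₀ with hA
  set d := lam * δ ξ₀ with hd
  have hA0 : A ξ₀ = d • ξ₀ := by
    refine sub_eq_zero.1 (hQdef _ fun τ => ?_)
    have h := hid ξ₀ hξ0 τ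
    rw [hnB, div_eq_iff hlpos.ne'] at h
    rw [map_sub, map_smul, hA, hC τ ξ₀ ξ₀, h, smul_eq_mul, hd]
    ring
  have hperp : ∀ η, Q ξ₀ η = 0 → Q ξ₀ (A η) = 0 ∧ Q (A η) (A η) ≤ d * Q η (A η) := by
    intro η hη
    set τ := A η with hτ
    have hτW : τ ∈ W := hBW _ _
    have e0 : Q ξ₀ τ = 0 := by
      rw [hτ, hA, hBs, hC ξ₀ η ξ₀, ← hA, hA0, map_smul, hQs η ξ₀, hη, smul_zero]
    refine ⟨e0, ?_⟩
    have hnτ : dN ξ₀ τ = 0 := by
      have := hlag τ hτW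
      rw [e0] at this
      exact (mul_eq_zero.1 this.symm).resolve_left hlpos.ne'
    have hl : HasDerivAt (fun t : ℝ => ξ₀ + t • τ) τ 0 := by
      simpa using ((hasDerivAt_id (0 : ℝ)).smul_const τ).const_add ξ₀
    have hlin : ∀ φ : V →ₗ[ℝ] ℝ, HasDerivAt (fun t : ℝ => φ (ξ₀ + t • τ)) (φ τ) 0 := fun φ =>
      φ.toContinuousLinearMap.hasFDerivAt.comp_hasDerivAt 0 hl
    have hlinV : ∀ φ : V →ₗ[ℝ] V, HasDerivAt (fun t : ℝ => φ (ξ₀ + t • τ)) (φ τ) 0 := fun φ =>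
      φ.toContinuousLinearMap.hasFDerivAt.comp_hasDerivAt 0 hl
    have hdn : HasDerivAt (fun t : ℝ => dN (ξ₀ + t • τ)) (ddN ξ₀ τ) 0 :=
      (hV.differentiableAt_dN hξ0).hasFDerivAt.comp_hasDerivAt_of_eq 0 hl (by simp)
    have hF := ((hlin (Q ξ₀)).mul (hdn.clm_apply (hlinV (B η)))).sub
      ((hlin (Q η)).mul (hdn.clm_apply (hlinV (B ξ₀))))
    have hzero : (fun t : ℝ => Q ξ₀ (ξ₀ + t • τ) * dN (ξ₀ + t • τ) (B η (ξ₀ + t • τ)) -
        Q η (ξ₀ + t • τ) * dN (ξ₀ + t • τ) (B ξ₀ (ξ₀ + t • τ))) =ᶠ[𝓝 0] fun _ => 0 := by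
      have hne : ∀ᶠ t in 𝓝 (0 : ℝ), ξ₀ + t • τ ≠ 0 :=
        (hl.continuousAt.tendsto).eventually_ne (by simpa using hξ0)
      filter_upwards [hne] with t ht
      rw [hid _ ht η, hid _ ht ξ₀]
      ring
    have hd0 := hF.unique ((hasDerivAt_const (0 : ℝ) (0 : ℝ)).congr_of_eventuallyEq hzero)
    have eητ : Q ξ₀ (B η τ) = Q τ τ := by
      rw [hC ξ₀ η τ, hBs ξ₀ τ, hC η τ ξ₀, hBs η ξ₀]
    simp only [zero_smul, add_zero, hBs η ξ₀, ← hA, ← hτ, hA0, map_smul, smul_eq_mul, hnτ,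
      ← hlam, e0, hnB η τ, eητ, hV.dN_self (by norm_num) hξ0, hξ1, hQs η ξ₀, hη] at hd0
    have hk := mul_nonneg hlpos.le (hK ξ₀ hξ0 τ)
    have hcancel : lam * (Q τ τ / lam) = Q τ τ := by field_simp
    nlinarith
  -- the trace
  obtain ⟨b, hb⟩ := LinearMap.BilinForm.exists_orthogonal_basis (B := Q) ⟨hQs⟩
  have hdiag : ∀ i, Q (b i) (A (b i)) = b.repr (A (b i)) i * Q (b i) (b i) := by
    intro i
    conv_lhs => rw [← b.sum_repr (A (b i))]
    rw [map_sum, Finset.sum_eq_single i]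
    · simp
    · intro j _ hji
      rw [map_smul, hb (Ne.symm hji), smul_zero]
    · simp
  have hpsd : ∀ v, (Q ξ₀ v / lam) ^ 2 * d ^ 2 * lam ≤ d * Q v (A v) := by
    intro v
    set c := Q ξ₀ v / lam with hc
    set η := v - c • ξ₀ with hη
    have hη0 : Q ξ₀ η = 0 := by
      simp only [hη, map_sub, map_smul, smul_eq_mul, hc, ← hlam]
      field_simp
      ring
    obtain ⟨e1, e2⟩ := hperp η hη0
    have hv : v = c • ξ₀ + η := by simp [hη]
    have hnn : 0 ≤ Q (A η) (A η) := by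
      rcases eq_or_ne (A η) 0 with h | h
      · simp [h]
      · exact (hQp _ h).le
    rw [hv]
    simp only [map_add, map_smul, LinearMap.add_apply, LinearMap.smul_apply, smul_eq_mul, hA0,
      hQs η ξ₀, hη0, e1, ← hlam]
    nlinarith
  have hsum : ∑ i, d * b.repr (A (b i)) i = 0 := by
    rw [← Finset.mul_sum, ← trace_eq_sum_repr, htr, mul_zero]
  have hterm : ∀ i, 0 ≤ d * b.repr (A (b i)) i := by
    intro i
    have h := hpsd (b i)
    rw [hdiag, ← mul_assoc] at h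
    refine nonneg_of_mul_nonneg_left ((le_trans ?_ h)) (hQp _ (b.ne_zero i))
    positivity
  have hd0 : d = 0 := by
    by_contra hne
    apply hlpos.ne'
    have hz : ∀ i, Q ξ₀ (b i) = 0 := by
      intro i
      have h := hpsd (b i)
      rw [hdiag, ← mul_assoc, (Finset.sum_eq_zero_iff_of_nonneg fun i _ => hterm i).1 hsum i
        (Finset.mem_univ i), zero_mul] at h
      by_contra hne'
      have : 0 < (Q ξ₀ (b i) / lam) ^ 2 * d ^ 2 * lam := by positivity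
      linarith
    have hzero : Q ξ₀ = 0 := b.ext fun i => by simp [hz i]
    rw [hlam, hzero, LinearMap.zero_apply]
  -- `ξ₀` lies in the kernel of `B`, so it is orthogonal to itself
  refine hlpos.ne' (hξW ξ₀ (LinearMap.ext fun v => ?_))
  set c := Q ξ₀ v / lam with hc
  have hη0 : Q ξ₀ (v - c • ξ₀) = 0 := by
    simp only [map_sub, map_smul, smul_eq_mul, hc, ← hlam]
    field_simp
    ring
  have h := (hperp _ hη0).2
  rw [hd0, zero_mul] at h
  have hA1 : A (v - c • ξ₀) = 0 := by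
    by_contra hne
    exact absurd (hQp _ hne) (not_lt.2 h)
  rw [map_sub, map_smul, hA0, hd0, zero_smul, smul_zero, sub_zero] at hA1
  exact hA1

end Vale.Agent.P084
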