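import Vale.Agent.P084.Bound

/-!
P084 (Tingley's problem), library: the derivative of the extension is constant.
-/

namespace Vale.Agent.P084

open Filter Topology MeasureTheory Metric
open scoped ENNReal

/-- A map whose derivative is bounded and vanishes outside a set of small measure oscillates
little. -/
lemma oscillation {E W : Type*} [NormedAddCommGroup E] [NormedSpace ℝ E] [FiniteDimensional ℝ E]
    [NormedAddCommGroup W] [NormedSpace ℝ W] [MeasurableSpace E] [BorelSpace E]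
    (μ : Measure E) [μ.IsAddHaarMeasure] {g : E → W} {K : Set E} (hK : IsClosed K) {z₀ : E}
    {r C : ℝ} (hC : 0 ≤ C)
    (hd : ∀ z ∈ ball z₀ r, ∃ g' : E →L[ℝ] W, HasFDerivAt g g' z ∧ ‖g'‖ ≤ C ∧ (z ∉ K → g' = 0))
    {a b : E} (ha : a ∈ ball z₀ (r / 2)) (hb : b ∈ ball z₀ (r / 2)) {ρ : ℝ} (hρ : 0 < ρ)
    (hρr : ρ < r / 2) {m : ℝ} (hm : 0 ≤ m) (hKm : μ K ≤ ENNReal.ofReal m * μ (ball 0 ρ)) :
    ‖g b - g a‖ ≤ 2 * C * ρ + C * ‖b - a‖ * m := by
  have : ProperSpace E := FiniteDimensional.proper_real E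
  have hμ0 : μ (ball (0 : E) ρ) ≠ 0 := (measure_ball_pos μ 0 hρ).ne'
  have hμt : μ (ball (0 : E) ρ) ≠ ∞ := measure_ball_lt_top.ne
  set c : ℝ → E → E := fun t h => a + h + t • (b - a) with hc
  set f : E → ℝ≥0∞ := fun h => ∫⁻ t in Set.Icc (0 : ℝ) 1, K.indicator 1 (c t h) with hf
  have hmeas : Measurable fun p : E × ℝ => K.indicator (1 : E → ℝ≥0∞) (c p.2 p.1) :=
    (measurable_one.indicator hK.measurableSet).comp
      (show Continuous fun p : E × ℝ => c p.2 p.1 by fun_prop).measurable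
  have hfm : Measurable f := hmeas.lintegral_prod_right'
  obtain ⟨h, hh, hle⟩ := exists_le_setLAverage hμ0 hμt hfm.aemeasurable
  have hfle : f h ≤ ENNReal.ofReal m := by
    refine hle.trans ?_
    rw [setLAverage_eq, hf]
    refine ENNReal.div_le_of_le_mul ?_
    rw [lintegral_lintegral_swap hmeas.aemeasurable]
    have h1 : ∀ t : ℝ, ∫⁻ h in ball (0 : E) ρ, K.indicator 1 (c t h) ∂μ ≤ μ K := fun t => by
      refine (setLIntegral_le_lintegral _ _).trans (le_of_eq ?_)
      have e : ∀ h, c t h = h + (a + t • (b - a)) := fun h => by simp only [hc]; abel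
      simp only [e]
      rw [lintegral_add_right_eq_self (fun z => K.indicator 1 z),
        lintegral_indicator_one hK.measurableSet]
    refine (lintegral_mono fun t => h1 t).trans ?_
    simpa using hKm
  have hmem : ∀ p ∈ ball z₀ (r / 2), ∀ v : E, ‖v‖ ≤ ρ → p + v ∈ ball z₀ r := by
    intro p hp v hv
    rw [mem_ball, dist_eq_norm] at hp ⊢
    calc ‖p + v - z₀‖ = ‖(p - z₀) + v‖ := by rw [add_sub_right_comm]
      _ ≤ ‖p - z₀‖ + ‖v‖ := norm_add_le _ _
      _ < r := by linarith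
  have hhn : ‖h‖ ≤ ρ := (mem_ball_zero_iff.1 hh).le
  have hend : ∀ p ∈ ball z₀ (r / 2), ‖g (p + h) - g p‖ ≤ C * ρ := by
    intro p hp
    choose g' hg' hgC hg0 using hd
    classical
    have h2 := (convex_ball z₀ r).norm_image_sub_le_of_norm_hasFDerivWithin_le
      (f := g) (f' := fun z => if hz : z ∈ ball z₀ r then g' z hz else 0)
      (fun z hz => by rw [dif_pos hz]; exact (hg' z hz).hasFDerivWithinAt)
      (fun z hz => by rw [dif_pos hz]; exact hgC z hz)
      (by simpa using hmem p hp 0 (by simpa using hρ.le)) (hmem p hp h hhn)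
    rw [add_sub_cancel_left] at h2
    exact h2.trans (by gcongr)
  have hseg : ‖g (b + h) - g (a + h)‖ ≤ C * ‖b - a‖ * m := by
    obtain ⟨φ, hφ, hφv⟩ := exists_dual_vector'' ℝ (g (b + h) - g (a + h))
    have hin : ∀ t ∈ Set.Icc (0 : ℝ) 1, c t h ∈ ball z₀ r := by
      intro t ht
      have h1 : a + t • (b - a) ∈ ball z₀ (r / 2) :=
        (convex_ball _ _).segment_subset ha hb ⟨1 - t, t, by linarith [ht.2], ht.1, by ring, by
          module⟩
      have := hmem _ h1 h hhn
      simpa only [hc, add_right_comm] using this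
    choose g' hg' hgC hg0 using hd
    classical
    set G' : ℝ → ℝ := fun t =>
      if hz : c t h ∈ ball z₀ r then φ (g' _ hz (b - a)) else 0 with hG'
    have hder : ∀ t ∈ Set.Icc (0 : ℝ) 1, HasDerivAt (fun t => φ (g (c t h))) (G' t) t := by
      intro t ht
      have hl : HasDerivAt (fun t : ℝ => c t h) (b - a) t := by
        simpa [hc] using ((hasDerivAt_id t).smul_const (b - a)).const_add (a + h)
      rw [hG']
      simp only [dif_pos (hin t ht)]
      exact φ.hasFDerivAt.comp_hasDerivAt t ((hg' _ (hin t ht)).comp_hasDerivAt t hl)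
    set ψ : ℝ → ℝ := fun t => (K.indicator (fun _ => C * ‖b - a‖) (c t h)) with hψ
    have hcc : Continuous fun t : ℝ => c t h := by fun_prop
    have hψi : IntegrableOn ψ (Set.Icc 0 1) := by
      have : ψ = ((fun t => c t h) ⁻¹' K).indicator fun _ => C * ‖b - a‖ := rfl
      rw [this]
      exact (continuousOn_const.integrableOn_Icc).indicator
        (hK.preimage hcc).measurableSet
    have hle' : ∀ t ∈ Set.Ioo (0 : ℝ) 1, G' t ≤ ψ t := by
      intro t ht
      have hz := hin t (Set.Ioo_subset_Icc_self ht)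
      simp only [hG', dif_pos hz, hψ]
      by_cases hk : c t h ∈ K
      · rw [Set.indicator_of_mem hk]
        refine (Real.le_norm_self _).trans ((φ.le_opNorm _).trans ?_)
        refine (mul_le_mul hφ (((g' _ hz)).le_opNorm _) (norm_nonneg _) zero_le_one).trans ?_
        rw [one_mul]
        gcongr
        exact hgC _ hz
      · rw [Set.indicator_of_notMem hk, hg0 _ hz hk]
        simp
    have hftc := intervalIntegral.sub_le_integral_of_hasDeriv_right_of_le zero_le_one
      (fun t ht => (hder t ht).continuousAt.continuousWithinAt)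
      (fun t ht => (hder t (Set.Ioo_subset_Icc_self ht)).hasDerivWithinAt) hψi hle'
    have e0 : c 0 h = a + h := by simp [hc]
    have e1 : c 1 h = b + h := by simp [hc]; abel
    have hval : (φ (g (c 1 h)) - φ (g (c 0 h)) : ℝ) = ‖g (b + h) - g (a + h)‖ := by
      rw [e0, e1, ← map_sub]; exact hφv
    rw [hval] at hftc
    refine hftc.trans ?_
    rw [intervalIntegral.integral_of_le zero_le_one, ← integral_Icc_eq_integral_Ioc]
    have hmI : MeasurableSet ((fun t => c t h) ⁻¹' K) := (hK.preimage hcc).measurableSet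
    rw [show ψ = ((fun t => c t h) ⁻¹' K).indicator fun _ => C * ‖b - a‖ from rfl,
      setIntegral_indicator hmI, setIntegral_const, smul_eq_mul, mul_comm]
    refine mul_le_mul_of_nonneg_left ?_ (by positivity)
    refine ENNReal.toReal_le_of_le_ofReal hm ?_
    refine le_trans (le_of_eq ?_) hfle
    rw [hf, Set.inter_comm]
    have : (fun t => K.indicator (1 : E → ℝ≥0∞) (c t h)) = ((fun t => c t h) ⁻¹' K).indicator 1 :=
      rfl
    simp only [this]
    rw [lintegral_indicator hmI, Measure.restrict_restrict hmI]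
    simp
  calc ‖g b - g a‖ = ‖(g (b + h) - g (a + h)) - (g (b + h) - g b) + (g (a + h) - g a)‖ := by
        congr 1; abel
    _ ≤ C * ‖b - a‖ * m + C * ρ + C * ρ := by
        refine (norm_add_le _ _).trans (add_le_add ?_ (hend a ha))
        exact (norm_sub_le _ _).trans (add_le_add hseg (hend b hb))
    _ = _ := by ring

section Forms

variable {E : Type*} [NormedAddCommGroup E] [NormedSpace ℝ E]

/-- Derivative of `x ↦ ‖x‖ • dN x`. -/
noncomputable def hess (x : E) : E →L[ℝ] E →L[ℝ] ℝ :=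
  ‖x‖ • ddN x + (dN x).smulRight (dN x)

lemma hess_apply (x u v : E) : hess x u v = ‖x‖ * ddN x u v + dN x u * dN x v := by
  simp [hess]

variable (hE : SmoothNorm E 2)
include hE

lemma hasFDerivAt_sq_grad {x : E} (hx : x ≠ 0) :
    HasFDerivAt (fun u => ‖u‖ • dN u) (hess x) x :=
  (hE.hasFDerivAt one_le_two hx).smul (hE.differentiableAt_dN hx).hasFDerivAt

lemma hess_nonneg {x : E} (hx : x ≠ 0) (u : E) : 0 ≤ hess x u u := by
  rw [hess_apply]
  have := hE.ddN_nonneg hx u
  nlinarith [mul_self_nonneg (dN x u), norm_nonneg x]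

lemma hess_symm {x : E} (hx : x ≠ 0) (u v : E) : hess x u v = hess x v u := by
  rw [hess_apply, hess_apply, hE.ddN_symm hx, mul_comm (dN x u)]

lemma continuousAt_hess {x : E} (hx : x ≠ 0) : ContinuousAt (fun u => hess u) x := by
  have h : ContDiffAt ℝ 1 (fun u => ‖u‖ • dN u) x :=
    ((hE x hx).of_le (by norm_num)).smul ((hE x hx).fderiv_right (by norm_num))
  exact (h.fderiv_right (m := 0) (by norm_num)).continuousAt.congr
    ((eventually_ne_nhds hx).mono fun u hu => (hasFDerivAt_sq_grad hE hu).fderiv)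

lemma norm_ddN_le {x : E} (hx : x ≠ 0) (u : E) : ‖x‖ * ‖ddN x u‖ ≤ 2 * ‖hess x u‖ := by
  have hr : 0 < ‖x‖ := norm_pos_iff.2 hx
  rw [← le_div_iff₀' hr]
  refine ContinuousLinearMap.opNorm_le_bound _ (by positivity) fun v => ?_
  have h1 : hess x u x = dN x u * ‖x‖ := by
    rw [hess_apply, hE.ddN_self_right hx, hE.dN_self one_le_two hx]; ring
  have h2 : |hess x u v| ≤ ‖hess x u‖ * ‖v‖ := (hess x u).le_opNorm v
  have h3 : |hess x u x| ≤ ‖hess x u‖ * ‖x‖ := (hess x u).le_opNorm x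
  rw [h1, abs_mul, abs_norm] at h3
  have h4 : |dN x u| ≤ ‖hess x u‖ := le_of_mul_le_mul_right h3 hr
  have h5 := mul_le_mul h4 (abs_dN_le x v) (abs_nonneg _) (norm_nonneg _)
  rw [Real.norm_eq_abs, div_mul_eq_mul_div, le_div_iff₀ hr,
    show |ddN x u v| * ‖x‖ = |hess x u v - dN x u * dN x v| by
      rw [hess_apply, add_sub_cancel_right, abs_mul, abs_norm, mul_comm]]
  refine (abs_sub _ _).trans ?_
  rw [abs_mul]
  linarith

end Forms

/-- A linear map into the space that inverts a positive definite form. -/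
lemma exists_riesz (E : Type*) [NormedAddCommGroup E] [NormedSpace ℝ E] [FiniteDimensional ℝ E] :
    ∃ (ι : E →L[ℝ] E →L[ℝ] ℝ) (j : (E →L[ℝ] ℝ) →L[ℝ] E),
      (∀ u v, ι u v = ι v u) ∧ (∀ v, v ≠ 0 → 0 < ι v v) ∧ ∀ ψ u, ι (j ψ) u = ψ u := by
  let b := Module.finBasis ℝ E
  let c : Fin (Module.finrank ℝ E) → E →L[ℝ] ℝ := fun i => (b.coord i).toContinuousLinearMap
  refine ⟨∑ i, (c i).smulRight (c i),
    ∑ i, (ContinuousLinearMap.apply ℝ ℝ (b i)).smulRight (b i), fun u v => ?_, fun v hv => ?_,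
    fun ψ u => ?_⟩
  · simp [c, mul_comm]
  · simp only [FunLike.coe_sum, Finset.sum_apply, ContinuousLinearMap.smulRight_apply,
      smul_apply, smul_eq_mul, c, LinearMap.coe_toContinuousLinearMap', Module.Basis.coord_apply]
    refine Finset.sum_pos' (fun i _ => mul_self_nonneg _) ?_
    by_contra! hcon
    refine hv (b.ext_elem fun i => ?_)
    have := hcon i (Finset.mem_univ i)
    rw [map_zero, Finsupp.zero_apply]
    nlinarith
  · simp only [FunLike.coe_sum, Finset.sum_apply, ContinuousLinearMap.smulRight_apply,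
      smul_apply, smul_eq_mul, c, LinearMap.coe_toContinuousLinearMap', Module.Basis.coord_apply,
      ContinuousLinearMap.apply_apply, map_sum, map_smul]
    have e : ψ u = ∑ i, b.repr u i * ψ (b i) := by
      conv_lhs => rw [← b.sum_repr u]
      simp only [map_sum, map_smul, smul_eq_mul]
    rw [e]
    simp [Finsupp.single_apply, mul_comm]

section Riesz

variable {E : Type*} [NormedAddCommGroup E] [NormedSpace ℝ E] [FiniteDimensional ℝ E]

lemma exists_small_det (T : E → E →L[ℝ] E) {D : Set E} (hDc : IsCompact D) (hD0 : ∀ x ∈ D, x ≠ 0)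
    (hTc : ∀ x, x ≠ 0 → ContinuousAt T x) (hDdet : ∀ x ∈ D, (T x).det = 0) {δ : ℝ}
    (hδ : 0 < δ) :
    ∀ᶠ ε in 𝓝 (0 : ℝ), ∀ x ∈ D, |(T x + ε • ContinuousLinearMap.id ℝ E).det| < δ := by
  refine hDc.eventually_forall_of_forall_eventually fun x hx => ?_
  have hx0 := hD0 x hx
  have h1 : ContinuousAt (fun p : ℝ × E => T p.2 + p.1 • ContinuousLinearMap.id ℝ E) (0, x) :=
    ((hTc x hx0).comp continuous_snd.continuousAt).add
      (continuous_fst.continuousAt.smul continuousAt_const)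
  have h2 : ContinuousAt
      (fun p : ℝ × E => |(T p.2 + p.1 • ContinuousLinearMap.id ℝ E).det|) (0, x) :=
    ((ContinuousLinearMap.continuous_det (𝕜 := ℝ) (E := E)).continuousAt.comp h1).abs
  have h3 : |(T x + (0 : ℝ) • ContinuousLinearMap.id ℝ E).det| < δ := by
    rw [zero_smul, add_zero, hDdet x hx, abs_zero]
    exact hδ
  exact h2.eventually (gt_mem_nhds h3)

/-- A positive definite form with the inverse of its Riesz map. -/
structure Riesz (E : Type*) [NormedAddCommGroup E] [NormedSpace ℝ E] where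
  form : E →L[ℝ] E →L[ℝ] ℝ
  inv : (E →L[ℝ] ℝ) →L[ℝ] E
  bnd : ℝ
  symm : ∀ u v, form u v = form v u
  pos : ∀ v, v ≠ 0 → 0 < form v v
  form_inv : ∀ ψ u, form (inv ψ) u = ψ u
  bnd_nonneg : 0 ≤ bnd
  coercive : ∀ v, ‖v‖ ^ 2 ≤ bnd ^ 2 * form v v

lemma nonempty_riesz : Nonempty (Riesz E) := by
  obtain ⟨ι, j, hιs, hιp, hιj⟩ := exists_riesz E
  obtain ⟨β, hβ0, hβ⟩ := exists_coercive ι hιp
  refine ⟨⟨ι, j, β, hιs, hιp, hιj, hβ0, ?_⟩⟩
  intro v
  rcases eq_or_ne v 0 with rfl | hv
  · simp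
  have hp := hιp v hv
  set t := (Real.sqrt (ι v v))⁻¹ with ht
  have hsq : Real.sqrt (ι v v) ^ 2 = ι v v := Real.sq_sqrt hp.le
  have hs : 0 < Real.sqrt (ι v v) := Real.sqrt_pos.2 hp
  have h := hβ (t • v) (le_of_eq (by
    simp only [map_smul, smul_apply, smul_eq_mul, ht]
    field_simp
    rw [hsq]))
  rw [norm_smul, ht, norm_inv, Real.norm_of_nonneg hs.le, inv_mul_le_iff₀ hs] at h
  calc ‖v‖ ^ 2 ≤ (Real.sqrt (ι v v) * β) ^ 2 := pow_le_pow_left₀ (norm_nonneg v) h 2
    _ = _ := by rw [mul_pow, hsq, mul_comm]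

namespace Riesz

variable (R : Riesz E)

omit [FiniteDimensional ℝ E] in
lemma nonneg (v : E) : 0 ≤ R.form v v := by
  rcases eq_or_ne v 0 with rfl | h
  · simp
  · exact (R.pos v h).le

/-- The gradient of half the squared norm. -/
noncomputable def J (x : E) : E := R.inv (‖x‖ • dN x)

/-- The perturbed gradient. -/
noncomputable def Φ (ε : ℝ) (x : E) : E := R.J x + ε • x

/-- The derivative of `J`. -/
noncomputable def T (x : E) : E →L[ℝ] E := R.inv.comp (hess x)

omit [FiniteDimensional ℝ E] in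
lemma form_J (x u : E) : R.form (R.J x) u = ‖x‖ * dN x u := by simp [J, R.form_inv]

omit [FiniteDimensional ℝ E] in
lemma form_T (x u v : E) : R.form (R.T x u) v = hess x u v := R.form_inv _ _

variable (hE : SmoothNorm E 2)
include hE

lemma form_J_sub_nonneg (x y : E) : 0 ≤ R.form (R.J x - R.J y) (x - y) := by
  simp only [map_sub, sub_apply, R.form_J]
  have hs : ∀ x : E, ‖x‖ * dN x x = ‖x‖ * ‖x‖ := fun x => by
    rcases eq_or_ne x 0 with rfl | hx
    · simp
    · rw [hE.dN_self one_le_two hx]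
  nlinarith [hs x, hs y, mul_le_mul_of_nonneg_left (dN_le x y) (norm_nonneg x),
    mul_le_mul_of_nonneg_left (dN_le y x) (norm_nonneg y), mul_self_nonneg (‖x‖ - ‖y‖)]

lemma form_Φ_sub (ε : ℝ) (x y : E) :
    ε * R.form (x - y) (x - y) ≤ R.form (R.Φ ε x - R.Φ ε y) (x - y) := by
  rw [show R.Φ ε x - R.Φ ε y = (R.J x - R.J y) + ε • (x - y) by simp only [Φ]; module, map_add,
    add_apply, map_smul, smul_apply, smul_eq_mul]
  linarith [R.form_J_sub_nonneg hE x y]

lemma norm_sub_le (ε : ℝ) (hε : 0 < ε) (x y : E) :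
    ‖x - y‖ ≤ R.bnd ^ 2 * ‖R.form‖ / ε * ‖R.Φ ε x - R.Φ ε y‖ := by
  have h1 : ε * R.form (x - y) (x - y) ≤ ‖R.form‖ * ‖R.Φ ε x - R.Φ ε y‖ * ‖x - y‖ :=
    (R.form_Φ_sub hE ε x y).trans ((Real.le_norm_self _).trans (R.form.le_opNorm₂ _ _))
  have h2 := R.coercive (x - y)
  rw [div_mul_eq_mul_div, le_div_iff₀ hε]
  rcases eq_or_lt_of_le (norm_nonneg (x - y)) with h0 | h0
  · rw [← h0, zero_mul]; positivity
  refine le_of_mul_le_mul_right ?_ h0
  nlinarith [mul_le_mul_of_nonneg_left h1 (sq_nonneg R.bnd)]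

lemma injective_Φ (ε : ℝ) (hε : 0 < ε) : Function.Injective (R.Φ ε) := fun x y h => by
  have := R.norm_sub_le hE ε hε x y
  rw [h, sub_self, norm_zero, mul_zero] at this
  exact sub_eq_zero.1 (norm_le_zero_iff.1 this)

lemma surjective_Φ (ε : ℝ) (hε : 0 < ε) : Function.Surjective (R.Φ ε) := by
  have : ProperSpace E := FiniteDimensional.proper_real E
  intro z
  let φ : E → ℝ := fun x => ‖x‖ ^ 2 / 2 + ε / 2 * R.form x x - R.form z x
  have hφc : Continuous φ := by fun_prop
  have hlim : Tendsto φ (cocompact E) atTop := by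
    refine tendsto_atTop_mono' _ ?_ tendsto_norm_cocompact_atTop
    filter_upwards [tendsto_norm_cocompact_atTop.eventually_ge_atTop (2 * (‖R.form‖ * ‖z‖) + 2)]
      with x hx
    have h1 : R.form z x ≤ ‖R.form‖ * ‖z‖ * ‖x‖ := (Real.le_norm_self _).trans (R.form.le_opNorm₂ _ _)
    have h2 : 0 ≤ R.form x x := by
      rcases eq_or_ne x 0 with rfl | h
      · simp
      · exact (R.pos x h).le
    have h3 := mul_le_mul_of_nonneg_right hx (norm_nonneg x)
    simp only [φ]
    nlinarith [mul_nonneg hε.le h2]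
  obtain ⟨x, hx⟩ := hφc.exists_forall_le hlim
  refine ⟨x, ?_⟩
  have hder : ∀ u, HasDerivAt (fun t : ℝ => φ (x + t • u)) (R.form (R.Φ ε x - z) u) 0 := by
    intro u
    have hl : HasDerivAt (fun t : ℝ => x + t • u) u 0 := by
      simpa using ((hasDerivAt_id (0 : ℝ)).smul_const u).const_add x
    have hn : HasDerivAt (fun t : ℝ => ‖x + t • u‖ ^ 2 / 2) (‖x‖ * dN x u) 0 := by
      rcases eq_or_ne x 0 with rfl | hx0
      · have h : HasDerivAt (fun t : ℝ => t ^ 2 * (‖u‖ ^ 2 / 2)) 0 0 := by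
          simpa using (hasDerivAt_pow 2 (0 : ℝ)).mul_const (‖u‖ ^ 2 / 2)
        simp only [norm_zero, zero_mul, zero_add, norm_smul, Real.norm_eq_abs, mul_pow, sq_abs,
          mul_div_assoc]
        exact h
      · refine (((hE.hasFDerivAt one_le_two hx0).comp_hasDerivAt_of_eq 0 hl (by simp)).pow 2
          |>.div_const 2).congr_deriv ?_
        simp
        ring
    have hq := (R.form.hasFDerivAt.comp_hasDerivAt (0 : ℝ) hl).clm_apply hl
    have hz := (R.form z).hasFDerivAt.comp_hasDerivAt (0 : ℝ) hl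
    refine ((hn.add (hq.const_mul (ε / 2))).sub hz).congr_deriv ?_
    simp [Φ, R.form_J, R.symm u x]
    ring
  have h0 := IsLocalMin.hasDerivAt_eq_zero
    (Eventually.of_forall fun t => by simpa using hx (x + t • (R.Φ ε x - z)))
    (hder (R.Φ ε x - z))
  by_contra hne
  exact (R.pos _ (sub_ne_zero.2 hne)).ne' h0

lemma bounds (ε : ℝ) (hε : 0 < ε) (hε1 : ε ≤ 1) (x : E) :
    ‖x‖ ≤ ‖R.form‖ * ‖R.Φ ε x‖ ∧ ‖R.Φ ε x‖ ≤ (‖R.inv‖ + 1) * ‖x‖ := by
  constructor
  · rcases eq_or_ne x 0 with rfl | hx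
    · rw [norm_zero]; positivity
    have h1 : R.form (R.Φ ε x) x = ‖x‖ * ‖x‖ + ε * R.form x x := by
      simp [Φ, R.form_J, hE.dN_self one_le_two hx]
    have h2 : R.form (R.Φ ε x) x ≤ ‖R.form‖ * ‖R.Φ ε x‖ * ‖x‖ :=
      (Real.le_norm_self _).trans (R.form.le_opNorm₂ _ _)
    have := mul_nonneg hε.le (R.pos x hx).le
    exact le_of_mul_le_mul_right (by linarith) (norm_pos_iff.2 hx)
  · refine (norm_add_le _ _).trans ?_
    rw [add_mul, one_mul]
    have hd : ‖dN x‖ ≤ 1 :=
      ContinuousLinearMap.opNorm_le_bound _ zero_le_one fun v => by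
        rw [one_mul]; exact abs_dN_le x v
    refine add_le_add ((R.inv.le_opNorm _).trans (mul_le_mul_of_nonneg_left ?_ (norm_nonneg R.inv))) ?_
    · rw [norm_smul, norm_norm]; exact mul_le_of_le_one_right (norm_nonneg x) hd
    · rw [norm_smul, Real.norm_of_nonneg hε.le]; exact mul_le_of_le_one_left (norm_nonneg x) hε1

lemma continuousAt_T {x : E} (hx : x ≠ 0) : ContinuousAt R.T x :=
  ((ContinuousLinearMap.compL ℝ E (E →L[ℝ] ℝ) E R.inv).continuous.continuousAt).comp
    (continuousAt_hess hE hx)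

lemma continuousAt_J {x : E} (hx : x ≠ 0) : ContinuousAt R.J x :=
  R.inv.continuous.continuousAt.comp (hasFDerivAt_sq_grad hE hx).continuousAt

lemma hasFDerivAt_Φ (ε : ℝ) {x : E} (hx : x ≠ 0) :
    HasFDerivAt (R.Φ ε) (R.T x + ε • ContinuousLinearMap.id ℝ E) x :=
  (R.inv.hasFDerivAt.comp x (hasFDerivAt_sq_grad hE hx)).add ((hasFDerivAt_id x).const_smul ε)

lemma form_deriv (ε : ℝ) (hε : 0 < ε) {x : E} (hx : x ≠ 0) (u w : E)
    (hw : R.T x u + ε • u = w) :
    R.form (R.T x u) (R.T x u) ≤ R.form w w ∧ ε ^ 2 * R.form u u ≤ R.form w w := by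
  subst hw
  have h1 : 0 ≤ R.form (R.T x u) u := by rw [R.form_T]; exact hess_nonneg hE hx u
  have e : R.form (R.T x u + ε • u) (R.T x u + ε • u) =
      R.form (R.T x u) (R.T x u) + 2 * ε * R.form (R.T x u) u + ε ^ 2 * R.form u u := by
    simp [R.symm u (R.T x u)]; ring
  rw [e]
  constructor <;> nlinarith [R.nonneg u, R.nonneg (R.T x u), mul_nonneg hε.le h1]

lemma exists_inverse_deriv (ε : ℝ) (hε : 0 < ε) (z : E) {x : E} (hxz : Function.invFun (R.Φ ε) z = x)
    (hx : x ≠ 0) : ∃ L : E ≃L[ℝ] E, (∀ u, L u = R.T x u + ε • u) ∧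
      HasFDerivAt (Function.invFun (R.Φ ε)) (L.symm : E →L[ℝ] E) z := by
  have hLinj : Function.Injective (R.T x + ε • ContinuousLinearMap.id ℝ E) := by
    rw [injective_iff_map_eq_zero]
    intro u hu
    have h := (R.form_deriv hE ε hε hx u 0 (by simpa using hu)).2
    rw [map_zero] at h
    by_contra hne
    have := R.pos u hne
    nlinarith [pow_pos hε 2]
  let L : E ≃L[ℝ] E :=
    (LinearEquiv.ofInjectiveEndo (R.T x + ε • ContinuousLinearMap.id ℝ E).toLinearMap
      hLinj).toContinuousLinearEquiv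
  have hLc : (L : E →L[ℝ] E) = R.T x + ε • ContinuousLinearMap.id ℝ E := by ext u; rfl
  have hinvc : Continuous (Function.invFun (R.Φ ε)) :=
    (LipschitzWith.of_dist_le' (K := R.bnd ^ 2 * ‖R.form‖ / ε) fun a b => by
      rw [dist_eq_norm, dist_eq_norm]
      have := R.norm_sub_le hE ε hε (Function.invFun (R.Φ ε) a) (Function.invFun (R.Φ ε) b)
      rwa [Function.invFun_eq (R.surjective_Φ hE ε hε a),
        Function.invFun_eq (R.surjective_Φ hE ε hε b)] at this).continuous
  refine ⟨L, fun u => rfl, HasFDerivAt.of_local_left_inverse hinvc.continuousAt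
    (by rw [hxz, hLc]; exact R.hasFDerivAt_Φ hE ε hx)
    (Eventually.of_forall fun w => Function.invFun_eq (R.surjective_Φ hE ε hε w))⟩

end Riesz

end Riesz

namespace SphIso

variable {E F : Type*} [NormedAddCommGroup E] [NormedSpace ℝ E] [FiniteDimensional ℝ E]
  [NormedAddCommGroup F] [NormedSpace ℝ F] [FiniteDimensional ℝ F]
variable (s : SphIso E F)
variable (hE : SmoothNorm E 2)
include hE

/-- The second derivative vanishes where the norm is curved. -/
lemma ddG_eq_zero_of_nondeg (hdim : 3 ≤ Module.finrank ℝ E) {y : E} (hy : y ≠ 0)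
    (hpos : ∀ v, dN y v = 0 → v ≠ 0 → 0 < ddN y v v) : s.ddG y = 0 := by
  have hny : dN y y ≠ 0 := by rw [hE.dN_self one_le_two hy]; exact norm_ne_zero_iff.2 hy
  let H : Submodule ℝ E := LinearMap.ker (dN y).toLinearMap
  have hH : ∀ a : H, dN y (a : E) = 0 := fun a => a.2
  have hdimH : 2 ≤ Module.finrank ℝ H := by
    have h1 := LinearMap.finrank_range_add_finrank_ker (dN y).toLinearMap
    have h2 : Module.finrank ℝ (LinearMap.range (dN y).toLinearMap) ≤ 1 :=
      (Submodule.finrank_le _).trans (Module.finrank_self ℝ).le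
    show 2 ≤ Module.finrank ℝ (LinearMap.ker (dN y).toLinearMap)
    omega
  let Q : H →ₗ[ℝ] H →ₗ[ℝ] ℝ :=
    LinearMap.mk₂ ℝ (fun a b : H => ddN y (a : E) (b : E)) (by simp) (by simp) (by simp) (by simp)
  let B : H →ₗ[ℝ] H →ₗ[ℝ] H :=
    LinearMap.mk₂ ℝ (fun a b : H => (⟨s.Bop y (a : E) (b : E), s.dN_Bop hE hy _ _⟩ : H))
      (fun a a' b => Subtype.ext (by simp)) (fun c a b => Subtype.ext (by simp))
      (fun a b b' => Subtype.ext (by simp)) (fun c a b => Subtype.ext (by simp))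
  have hB : B = 0 := rigid hdimH Q (fun a b => hE.ddN_symm hy a b)
    (fun a ha => hpos _ a.2 fun e => ha (Subtype.ext e)) B
    (fun a b => Subtype.ext (s.Bop_symm hE hy a b))
    (fun a b c => s.ddN_Bop_symm hE hy a b c)
    (fun ξ => ((dN (ξ : E)).comp H.subtypeL).toLinearMap) (fun ξ => s.dlt y ξ)
    (fun ξ hξ => by
      show 0 < dN (ξ : E) (ξ : E)
      have : (ξ : E) ≠ 0 := fun e => hξ (Subtype.ext e)
      rw [hE.dN_self one_le_two this]
      exact norm_pos_iff.2 this)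
    (fun ξ hξ v w => by
      have h0 : (ξ : E) ≠ 0 := fun e => hξ (Subtype.ext e)
      show Tendsto (fun t : ℝ => dN ((ξ : E) + t • (v : E)) (w : E)) (𝓝 0) (𝓝 (dN (ξ : E) w))
      have hl : Tendsto (fun t : ℝ => (ξ : E) + t • (v : E)) (𝓝 0) (𝓝 (ξ : E)) :=
        (show Continuous fun t : ℝ => (ξ : E) + t • (v : E) by fun_prop).tendsto' 0 _ (by simp)
      exact ((ContinuousLinearMap.apply ℝ ℝ (w : E)).continuous.tendsto _).comp
        ((hE.continuousAt_dN one_le_two h0).tendsto.comp hl))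
    (fun ξ hξ η => s.dN_Bop_identity hE hy (hH ξ) (fun e => hξ (Subtype.ext e)) (hH η))
  refine ContinuousLinearMap.ext fun a => ContinuousLinearMap.ext fun b => ?_
  have h := congr_arg Subtype.val (LinearMap.congr_fun₂ hB ⟨_, Pr_apply_self (f := dN y) hny a⟩
    ⟨_, Pr_apply_self (f := dN y) hny b⟩)
  change s.Bop y (Pr (dN y) y a) (Pr (dN y) y b) = 0 at h
  rw [s.Bop_Pr hE hy] at h
  rw [← s.dG_Bop hE hy, h, map_zero]
  rfl

/-- Estimate for the derivative read in the perturbed gradient coordinates. -/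
lemma perturbed_deriv (hdim : 3 ≤ Module.finrank ℝ E) (R : Riesz E) {C : ℝ} (hC0 : 0 < C)
    (hC : ∀ x : E, x ≠ 0 → ∀ u, ‖s.ddG x u‖ ≤ C * ‖ddN x u‖) {lo : ℝ} (hlopos : 0 < lo)
    (ε : ℝ) (hε : 0 < ε) (z x : E) (hxz : Function.invFun (R.Φ ε) z = x) (hxlo : lo ≤ ‖x‖) :
    ∃ g' : E →L[ℝ] E →L[ℝ] F,
      HasFDerivAt (fun z => s.dG (Function.invFun (R.Φ ε) z)) g' z ∧
      ‖g'‖ ≤ 2 * C * ‖R.form‖ * (R.bnd * (‖R.form‖ + 1)) / lo ∧
      ((R.T x).det ≠ 0 → g' = 0) := by
  have hx : x ≠ 0 := fun h => by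
    rw [h, norm_zero] at hxlo
    linarith
  obtain ⟨L, hL, hinvd⟩ := R.exists_inverse_deriv hE ε hε z hxz hx
  have hcomp : HasFDerivAt (fun z => s.dG (Function.invFun (R.Φ ε) z))
      ((s.ddG x).comp (L.symm : E →L[ℝ] E)) z := by
    have h := s.hasFDerivAt_dG hE hx
    rw [← hxz] at h ⊢
    exact h.comp z hinvd
  have hR0 := R.bnd_nonneg
  refine ⟨_, hcomp, ?_, ?_⟩
  · refine ContinuousLinearMap.opNorm_le_bound _ (by positivity) fun w => ?_
    set u := L.symm w with hu
    have hw : R.T x u + ε • u = w := by rw [← hL]; exact L.apply_symm_apply w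
    have h1 := (R.form_deriv hE ε hε hx u w hw).1
    have h2 : ‖R.T x u‖ ≤ R.bnd * (‖R.form‖ + 1) * ‖w‖ := by
      refine abs_le_of_sq_le_sq' ?_ (by positivity) |>.2
      refine (R.coercive _).trans ?_
      have h3 : R.form w w ≤ ‖R.form‖ * ‖w‖ * ‖w‖ := (Real.le_norm_self _).trans (R.form.le_opNorm₂ _ _)
      have h4 : ‖R.form‖ ≤ (‖R.form‖ + 1) ^ 2 := by nlinarith [norm_nonneg R.form]
      have h5 := mul_le_mul_of_nonneg_left (h1.trans h3) (sq_nonneg R.bnd)
      have h6 := mul_le_mul_of_nonneg_left h4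
        (mul_nonneg (sq_nonneg R.bnd) (sq_nonneg ‖w‖))
      linarith
    have h7 : ‖hess x u‖ ≤ ‖R.form‖ * ‖R.T x u‖ :=
      ContinuousLinearMap.opNorm_le_bound _ (by positivity) fun v => by
        rw [← R.form_T]; exact R.form.le_opNorm₂ _ _
    have h8 : ‖ddN x u‖ ≤ 2 * ‖hess x u‖ / lo := by
      rw [le_div_iff₀ hlopos]
      nlinarith [norm_ddN_le hE hx u, mul_le_mul_of_nonneg_right hxlo (norm_nonneg (ddN x u))]
    calc ‖s.ddG x u‖ ≤ C * ‖ddN x u‖ := hC x hx u
      _ ≤ C * (2 * (‖R.form‖ * (R.bnd * (‖R.form‖ + 1) * ‖w‖)) / lo) := by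
          refine mul_le_mul_of_nonneg_left (h8.trans ?_) hC0.le
          gcongr
          exact h7.trans (mul_le_mul_of_nonneg_left h2 (norm_nonneg R.form))
      _ = _ := by ring
  · intro hdet
    have hzero : s.ddG x = 0 := by
      refine s.ddG_eq_zero_of_nondeg hE hdim hx fun v hv hv0 => ?_
      refine lt_of_le_of_ne (hE.ddN_nonneg hx v) fun h => hv0 ?_
      have hrow : ∀ w, ddN x v w = 0 := by
        intro w
        by_contra hne
        have key : ∀ t : ℝ, 0 ≤ t * (2 * ddN x v w) + t ^ 2 * ddN x w w := fun t => by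
          have h1 := hE.ddN_nonneg hx (v + t • w)
          simp only [map_add, map_smul, add_apply, smul_apply, smul_eq_mul,
            hE.ddN_symm hx w v, ← h] at h1
          linarith
        have hww := hE.ddN_nonneg hx w
        have h1 := key (-(ddN x v w) / (ddN x w w + 1))
        rw [show -(ddN x v w) / (ddN x w w + 1) * (2 * ddN x v w) +
          (-(ddN x v w) / (ddN x w w + 1)) ^ 2 * ddN x w w =
          -((ddN x v w) ^ 2 * (ddN x w w + 2) / (ddN x w w + 1) ^ 2) by field_simp; ring] at h1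
        have : 0 < (ddN x v w) ^ 2 * (ddN x w w + 2) / (ddN x w w + 1) ^ 2 := by positivity
        linarith
      have hTv : R.T x v = 0 := by
        have : hess x v = 0 := ContinuousLinearMap.ext fun w => by
          rw [hess_apply, hrow, hv]; simp
        simp [Riesz.T, this]
      exact (LinearMap.equivOfDetNeZero (R.T x : E →ₗ[ℝ] E) hdet).injective
        (by simpa using hTv)
    simp [hzero]

/-- The derivative of the extension is locally constant. -/
lemma dG_eventually_eq (hdim : 3 ≤ Module.finrank ℝ E) {x₀ : E} (hx₀ : x₀ ≠ 0) :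
    ∀ᶠ x in 𝓝 x₀, s.dG x = s.dG x₀ := by
  have : ProperSpace E := FiniteDimensional.proper_real E
  letI : MeasurableSpace E := borel E
  haveI : BorelSpace E := ⟨rfl⟩
  let μ : Measure E := Measure.addHaar
  obtain ⟨C, hC0, hC⟩ := s.global_bound hE
  obtain ⟨R⟩ := nonempty_riesz (E := E)
  set z₀ := R.J x₀ with hz₀
  have hz₀0 : z₀ ≠ 0 := fun h => by
    have h1 := R.form_J x₀ x₀
    rw [← hz₀, h, map_zero, zero_apply, hE.dN_self one_le_two hx₀] at h1
    exact mul_self_ne_zero.2 (norm_ne_zero_iff.2 hx₀) h1.symm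
  set r := ‖z₀‖ / 2 with hr
  have hrpos : 0 < r := by positivity
  set lo := r / (‖R.inv‖ + 1) with hlo
  set hi := ‖R.form‖ * (3 * r) with hhi
  have hlopos : 0 < lo := by positivity
  have hann : ∀ z ∈ ball z₀ r, r ≤ ‖z‖ ∧ ‖z‖ ≤ 3 * r := by
    intro z hz
    rw [mem_ball, dist_eq_norm] at hz
    have h2 : ‖z₀‖ = 2 * r := by rw [hr]; ring
    constructor <;> linarith [norm_sub_norm_le z₀ z, norm_sub_norm_le z z₀, norm_sub_rev z z₀]
  set A : Set E := {x | lo ≤ ‖x‖ ∧ ‖x‖ ≤ hi} with hA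
  have hA0 : ∀ x ∈ A, x ≠ 0 := fun x hx h => by
    have := hx.1
    rw [h, norm_zero] at this
    linarith
  have hAc : IsCompact A :=
    (isCompact_closedBall 0 hi).of_isClosed_subset
      ((isClosed_le continuous_const continuous_norm).inter
        (isClosed_le continuous_norm continuous_const))
      fun x hx => mem_closedBall_zero_iff.2 hx.2
  set D : Set E := A ∩ (fun x => (R.T x).det) ⁻¹' {0} with hD
  have hDc : IsCompact D := by
    refine hAc.of_isClosed_subset ?_ Set.inter_subset_left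
    refine ContinuousOn.preimage_isClosed_of_isClosed (fun x hx => ?_) hAc.isClosed
      isClosed_singleton
    exact (ContinuousLinearMap.continuous_det.continuousAt.comp
      (R.continuousAt_T hE (hA0 x hx))).continuousWithinAt
  have hR0 := R.bnd_nonneg
  set Cg := 2 * C * ‖R.form‖ * (R.bnd * (‖R.form‖ + 1)) / lo with hCg
  have hCg0 : 0 ≤ Cg := by positivity
  have hg : ∀ ε, 0 < ε → ε ≤ 1 → ∀ z ∈ ball z₀ r, ∃ g' : E →L[ℝ] E →L[ℝ] F,
      HasFDerivAt (fun z => s.dG (Function.invFun (R.Φ ε) z)) g' z ∧ ‖g'‖ ≤ Cg ∧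
        (z ∉ R.Φ ε '' D → g' = 0) := by
    intro ε hε hε1 z hz
    set x := Function.invFun (R.Φ ε) z with hxdef
    have hΦx : R.Φ ε x = z := Function.invFun_eq (R.surjective_Φ hE ε hε z)
    obtain ⟨hz1, hz2⟩ := hann z hz
    obtain ⟨hb1, hb2⟩ := R.bounds hE ε hε hε1 x
    rw [hΦx] at hb1 hb2
    have hxA : x ∈ A := by
      refine ⟨?_, hb1.trans (mul_le_mul_of_nonneg_left hz2 (norm_nonneg R.form))⟩
      rw [hlo, div_le_iff₀ (by positivity)]
      linarith
    obtain ⟨g', h1, h2, h3⟩ :=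
      s.perturbed_deriv hE hdim R hC0 hC hlopos ε hε z x hxdef.symm hxA.1
    exact ⟨g', h1, h2, fun hzK => h3 fun h => hzK ⟨x, ⟨hxA, h⟩, hΦx⟩⟩
  have hJx : ∀ᶠ x in 𝓝 x₀, R.J x ∈ ball z₀ (r / 2) :=
    (R.continuousAt_J hE hx₀).preimage_mem_nhds (isOpen_ball.mem_nhds (mem_ball_self (by positivity)))
  filter_upwards [hJx] with x hx
  refine eq_of_forall_dist_le fun η hη => ?_
  set ρ := min (r / 4) (η / (4 * (Cg + 1))) with hρdef
  have hρ : 0 < ρ := lt_min (by positivity) (by positivity)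
  have hρr : ρ < r / 2 := (min_le_left _ _).trans_lt (by linarith)
  set V := μ (ball (0 : E) ρ)
  have hV0 : V ≠ 0 := (measure_ball_pos μ 0 hρ).ne'
  have hVt : V ≠ ∞ := measure_ball_lt_top.ne
  set m := η / (2 * (Cg + 1) * r) with hm
  have hm0 : 0 < m := by positivity
  set δ := m * V.toReal / ((μ A).toReal + 1) with hδ
  have hδ0 : 0 < δ := by have := ENNReal.toReal_pos hV0 hVt; positivity
  have hcts : ∀ p : E, Tendsto (fun ε : ℝ => R.Φ ε p) (𝓝 0) (𝓝 (R.J p)) := fun p =>
    (show Continuous fun ε : ℝ => R.J p + ε • p by fun_prop).tendsto' 0 _ (by simp [Riesz.Φ])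
  have hev : ∀ᶠ ε in 𝓝 (0 : ℝ), R.Φ ε x ∈ ball z₀ (r / 2) ∧ R.Φ ε x₀ ∈ ball z₀ (r / 2) ∧ ε ≤ 1 ∧
      ∀ p ∈ D, |(R.T p + ε • ContinuousLinearMap.id ℝ E).det| < δ := by
    filter_upwards [hcts x (isOpen_ball.mem_nhds hx),
      hcts x₀ (isOpen_ball.mem_nhds (mem_ball_self (show (0 : ℝ) < r / 2 by positivity))),
      ge_mem_nhds zero_lt_one, exists_small_det R.T hDc (fun p hp => hA0 p hp.1) (fun p hp => R.continuousAt_T hE hp) (fun p hp => hp.2) hδ0] with ε h1 h2 h3 h4
    exact ⟨h1, h2, h3, h4⟩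
  obtain ⟨ε, ⟨hbm, ham, hε1, hdetε⟩, hε : 0 < ε⟩ :=
    ((hev.filter_mono nhdsWithin_le_nhds).and
      (eventually_mem_nhdsWithin (s := Set.Ioi (0 : ℝ)))).exists
  have hKc : IsClosed (R.Φ ε '' D) :=
    (hDc.image_of_continuousOn fun p hp =>
      (R.hasFDerivAt_Φ hE ε (hA0 p hp.1)).continuousAt.continuousWithinAt).isClosed
  have hKm : μ (R.Φ ε '' D) ≤ ENNReal.ofReal m * V := by
    refine (addHaar_image_le_lintegral_abs_det_fderiv μ hDc.measurableSet
      fun p hp => (R.hasFDerivAt_Φ hE ε (hA0 p hp.1)).hasFDerivWithinAt).trans ?_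
    refine (setLIntegral_mono measurable_const fun p hp =>
      ENNReal.ofReal_le_ofReal (hdetε p hp).le).trans ?_
    rw [setLIntegral_const]
    refine (mul_le_mul_right (measure_mono Set.inter_subset_left) _).trans ?_
    rw [← ENNReal.ofReal_toReal hAc.measure_lt_top.ne, ← ENNReal.ofReal_toReal hVt,
      ← ENNReal.ofReal_mul hδ0.le, ← ENNReal.ofReal_mul hm0.le]
    refine ENNReal.ofReal_le_ofReal ?_
    rw [hδ, div_mul_eq_mul_div, div_le_iff₀ (by positivity)]
    have : 0 ≤ m * V.toReal := by positivity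
    nlinarith
  have hosc := oscillation μ (g := fun z => s.dG (Function.invFun (R.Φ ε) z)) hKc hCg0
    (fun z hz => hg ε hε hε1 z hz) ham hbm hρ hρr hm0.le hKm
  simp only [Function.leftInverse_invFun (R.injective_Φ hE ε hε) _] at hosc
  rw [dist_eq_norm]
  have hd : ‖R.Φ ε x - R.Φ ε x₀‖ ≤ r := by
    rw [mem_ball, dist_eq_norm] at hbm ham
    linarith [norm_sub_le_norm_sub_add_norm_sub (R.Φ ε x) z₀ (R.Φ ε x₀), norm_sub_rev z₀ (R.Φ ε x₀)]
  have h1 : Cg * ρ ≤ η / 4 := by
    refine (mul_le_mul_of_nonneg_left (min_le_right _ _) hCg0).trans ?_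
    rw [mul_div_assoc', div_le_div_iff₀ (by positivity) (by norm_num)]
    nlinarith
  have h2 : Cg * r * m ≤ η / 2 := by
    rw [hm, mul_div_assoc', div_le_div_iff₀ (by positivity) (by norm_num)]
    nlinarith [mul_pos hrpos hη]
  have h3 : Cg * ‖R.Φ ε x - R.Φ ε x₀‖ * m ≤ Cg * r * m := by gcongr
  linarith

/-- The extension is linear. -/
lemma exists_linear (hdim : 3 ≤ Module.finrank ℝ E) :
    ∃ L : E →ₗ[ℝ] F, ∀ v, L v = s.G v := by
  have hrank : 1 < Module.rank ℝ E := by
    rw [← Module.finrank_eq_rank]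
    exact_mod_cast (show 1 < Module.finrank ℝ E by omega)
  have hconn := (isConnected_compl_singleton_of_one_lt_rank hrank (0 : E)).isPreconnected
  obtain ⟨x₀, hx₀⟩ : ∃ x₀ : E, x₀ ≠ 0 := by
    have : Nontrivial E := Module.nontrivial_of_finrank_pos (R := ℝ) (by omega)
    exact exists_ne 0
  have hconst : ∀ x : E, x ≠ 0 → s.dG x = s.dG x₀ := by
    intro x hx
    have : PreconnectedSpace ↥({0}ᶜ : Set E) := Subtype.preconnectedSpace hconn
    have hlc : IsLocallyConstant fun p : ↥({0}ᶜ : Set E) => s.dG (p : E) := by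
      rw [IsLocallyConstant.iff_eventually_eq]
      intro p
      exact continuous_subtype_val.continuousAt.eventually
        (s.dG_eventually_eq hE hdim p.2)
    exact hlc.apply_eq_of_preconnectedSpace ⟨x, hx⟩ ⟨x₀, hx₀⟩
  refine ⟨(s.dG x₀).toLinearMap, fun v => ?_⟩
  rcases eq_or_ne v 0 with rfl | hv
  · simp [s.G_zero]
  · show s.dG x₀ v = s.G v
    rw [← hconst v hv, s.dG_self hE hv]

end SphIso

end Vale.Agent.P084
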