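import Vale.Agent.P084.Critical
import Vale.Agent.P084.Cubic

/-!
P084 (Tingley's problem), library: at a critical point of the determinant the second derivative
of the extension vanishes.
-/

namespace Vale.Agent.P084

open Filter Topology

variable {E F : Type*} [NormedAddCommGroup E] [NormedSpace ℝ E] [FiniteDimensional ℝ E]
  [NormedAddCommGroup F] [NormedSpace ℝ F] [FiniteDimensional ℝ F]

omit [FiniteDimensional ℝ E] in
lemma Curved.nonneg (hE : SmoothNorm E 2) (hc : Curved E) {x : E} (hx : x ≠ 0) (v : E) :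
    0 ≤ ddN x v v := by
  by_cases h : ∃ c : ℝ, v = c • x
  · obtain ⟨c, rfl⟩ := h
    simp [hE.ddN_self_left hx]
  · exact (hc x hx v (fun c e => h ⟨c, e⟩)).le

namespace SphIso

variable (s : SphIso E F)

include s

variable (hE : SmoothNorm E 2)
include hE

/-- Symmetry of the cubic form. -/
lemma cubic_symm {y : E} (hy : y ≠ 0) (b t c : E) :
    ddN (s.G y) (s.dG y b) (s.ddG y t c) = ddN (s.G y) (s.dG y t) (s.ddG y b c) := by
  have hw : s.G y ≠ 0 := fun h => hy (s.G_injective (by rw [h, G_zero]))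
  have hF := s.smoothNorm_two hE
  set Φ : E → ℝ := fun u => dN (s.G y) (s.dG u c) with hΦ
  set dΦ : E → E →L[ℝ] ℝ := fun u => (dN (s.G y) - dN (s.G u)).comp ((s.ddG u).flip c) with hdΦ
  have hfirst : ∀ᶠ u in 𝓝 y, HasFDerivAt Φ (dΦ u) u := by
    filter_upwards [eventually_ne_nhds hy] with u hu
    refine ((dN (s.G y)).hasFDerivAt.comp u
      ((s.hasFDerivAt_dG hE hu).clm_apply (hasFDerivAt_const c u))).congr_fderiv ?_
    ext t'
    simp [hdΦ, s.dN_ddG hE hu]
  have hc' : HasFDerivAt (fun u => dN (s.G y) - dN (s.G u))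
      (-((ddN (s.G y)).comp (s.dG y))) y :=
    ((hF.differentiableAt_dN hw).hasFDerivAt.comp y (s.hasFDerivAt_G hE hy)).const_sub _
  have hd' : ContinuousAt (fun u => (s.ddG u).flip c) y := by
    have h1 := (ContinuousLinearMap.apply ℝ (E →L[ℝ] F) c).continuous
    have h2 : Continuous fun T : E →L[ℝ] E →L[ℝ] F => T.flip c :=
      h1.comp (ContinuousLinearMap.flipₗᵢ ℝ E E F).continuous
    exact h2.continuousAt.comp (s.continuousAt_ddG hE hy)
  have hsecond : HasFDerivAt dΦ
      (((ContinuousLinearMap.compL ℝ E F ℝ).flip ((s.ddG y).flip c)).comp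
        (-((ddN (s.G y)).comp (s.dG y)))) y :=
    hasFDerivAt_clm_comp_of_eq_zero hc' (sub_self _) hd'
  have h := second_derivative_symmetric_of_eventually_of_real hfirst hsecond b t
  simpa using h

/-- At a critical point of the determinant the second derivative of the extension vanishes. -/
lemma ddG_eq_zero (hc : Curved E) {y : E} (hy : ‖y‖ = 1) {A : E ≃L[ℝ] F}
    (hA : (A : E →L[ℝ] F) = s.dG y)
    (htr : ∀ a : E,
      LinearMap.trace ℝ E (((A.symm : F →L[ℝ] E).comp (s.ddG y a)).toLinearMap) = 0) :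
    s.ddG y = 0 := by
  have hy0 : y ≠ 0 := fun h => by simp [h] at hy
  have hF := s.smoothNorm_two hE
  have hw : s.G y ≠ 0 := fun h => hy0 (s.G_injective (by rw [h, G_zero]))
  have hA' : ∀ a, A a = s.dG y a := fun a => DFunLike.congr_fun hA a
  have hnA : ∀ z, dN y (A.symm z) = dN (s.G y) z := fun z => by
    rw [← s.dN_dG hE hy0, ← hA', ContinuousLinearEquiv.apply_symm_apply]
  have hny : dN y y = 1 := by rw [hE.dN_self one_le_two hy0, hy]
  let H : Submodule ℝ E := LinearMap.ker (dN y).toLinearMap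
  have hH : ∀ {a : E}, a ∈ H ↔ dN y a = 0 := Iff.rfl
  let B₀ : E →L[ℝ] E →L[ℝ] E :=
    (ContinuousLinearMap.compL ℝ E F E (A.symm : F →L[ℝ] E)).comp (s.ddG y)
  have hB₀ : ∀ a b, B₀ a b = A.symm (s.ddG y a b) := fun a b => rfl
  have hB₀H : ∀ a b, B₀ a b ∈ H := fun a b => by
    rw [hH, hB₀, hnA, s.dN_ddG hE hy0]
  have hB₀s : ∀ a b, B₀ a b = B₀ b a := fun a b => by rw [hB₀, hB₀, s.ddG_symm hE hy0]
  have hB₀y : ∀ a, B₀ y a = 0 := fun a => by rw [hB₀, s.ddG_self_left hE hy0]; simp
  let B : H →ₗ[ℝ] H →ₗ[ℝ] H :=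
    LinearMap.mk₂ ℝ (fun a b => (⟨B₀ a b, hB₀H a b⟩ : H))
      (fun a a' b => Subtype.ext (by simp)) (fun c a b => Subtype.ext (by simp))
      (fun a b b' => Subtype.ext (by simp)) (fun c a b => Subtype.ext (by simp))
  have hB : ∀ a b : H, ((B a b : H) : E) = B₀ a b := fun a b => rfl
  let Q : LinearMap.BilinForm ℝ H :=
    LinearMap.mk₂ ℝ (fun a b => ddN y (a : E) (b : E))
      (fun a a' b => by simp) (fun c a b => by simp) (fun a b b' => by simp)
      (fun c a b => by simp)
  have hQ : ∀ a b : H, Q a b = ddN y (a : E) (b : E) := fun a b => rfl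
  -- the norm restricted to `H`
  have hcoe : ∀ {x : H}, x ≠ 0 → (x : E) ≠ 0 := fun h e => h (Subtype.ext e)
  have hHs : SmoothNorm H 2 := fun x hx =>
    (hE _ (hcoe hx)).comp x H.subtypeL.contDiff.contDiffAt
  have hHd : ∀ x : H, x ≠ 0 → dN x = (dN (x : E)).comp H.subtypeL := fun x hx =>
    (((hE.hasFDerivAt one_le_two (hcoe hx)).comp x H.subtypeL.hasFDerivAt) :
      HasFDerivAt (fun z : H => ‖z‖) _ x).fderiv
  have hHdd : ∀ x : H, x ≠ 0 → ∀ a b : H, ddN x a b = ddN (x : E) (a : E) (b : E) := by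
    intro x hx a b
    have h := fderiv_fderiv_norm_comp hE (g := fun z : H => (z : E))
      H.subtypeL.contDiff.contDiffAt (hcoe hx) a b
    have e : fderiv ℝ (fun z : H => (z : E)) = fun _ => H.subtypeL :=
      funext fun z => H.subtypeL.hasFDerivAt.fderiv
    rw [e] at h
    simp at h
    exact h
  -- `M (A ξ) = N ξ` on `H`
  have hδ : ∀ ξ : H, ξ ≠ 0 → ∀ h : H, dN (A ξ) (A h) = dN (ξ : E) (h : E) := by
    intro ξ hξ h
    have hAξ : A ξ ≠ 0 := fun e => hcoe hξ (A.injective (by rw [e, map_zero]))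
    have h1 : HasFDerivAt (fun z : H => ‖A (z : E)‖)
        ((dN (A ξ)).comp ((A : E →L[ℝ] F).comp H.subtypeL)) ξ :=
      (hF.hasFDerivAt one_le_two hAξ).comp ξ (((A : E →L[ℝ] F).comp H.subtypeL).hasFDerivAt)
    have e : (fun z : H => ‖A (z : E)‖) = fun z : H => ‖z‖ := by
      funext z
      rw [hA', s.norm_dG hE hy0 z.2]
      rfl
    rw [e] at h1
    have := DFunLike.congr_fun (h1.unique (hHs.hasFDerivAt one_le_two hξ)) h
    rw [hHd ξ hξ] at this
    simpa using this
  have hzero : B = 0 := by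
    refine cubic_eq_zero hHs (fun x hx v => by rw [hHdd x hx]; exact hc.nonneg hE (hcoe hx) _)
      Q B (fun a b => by rw [hQ, hQ, hE.ddN_symm hy0]) ?_ ?_ ?_ ?_
      (fun ξ => dN (A ξ) (s.G y) - dN (ξ : E) y) ?_
    · intro a ha
      rw [hQ]
      refine hc y hy0 _ fun c e => hcoe ha ?_
      have h2 : dN y (a : E) = 0 := a.2
      rw [e, map_smul, hny, smul_eq_mul, mul_one] at h2
      rw [e, h2, zero_smul]
    · exact fun a b => Subtype.ext (by rw [hB, hB, hB₀s])
    · intro a b c
      rw [hQ, hQ, hB, hB, hB₀, hB₀, ← s.ddN_dG hE hy0, ← s.ddN_dG hE hy0, ← hA', ← hA', ← hA',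
        ← hA', A.apply_symm_apply, A.apply_symm_apply, hA', hA']
      exact s.cubic_symm hE hy0 a b c
    · intro a
      have h := LinearMap.trace_restrict_eq_of_forall_mem H (B₀ (a : E)).toLinearMap
        (fun x => hB₀H a x)
      have e : B a = (B₀ (a : E)).toLinearMap.restrict (fun x _ => hB₀H a x) :=
        LinearMap.ext fun x => rfl
      rw [e, h]
      exact htr a
    · intro ξ hξ η
      have hξ0 := hcoe hξ
      have hAξ : s.dG y ξ ≠ 0 := fun e => hξ0 (A.injective (by rw [hA', e, map_zero]))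
      have hn := hE.hasFDerivAt one_le_two hy0
      set S : E → E := fun u => (ξ : E) - (dN u (ξ : E) * ‖u‖⁻¹) • u with hS
      have hξn : dN y (ξ : E) = 0 := ξ.2
      have hSy : S y = ξ := by simp [hS, hξn]
      have hl : HasDerivAt (fun t : ℝ => y + t • (η : E)) (η : E) 0 := by
        simpa using ((hasDerivAt_id (0 : ℝ)).smul_const (η : E)).const_add y
      have hdn : HasDerivAt (fun t : ℝ => dN (y + t • (η : E)) (ξ : E)) (ddN y η ξ) 0 := by
        have h := ((hE.differentiableAt_dN hy0).hasFDerivAt.comp_hasDerivAt_of_eq 0 hl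
          (by simp)).clm_apply (hasDerivAt_const (0 : ℝ) (ξ : E))
        simpa using h
      have hnorm : HasDerivAt (fun t : ℝ => ‖y + t • (η : E)‖) 0 0 := by
        have h := hn.comp_hasDerivAt_of_eq 0 hl (by simp)
        rwa [show dN y (η : E) = 0 from η.2] at h
      have hSd : HasDerivAt (fun t : ℝ => S (y + t • (η : E))) (-(ddN y η ξ • y)) 0 := by
        refine (((hdn.mul (hnorm.inv (by simp [hy]))).smul hl).const_sub (ξ : E)).congr_deriv ?_
        simp [hy, hξn]
      have hdGd : HasDerivAt (fun t : ℝ => s.dG (y + t • (η : E))) (s.ddG y η) 0 :=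
        (s.hasFDerivAt_dG hE hy0).comp_hasDerivAt_of_eq 0 hl (by simp)
      have h1 : HasDerivAt (fun t : ℝ => ‖s.dG (y + t • (η : E)) (S (y + t • (η : E)))‖)
          (dN (s.dG y ξ) (s.ddG y η ξ + s.dG y (-(ddN y η ξ • y)))) 0 := by
        have h := hdGd.clm_apply hSd
        simp only [zero_smul, add_zero, hSy] at h
        exact (hF.hasFDerivAt one_le_two hAξ).comp_hasDerivAt_of_eq 0 h (by simp [hSy])
      have h2 : HasDerivAt (fun t : ℝ => ‖S (y + t • (η : E))‖)
          (dN (ξ : E) (-(ddN y η ξ • y))) 0 :=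
        (hE.hasFDerivAt one_le_two hξ0).comp_hasDerivAt_of_eq 0 hSd (by simp [hSy])
      have hev : (fun t : ℝ => ‖s.dG (y + t • (η : E)) (S (y + t • (η : E)))‖) =ᶠ[𝓝 0]
          fun t : ℝ => ‖S (y + t • (η : E))‖ := by
        filter_upwards [hl.continuousAt.tendsto.eventually_ne (by simpa using hy0)] with t ht
        refine s.norm_dG hE ht ?_
        rw [hS, map_sub, map_smul, hE.dN_self one_le_two ht, smul_eq_mul, mul_assoc,
          inv_mul_cancel₀ (norm_ne_zero_iff.2 ht), mul_one, sub_self]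
      have h3 := (h1.congr_of_eventuallyEq hev.symm).unique h2
      have e : dN ξ (B η ξ) = dN (A ξ) (s.ddG y (η : E) (ξ : E)) := by
        have := hδ ξ hξ (B η ξ)
        rw [hB, hB₀, A.apply_symm_apply] at this
        rw [hHd ξ hξ]
        simpa [hB, hB₀] using this.symm
      rw [e, hQ, hA']
      simp [s.dG_self hE hy0] at h3
      linear_combination h3
  -- conclude on the whole space
  have key : ∀ a b, dN y a = 0 → dN y b = 0 → s.ddG y a b = 0 := fun a b ha hb => by
    have h : B₀ a b = 0 := by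
      have := congr_arg Subtype.val (LinearMap.congr_fun₂ hzero ⟨a, ha⟩ ⟨b, hb⟩)
      exact this
    rw [hB₀] at h
    exact A.symm.injective (by rw [h, map_zero])
  refine ContinuousLinearMap.ext fun a => ContinuousLinearMap.ext fun b => ?_
  have hyl : ∀ c, s.ddG y y c = 0 := fun c => by rw [s.ddG_self_left hE hy0]; rfl
  have hyr : ∀ c, s.ddG y c y = 0 := fun c => by rw [s.ddG_symm hE hy0]; exact hyl c
  have h := key (a - dN y a • y) (b - dN y b • y) (by simp [hny]) (by simp [hny])
  simpa [map_sub, map_smul, hyl, hyr] using h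

end SphIso

end Vale.Agent.P084
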