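import Vale.Agent.P084.Calc
import Vale.Agent.P084.Vanish

/-!
P084 (Tingley's problem), library: the second derivative of a norm is nonnegative, and the
identities satisfied by the second derivative of the extension, pulled back to the source.
-/

namespace Vale.Agent.P084

open Filter Topology

variable {X : Type*} [NormedAddCommGroup X] [NormedSpace ℝ X]

/-- Convexity: the second derivative of the norm is nonnegative. -/
lemma SmoothNorm.ddN_nonneg (hX : SmoothNorm X 2) {x : X} (hx : x ≠ 0) (v : X) :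
    0 ≤ ddN x v v := by
  have hl : HasDerivAt (fun t : ℝ => x + t • v) v 0 := by
    simpa using ((hasDerivAt_id (0 : ℝ)).smul_const v).const_add x
  have h2 : HasDerivAt (fun t : ℝ => dN (x + t • v) v) (ddN x v v) 0 := by
    have h := ((hX.differentiableAt_dN hx).hasFDerivAt).comp_hasDerivAt_of_eq 0 hl (by simp)
    simpa using h.clm_apply (hasDerivAt_const (0 : ℝ) v)
  refine ge_of_tendsto h2.tendsto_slope_zero_right ?_
  filter_upwards [self_mem_nhdsWithin,
    (hl.continuousAt.tendsto.eventually_ne (by simpa using hx)).filter_mono nhdsWithin_le_nhds]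
    with t (ht : 0 < t) hne
  have h3 := dN_le x (x + t • v)
  have h4 := dN_le (x + t • v) x
  rw [map_add, map_smul, hX.dN_self one_le_two hx, smul_eq_mul] at h3
  have h5 := hX.dN_self one_le_two hne
  rw [map_add, map_smul, smul_eq_mul] at h5
  simp only [zero_add, zero_smul, add_zero, smul_eq_mul]
  refine mul_nonneg (inv_nonneg.2 ht.le) (sub_nonneg.2 ?_)
  exact le_of_mul_le_mul_left (by linarith) ht

variable {E F : Type*} [NormedAddCommGroup E] [NormedSpace ℝ E] [FiniteDimensional ℝ E]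
  [NormedAddCommGroup F] [NormedSpace ℝ F] [FiniteDimensional ℝ F]

namespace SphIso

variable (s : SphIso E F)

/-- The second derivative of the extension, pulled back by the first derivative. -/
noncomputable def Bop (x : E) : E →L[ℝ] E →L[ℝ] E :=
  (ContinuousLinearMap.compL ℝ E F E (s.dG x).inverse).comp (s.ddG x)

lemma Bop_apply (x a b : E) : s.Bop x a b = (s.dG x).inverse (s.ddG x a b) := rfl

/-- The scalar in the identity for the second derivative. -/
noncomputable def dlt (x ξ : E) : ℝ := (dN (s.dG x ξ) (s.G x) - dN ξ x) / ‖x‖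

lemma abs_dlt_le (x ξ : E) : |s.dlt x ξ| ≤ 2 := by
  rcases eq_or_ne x 0 with rfl | hx
  · simp [dlt]
  rw [dlt, abs_div, abs_norm, div_le_iff₀ (norm_pos_iff.2 hx)]
  have h1 := abs_dN_le (s.dG x ξ) (s.G x)
  have h2 := abs_dN_le ξ x
  rw [s.norm_G] at h1
  have h3 := abs_sub (dN (s.dG x ξ) (s.G x)) (dN ξ x)
  linarith

variable (hE : SmoothNorm E 2)
include hE

lemma dG_Bop {x : E} (hx : x ≠ 0) (a b : E) : s.dG x (s.Bop x a b) = s.ddG x a b := by
  obtain ⟨A, hA⟩ := s.exists_equiv hE hx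
  rw [Bop_apply, ← hA, ContinuousLinearMap.inverse_equiv]
  simp

lemma dG_inj {x : E} (hx : x ≠ 0) {a b : E} (h : s.dG x a = s.dG x b) : a = b := by
  obtain ⟨A, hA⟩ := s.exists_equiv hE hx
  rw [← hA] at h
  exact A.injective h

lemma Bop_symm {x : E} (hx : x ≠ 0) (a b : E) : s.Bop x a b = s.Bop x b a := by
  rw [Bop_apply, Bop_apply, s.ddG_symm hE hx]

lemma Bop_self_left {x : E} (hx : x ≠ 0) (b : E) : s.Bop x x b = 0 := by
  rw [Bop_apply, s.ddG_self_left hE hx]
  simp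

lemma Bop_self_right {x : E} (hx : x ≠ 0) (b : E) : s.Bop x b x = 0 := by
  rw [s.Bop_symm hE hx]; exact s.Bop_self_left hE hx b

lemma dN_Bop {x : E} (hx : x ≠ 0) (a b : E) : dN x (s.Bop x a b) = 0 := by
  rw [← s.dN_dG hE hx, s.dG_Bop hE hx, s.dN_ddG hE hx]

lemma ddN_Bop_symm {x : E} (hx : x ≠ 0) (a b c : E) :
    ddN x a (s.Bop x b c) = ddN x b (s.Bop x a c) := by
  rw [← s.ddN_dG hE hx, ← s.ddN_dG hE hx b, s.dG_Bop hE hx, s.dG_Bop hE hx]
  exact s.cubic_symm hE hx a b c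

lemma continuousAt_Bop {x : E} (hx : x ≠ 0) : ContinuousAt (fun u => s.Bop u) x := by
  obtain ⟨A, hA⟩ := s.exists_equiv hE hx
  have hi : ContinuousAt (fun u => (s.dG u).inverse) x := by
    have h := (contDiffAt_map_inverse (n := 0) A).continuousAt
    rw [hA] at h
    exact h.comp (s.continuousAt_dG hE hx)
  exact ((ContinuousLinearMap.compL ℝ E F E).continuous.continuousAt.comp hi).clm_comp
    (s.continuousAt_ddG hE hx)

lemma dN_dG_tangent {x ξ : E} (hx : x ≠ 0) (hξ : dN x ξ = 0) (hξ0 : ξ ≠ 0) {h : E}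
    (hh : dN x h = 0) : dN (s.dG x ξ) (s.dG x h) = dN ξ h := by
  have hF := s.smoothNorm_two hE
  have hAξ : s.dG x ξ ≠ 0 := by
    rw [← norm_ne_zero_iff, s.norm_dG hE hx hξ, norm_ne_zero_iff]; exact hξ0
  have hl : HasDerivAt (fun t : ℝ => ξ + t • h) h 0 := by
    simpa using ((hasDerivAt_id (0 : ℝ)).smul_const h).const_add ξ
  have h2 : HasDerivAt (fun t : ℝ => ‖ξ + t • h‖) (dN ξ h) 0 :=
    (hE.hasFDerivAt one_le_two hξ0).comp_hasDerivAt_of_eq 0 hl (by simp)
  have h3 : HasDerivAt (fun t : ℝ => ‖s.dG x (ξ + t • h)‖) (dN (s.dG x ξ) (s.dG x h)) 0 :=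
    (hF.hasFDerivAt one_le_two hAξ).comp_hasDerivAt_of_eq 0
      ((s.dG x).hasFDerivAt.comp_hasDerivAt 0 hl) (by simp)
  have e : (fun t : ℝ => ‖s.dG x (ξ + t • h)‖) = fun t : ℝ => ‖ξ + t • h‖ :=
    funext fun t => s.norm_dG hE hx (by simp [hξ, hh])
  rw [e] at h3
  exact h3.unique h2

/-- The identity obtained by differentiating the isometry property of the derivative. -/
lemma dN_Bop_identity {y ξ η : E} (hy : y ≠ 0) (hξ : dN y ξ = 0) (hξ0 : ξ ≠ 0)
    (hη : dN y η = 0) : dN ξ (s.Bop y η ξ) = ddN y η ξ * s.dlt y ξ := by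
  have hF := s.smoothNorm_two hE
  rw [← s.dN_dG_tangent hE hy hξ hξ0 (s.dN_Bop hE hy η ξ), s.dG_Bop hE hy]
  have hAξ : s.dG y ξ ≠ 0 := by
    rw [← norm_ne_zero_iff, s.norm_dG hE hy hξ, norm_ne_zero_iff]; exact hξ0
  have hr : ‖y‖ ≠ 0 := norm_ne_zero_iff.2 hy
  set S : E → E := fun u => ξ - (dN u ξ * ‖u‖⁻¹) • u with hS
  have hSy : S y = ξ := by simp [hS, hξ]
  have hl : HasDerivAt (fun t : ℝ => y + t • η) η 0 := by
    simpa using ((hasDerivAt_id (0 : ℝ)).smul_const η).const_add y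
  have hdn : HasDerivAt (fun t : ℝ => dN (y + t • η) ξ) (ddN y η ξ) 0 := by
    have h := ((hE.differentiableAt_dN hy).hasFDerivAt.comp_hasDerivAt_of_eq 0 hl
      (by simp)).clm_apply (hasDerivAt_const (0 : ℝ) ξ)
    simpa using h
  have hnorm : HasDerivAt (fun t : ℝ => ‖y + t • η‖) 0 0 := by
    have h := (hE.hasFDerivAt one_le_two hy).comp_hasDerivAt_of_eq 0 hl (by simp)
    rwa [hη] at h
  have hSd : HasDerivAt (fun t : ℝ => S (y + t • η)) (-((ddN y η ξ * ‖y‖⁻¹) • y)) 0 := by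
    refine (((hdn.mul (hnorm.inv (by simpa using hr))).smul hl).const_sub ξ).congr_deriv ?_
    simp [hξ]
  have hdGd : HasDerivAt (fun t : ℝ => s.dG (y + t • η)) (s.ddG y η) 0 :=
    (s.hasFDerivAt_dG hE hy).comp_hasDerivAt_of_eq 0 hl (by simp)
  have h1 : HasDerivAt (fun t : ℝ => ‖s.dG (y + t • η) (S (y + t • η))‖)
      (dN (s.dG y ξ) (s.ddG y η ξ + s.dG y (-((ddN y η ξ * ‖y‖⁻¹) • y)))) 0 := by
    have h := hdGd.clm_apply hSd
    simp only [zero_smul, add_zero, hSy] at h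
    exact (hF.hasFDerivAt one_le_two hAξ).comp_hasDerivAt_of_eq 0 h (by simp [hSy])
  have h2 : HasDerivAt (fun t : ℝ => ‖S (y + t • η)‖)
      (dN ξ (-((ddN y η ξ * ‖y‖⁻¹) • y))) 0 :=
    (hE.hasFDerivAt one_le_two hξ0).comp_hasDerivAt_of_eq 0 hSd (by simp [hSy])
  have hev : (fun t : ℝ => ‖s.dG (y + t • η) (S (y + t • η))‖) =ᶠ[𝓝 0]
      fun t : ℝ => ‖S (y + t • η)‖ := by
    filter_upwards [hl.continuousAt.tendsto.eventually_ne (by simpa using hy)] with t ht
    refine s.norm_dG hE ht ?_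
    rw [hS, map_sub, map_smul, hE.dN_self one_le_two ht, smul_eq_mul, mul_assoc,
      inv_mul_cancel₀ (norm_ne_zero_iff.2 ht), mul_one, sub_self]
  have h3 := (h1.congr_of_eventuallyEq hev.symm).unique h2
  simp [s.dG_self hE hy] at h3
  rw [dlt]
  field_simp at h3 ⊢
  linarith

lemma ddG_smul_pos {x : E} (hx : x ≠ 0) {t : ℝ} (ht : 0 < t) :
    s.ddG (t • x) = t⁻¹ • s.ddG x := by
  have h1 : HasFDerivAt (fun u => s.dG (t • u)) (t • s.ddG (t • x)) x := by
    have h := (s.hasFDerivAt_dG hE (smul_ne_zero ht.ne' hx)).comp x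
      ((hasFDerivAt_id x).const_smul t)
    refine h.congr_fderiv ?_
    ext a b
    simp
  have h2 : HasFDerivAt (fun u => s.dG (t • u)) (s.ddG x) x :=
    (s.hasFDerivAt_dG hE hx).congr_of_eventuallyEq
      ((eventually_ne_nhds hx).mono fun u hu => s.dG_smul hE hu ht.ne')
  rw [h2.unique h1, smul_smul, inv_mul_cancel₀ ht.ne', one_smul]

end SphIso

end Vale.Agent.P084
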