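import Vale.Agent.P084.Flat
import Vale.Agent.P084.Main
import Vale.Agent.P084.Antipode

/-!
P084 (Tingley's problem), library: finite-dimensional spaces of dimension at least three with a
`C²` norm have the Mazur–Ulam property.
-/

namespace Vale.Agent.P084

open Metric

variable {E Y : Type*} [NormedAddCommGroup E] [NormedSpace ℝ E] [NormedAddCommGroup Y]
  [NormedSpace ℝ Y]

/-- Odd surjective isometries of spheres extend linearly for `C²` norms. -/
theorem extends_linearly_of_sphIso [FiniteDimensional ℝ E] (hdim : 3 ≤ Module.finrank ℝ E)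
    (hE : SmoothNorm E 2) (s : SphIso E Y) :
    ∃ T : E ≃ₗᵢ[ℝ] Y, ∀ v : E, T v = s.G v := by
  have : ProperSpace E := FiniteDimensional.proper_real E
  have : FiniteDimensional ℝ Y := by
    refine FiniteDimensional.of_isCompact_closedBall₀ ℝ zero_lt_one ?_
    convert (isCompact_closedBall (0 : E) 1).image s.continuous_G
    ext w
    simp only [Set.mem_image, mem_closedBall_zero_iff]
    exact ⟨fun h => ⟨s.H w, by rwa [s.norm_H], s.G_H w⟩,
      fun ⟨v, hv, e⟩ => by rwa [← e, s.norm_G]⟩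
  obtain ⟨L, hL⟩ := s.exists_linear hE hdim
  have hbij : Function.Bijective L := by
    have : ⇑L = s.G := funext hL
    rw [this]
    exact ⟨s.G_injective, fun w => ⟨s.H w, s.G_H w⟩⟩
  refine ⟨⟨LinearEquiv.ofBijective L hbij, fun v => ?_⟩, fun v => hL v⟩
  show ‖L v‖ = ‖v‖
  rw [hL, s.norm_G]

/-- **Main theorem.** -/
theorem extends_linearly_C2 [FiniteDimensional ℝ E] (hdim : 3 ≤ Module.finrank ℝ E)
    (hE : SmoothNorm E 2)
    {f : sphere (0 : E) 1 → sphere (0 : Y) 1} (hf : Isometry f)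
    (hsurj : Function.Surjective f) :
    ∃ T : E ≃ₗᵢ[ℝ] Y, ∀ x : sphere (0 : E) 1, T x = f x := by
  obtain ⟨s, hsf⟩ := exists_sphIso_of_odd hf hsurj (odd_of_smooth (hE.of_le one_le_two) hf hsurj)
  obtain ⟨T, hT⟩ := extends_linearly_of_sphIso hdim hE s
  exact ⟨T, fun x => by rw [hT, hsf]⟩

end Vale.Agent.P084
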