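import Mathlib

/-!
P084 (Tingley's problem), library: first and second derivatives of a norm.
-/

namespace Vale.Agent.P084

open Filter Topology

variable {X : Type*} [NormedAddCommGroup X] [NormedSpace ℝ X]

/-- Derivative of the norm. -/
noncomputable abbrev dN (x : X) : X →L[ℝ] ℝ := fderiv ℝ (fun z : X => ‖z‖) x

/-- Second derivative of the norm. -/
noncomputable abbrev ddN (x : X) : X →L[ℝ] X →L[ℝ] ℝ :=
  fderiv ℝ (fderiv ℝ (fun z : X => ‖z‖)) x

/-- The norm is `C^n` away from the origin. -/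
def SmoothNorm (X : Type*) [NormedAddCommGroup X] [NormedSpace ℝ X] (n : ℕ) : Prop :=
  ∀ x : X, x ≠ 0 → ContDiffAt ℝ n (fun z : X => ‖z‖) x

/-- The second derivative of the norm is positive transversally to the ray. -/
def Curved (X : Type*) [NormedAddCommGroup X] [NormedSpace ℝ X] : Prop :=
  ∀ x : X, x ≠ 0 → ∀ v : X, (∀ c : ℝ, v ≠ c • x) → 0 < ddN x v v

/-- Strict convexity, in the form used below. -/
def StrictNorm (X : Type*) [NormedAddCommGroup X] : Prop :=
  ∀ a b : X, ‖a‖ = 1 → ‖b‖ = 1 → ‖a + b‖ = 2 → a = b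

lemma dN_le (x b : X) : dN x b ≤ ‖b‖ := by
  have h : ‖dN x‖ ≤ 1 := NNReal.coe_one ▸ norm_fderiv_le_of_lipschitz ℝ lipschitzWith_one_norm
  calc dN x b ≤ ‖dN x b‖ := Real.le_norm_self _
    _ ≤ ‖dN x‖ * ‖b‖ := (dN x).le_opNorm b
    _ ≤ 1 * ‖b‖ := by gcongr
    _ = ‖b‖ := one_mul _

lemma abs_dN_le (x b : X) : |dN x b| ≤ ‖b‖ := by
  refine abs_le.2 ⟨?_, dN_le x b⟩
  have h := dN_le x (-b)
  simp only [map_neg, norm_neg] at h
  linarith

lemma SmoothNorm.differentiableAt {n : ℕ} (hX : SmoothNorm X n) (hn : 1 ≤ n) {x : X} (hx : x ≠ 0) :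
    DifferentiableAt ℝ (fun z : X => ‖z‖) x :=
  (hX x hx).differentiableAt (by exact_mod_cast Nat.one_le_iff_ne_zero.1 hn)

lemma SmoothNorm.hasFDerivAt {n : ℕ} (hX : SmoothNorm X n) (hn : 1 ≤ n) {x : X} (hx : x ≠ 0) :
    HasFDerivAt (fun z : X => ‖z‖) (dN x) x :=
  (hX.differentiableAt hn hx).hasFDerivAt

lemma SmoothNorm.of_le {n m : ℕ} (hX : SmoothNorm X n) (h : m ≤ n) : SmoothNorm X m :=
  fun x hx => (hX x hx).of_le (by exact_mod_cast h)

lemma SmoothNorm.dN_self {n : ℕ} (hX : SmoothNorm X n) (hn : 1 ≤ n) {x : X} (hx : x ≠ 0) :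
    dN x x = ‖x‖ :=
  (hX.differentiableAt hn hx).fderiv_norm_self

lemma dN_smul_pos (x : X) {t : ℝ} (ht : 0 < t) : dN (t • x) = dN x :=
  fderiv_norm_smul_pos (x := x) ht

lemma dN_neg (x : X) : dN (-x) = - dN x := by
  have h := fderiv_norm_smul_neg (x := x) (t := (-1 : ℝ)) (by norm_num)
  simpa [dN] using h

lemma SmoothNorm.differentiableAt_dN (hX : SmoothNorm X 2) {x : X} (hx : x ≠ 0) :
    DifferentiableAt ℝ (fderiv ℝ (fun z : X => ‖z‖)) x :=
  ((hX x hx).fderiv_right (m := 1) (by norm_num)).differentiableAt (by norm_num)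

lemma SmoothNorm.continuousAt_dN {n : ℕ} (hX : SmoothNorm X n) (hn : 1 ≤ n) {x : X} (hx : x ≠ 0) :
    ContinuousAt (fun z : X => dN z) x :=
  ((hX x hx).of_le (by exact_mod_cast hn : ((1 : ℕ) : WithTop ℕ∞) ≤ n)).fderiv_right
    (m := 0) (by norm_num) |>.continuousAt

lemma SmoothNorm.continuousAt_ddN (hX : SmoothNorm X 2) {x : X} (hx : x ≠ 0) :
    ContinuousAt (fun z : X => ddN z) x :=
  (((hX x hx).fderiv_right (m := 1) (by norm_num)).fderiv_right (m := 0) (by norm_num)).continuousAt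

lemma SmoothNorm.ddN_symm (hX : SmoothNorm X 2) {x : X} (hx : x ≠ 0) (a b : X) :
    ddN x a b = ddN x b a :=
  (hX x hx).isSymmSndFDerivAt (by simp) a b

lemma SmoothNorm.ddN_self_left (hX : SmoothNorm X 2) {x : X} (hx : x ≠ 0) (b : X) :
    ddN x x b = 0 := by
  have hd : HasDerivAt (fun t : ℝ => dN (x + t • x)) (ddN x x) 0 := by
    have h1 : HasDerivAt (fun t : ℝ => x + t • x) x 0 := by
      simpa using ((hasDerivAt_id (0 : ℝ)).smul_const x).const_add x
    have h2 := (hX.differentiableAt_dN hx).hasFDerivAt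
    exact h2.comp_hasDerivAt_of_eq 0 h1 (by simp)
  have hc : (fun t : ℝ => dN (x + t • x)) =ᶠ[𝓝 0] fun _ => dN x := by
    filter_upwards [eventually_gt_nhds (show (-1 : ℝ) < 0 by norm_num)] with t ht
    rw [show x + t • x = (1 + t) • x by rw [add_smul, one_smul]]
    exact dN_smul_pos x (by linarith)
  have h0 : ddN x x = 0 :=
    hd.unique ((hasDerivAt_const (0 : ℝ) (dN x)).congr_of_eventuallyEq hc)
  simp [h0]

lemma SmoothNorm.ddN_self_right (hX : SmoothNorm X 2) {x : X} (hx : x ≠ 0) (b : X) :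
    ddN x b x = 0 := by
  rw [hX.ddN_symm hx]; exact hX.ddN_self_left hx b

lemma SmoothNorm.ddN_smul_pos (hX : SmoothNorm X 2) {x : X} (hx : x ≠ 0) {t : ℝ} (ht : 0 < t) :
    ddN (t • x) = t⁻¹ • ddN x := by
  have h1 : HasFDerivAt (fun z : X => dN (t • z)) (t • ddN (t • x)) x := by
    have ha : HasFDerivAt (fun z : X => t • z) (t • ContinuousLinearMap.id ℝ X) x :=
      (hasFDerivAt_id x).const_smul t
    have h := ((hX.differentiableAt_dN (smul_ne_zero ht.ne' hx)).hasFDerivAt).comp x ha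
    refine h.congr_fderiv ?_
    ext a b
    simp
  have h2 : (fun z : X => dN (t • z)) = fun z => dN z := funext fun z => dN_smul_pos z ht
  rw [h2] at h1
  have h3 : ddN x = t • ddN (t • x) := h1.fderiv
  rw [h3, smul_smul, inv_mul_cancel₀ ht.ne', one_smul]

/-- Curvature makes the norm strictly convex. -/
lemma Curved.strictNorm (hX : SmoothNorm X 2) (hc : Curved X) : StrictNorm X := by
  intro a b ha hb hab
  by_contra hne
  set m := (1 / 2 : ℝ) • (a + b) with hm
  set d := a - b with hd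
  have hmn : ‖m‖ = 1 := by rw [hm, norm_smul, hab]; norm_num
  have hm0 : m ≠ 0 := fun h => by simp [h] at hmn
  have hd0 : d ≠ 0 := sub_ne_zero.2 hne
  have hma : dN m a = 1 ∧ dN m b = 1 := by
    have h1 := dN_le m a
    have h2 := dN_le m b
    have h3 := hX.dN_self (by norm_num) hm0
    rw [hmn] at h3
    have h4 : dN m m = (1 / 2 : ℝ) * (dN m a + dN m b) := by
      rw [← map_add, ← smul_eq_mul, ← map_smul, ← hm]
    constructor <;> linarith
  have hmd : dN m d = 0 := by rw [hd, map_sub, hma.1, hma.2, sub_self]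
  have hconst : ∀ᶠ s in 𝓝 (0 : ℝ), ‖m + s • d‖ = 1 := by
    filter_upwards [Ioo_mem_nhds (show (-1/2 : ℝ) < 0 by norm_num)
      (show (0 : ℝ) < 1/2 by norm_num)] with s hs
    apply le_antisymm
    · have : m + s • d = (1/2 + s) • a + (1/2 - s) • b := by rw [hm, hd]; module
      rw [this]
      refine (norm_add_le _ _).trans ?_
      rw [norm_smul, norm_smul, ha, hb, Real.norm_of_nonneg (by linarith [hs.1]),
        Real.norm_of_nonneg (by linarith [hs.2])]
      linarith
    · have h := dN_le m (m + s • d)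
      have e : dN m (m + s • d) = 1 := by
        rw [map_add, map_smul (dN m) s d, hX.dN_self (by norm_num) hm0, hmn, hmd, smul_zero,
          add_zero]
      linarith
  have hcurve : ∀ s : ℝ, HasDerivAt (fun t : ℝ => m + t • d) d s := fun s => by
    simpa using ((hasDerivAt_id s).smul_const d).const_add m
  have hne0 : ∀ᶠ s in 𝓝 (0 : ℝ), m + s • d ≠ 0 := by
    filter_upwards [hconst] with s hs h
    simp [h] at hs
  have hzero : ∀ᶠ s in 𝓝 (0 : ℝ), dN (m + s • d) d = 0 := by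
    filter_upwards [eventually_eventually_nhds.2 hconst, hne0] with s hs hs0
    have h1 : HasDerivAt (fun t : ℝ => ‖m + t • d‖) (dN (m + s • d) d) s :=
      (hX.hasFDerivAt (by norm_num) hs0).comp_hasDerivAt s (hcurve s)
    exact h1.unique ((hasDerivAt_const s (1 : ℝ)).congr_of_eventuallyEq hs)
  have h2 : HasDerivAt (fun t : ℝ => dN (m + t • d) d) (ddN m d d) 0 := by
    have h := ((hX.differentiableAt_dN hm0).hasFDerivAt).comp_hasDerivAt_of_eq 0 (hcurve 0)
      (by simp)
    simpa using h.clm_apply (hasDerivAt_const (0 : ℝ) d)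
  have h3 : ddN m d d = 0 :=
    h2.unique ((hasDerivAt_const (0 : ℝ) (0 : ℝ)).congr_of_eventuallyEq hzero)
  refine absurd h3 (ne_of_gt (hc m hm0 d ?_))
  intro c hcd
  apply hd0
  have : c = 0 := by
    have h := hmd
    rw [hcd, map_smul, hX.dN_self (by norm_num) hm0, hmn, smul_eq_mul, mul_one] at h
    exact h
  rw [hcd, this, zero_smul]

lemma StrictNorm.dN_lt {n : ℕ} (hs : StrictNorm X) (hX : SmoothNorm X n) (hn : 1 ≤ n) {a b : X}
    (ha : ‖a‖ = 1) (hb : ‖b‖ = 1) (hab : b ≠ a) : dN a b < 1 := by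
  have ha0 : a ≠ 0 := fun h => by simp [h] at ha
  refine lt_of_le_of_ne ((dN_le a b).trans hb.le) fun h => hab (hs a b ha hb ?_).symm
  apply le_antisymm
  · exact (norm_add_le a b).trans (by rw [ha, hb]; norm_num)
  · have h' := dN_le a (a + b)
    rw [map_add, hX.dN_self hn ha0, ha, h] at h'
    linarith

end Vale.Agent.P084
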