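import Vale.Agent.P084.Norm

/-!
P084, sanity check: the hypotheses of the theorem hold for Euclidean norms.
-/

namespace Vale.Agent.P084

open scoped RealInnerProductSpace

variable {X : Type*} [NormedAddCommGroup X] [InnerProductSpace ℝ X]

lemma smoothNorm_of_inner : SmoothNorm X 2 := fun _ hx => contDiffAt_norm ℝ hx

lemma curved_of_inner : Curved X := by
  intro x hx v hv
  have hS : SmoothNorm X 2 := smoothNorm_of_inner
  have hdn : ∀ u : X, u ≠ 0 → ∀ b, dN u b = ⟪u, b⟫ / ‖u‖ := by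
    intro u hu b
    have h1 : HasFDerivAt (fun z : X => ‖z‖ ^ 2) (2 • innerSL ℝ u) u :=
      (hasStrictFDerivAt_norm_sq u).hasFDerivAt
    have h2 := ((hS.hasFDerivAt one_le_two hu).pow 2).unique h1
    have h3 := DFunLike.congr_fun h2 b
    simp at h3
    rw [eq_div_iff (norm_ne_zero_iff.2 hu)]
    linarith
  have hr : 0 < ‖x‖ := norm_pos_iff.2 hx
  have hl : HasDerivAt (fun t : ℝ => x + t • v) v 0 := by
    simpa using ((hasDerivAt_id (0 : ℝ)).smul_const v).const_add x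
  have hn : HasDerivAt (fun t : ℝ => ‖x + t • v‖) (⟪x, v⟫ / ‖x‖) 0 := by
    rw [← hdn x hx v]
    exact (hS.hasFDerivAt one_le_two hx).comp_hasDerivAt_of_eq 0 hl (by simp)
  have h1 : HasDerivAt (fun t : ℝ => ⟪x + t • v, v⟫) ⟪v, v⟫ 0 := by
    simpa using hl.inner ℝ (hasDerivAt_const (0 : ℝ) v)
  have h2 := h1.div hn (by simpa using hx)
  have h3 : HasDerivAt (fun t : ℝ => dN (x + t • v) v) (ddN x v v) 0 := by
    simpa using ((hS.differentiableAt_dN hx).hasFDerivAt.comp_hasDerivAt_of_eq 0 hl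
      (by simp)).clm_apply (hasDerivAt_const (0 : ℝ) v)
  have he : (fun t : ℝ => dN (x + t • v) v) =ᶠ[nhds 0] fun t => ⟪x + t • v, v⟫ / ‖x + t • v‖ :=
    (hl.continuousAt.tendsto.eventually_ne (by simpa using hx)).mono fun t ht => hdn _ ht v
  have h4 := h3.unique (h2.congr_of_eventuallyEq he)
  rw [h4]
  simp only [zero_smul, add_zero]
  have hcs : ⟪x, v⟫ ^ 2 < ⟪v, v⟫ * ‖x‖ ^ 2 := by
    rcases eq_or_ne v 0 with rfl | hv0
    · exact absurd (zero_smul ℝ x).symm (hv 0)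
    have hle : |⟪x, v⟫| < ‖x‖ * ‖v‖ := by
      refine lt_of_le_of_ne (abs_real_inner_le_norm x v) fun h => ?_
      obtain ⟨c, -, hc⟩ := (norm_inner_eq_norm_iff (𝕜 := ℝ) hx hv0).1 (by rwa [Real.norm_eq_abs])
      exact hv c hc
    rw [real_inner_self_eq_norm_sq, ← sq_abs, mul_comm, ← mul_pow]
    gcongr
  apply div_pos _ (by positivity)
  rw [show ⟪x, v⟫ * (⟪x, v⟫ / ‖x‖) = ⟪x, v⟫ ^ 2 / ‖x‖ by ring, sub_pos, div_lt_iff₀ hr]
  nlinarith

end Vale.Agent.P084
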