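import Vale.Agent.P084.Norm

/-!
P084 (Tingley's problem), library: homogeneous extension of a sphere isometry and its regularity.
-/

namespace Vale.Agent.P084

open Filter Topology Asymptotics

variable {E F : Type*} [NormedAddCommGroup E] [NormedSpace ℝ E] [NormedAddCommGroup F]
  [NormedSpace ℝ F]

/-- The positively homogeneous extension of an odd surjective isometry of unit spheres, with
its inverse. -/
structure SphIso (E F : Type*) [NormedAddCommGroup E] [NormedSpace ℝ E] [NormedAddCommGroup F]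
    [NormedSpace ℝ F] where
  G : E → F
  H : F → E
  H_G : ∀ v, H (G v) = v
  G_H : ∀ w, G (H w) = w
  norm_G : ∀ v, ‖G v‖ = ‖v‖
  G_smul : ∀ (t : ℝ) v, G (t • v) = t • G v
  key : ∀ v x, ‖x‖ = 1 → ‖G v - ‖v‖ • G x‖ = ‖v - ‖v‖ • x‖

/-- A continuous map is `C^n` if sufficiently many functions of it are. -/
lemma contDiffAt_of_functionals [FiniteDimensional ℝ F] {g : E → F} {v : E} {n : WithTop ℕ∞}
    (hn : n ≠ 0) (hg : ContinuousAt g v)
    (h : ∀ φ : F →L[ℝ] ℝ, ∃ ψ : F → ℝ, HasFDerivAt ψ φ (g v) ∧ ContDiffAt ℝ n ψ (g v) ∧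
      ContDiffAt ℝ n (fun v' => ψ (g v')) v) :
    ContDiffAt ℝ n g v := by
  set b := Module.finBasis ℝ F with hb
  choose ψ hψd hψc hψG using fun j => h (b.coord j).toContinuousLinearMap
  set Ψ : F → F := fun x => ∑ j, ψ j x • b j with hΨ
  have hΨd : HasFDerivAt Ψ ((ContinuousLinearEquiv.refl ℝ F : F →L[ℝ] F)) (g v) := by
    refine (HasFDerivAt.fun_sum fun j (_ : j ∈ Finset.univ) => (hψd j).smul_const (b j)).congr_fderiv
      ?_
    ext x
    simp [b.sum_repr]
  have hΨc : ContDiffAt ℝ n Ψ (g v) :=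
    ContDiffAt.sum fun j _ => (hψc j).smul contDiffAt_const
  have hΨG : ContDiffAt ℝ n (fun v' => Ψ (g v')) v :=
    ContDiffAt.sum fun j _ => (hψG j).smul contDiffAt_const
  have hleft : ∀ᶠ v' in 𝓝 v, hΨc.localInverse hΨd hn (Ψ (g v')) = g v' :=
    hg.tendsto.eventually ((hΨc.hasStrictFDerivAt' hΨd hn).eventually_left_inverse)
  exact ((hΨc.to_localInverse hΨd hn).comp v hΨG).congr_of_eventuallyEq
    (hleft.mono fun v' h => h.symm)

namespace SphIso

variable (s : SphIso E F)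

lemma norm_H (w : F) : ‖s.H w‖ = ‖w‖ := by rw [← s.norm_G (s.H w), s.G_H]

lemma G_injective : Function.Injective s.G := fun a b h => by
  rw [← s.H_G a, ← s.H_G b, h]

lemma H_smul (t : ℝ) (w : F) : s.H (t • w) = t • s.H w :=
  s.G_injective (by rw [s.G_H, s.G_smul, s.G_H])

/-- The inverse. -/
def symm : SphIso F E where
  G := s.H
  H := s.G
  H_G := s.G_H
  G_H := s.H_G
  norm_G := s.norm_H
  G_smul := s.H_smul
  key := fun w z hz => by
    have h := s.key (s.H w) (s.H z) (by rw [s.norm_H, hz])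
    rw [s.G_H, s.G_H, s.norm_H] at h
    exact h.symm

@[simp] lemma symm_G : s.symm.G = s.H := rfl

@[simp] lemma symm_H : s.symm.H = s.G := rfl

lemma G_zero : s.G 0 = 0 := by simpa using s.G_smul 0 0

lemma G_neg (v : E) : s.G (-v) = -s.G v := by simpa using s.G_smul (-1) v

lemma norm_G_sub_of_unit {x y : E} (hx : ‖x‖ = 1) (hy : ‖y‖ = 1) :
    ‖s.G x - s.G y‖ = ‖x - y‖ := by
  simpa [hx] using s.key x y hy

lemma norm_G_sub_le (v v' : E) : ‖s.G v - s.G v'‖ ≤ 3 * ‖v - v'‖ := by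
  rcases eq_or_ne v' 0 with rfl | hv'
  · simp only [G_zero, sub_zero, s.norm_G]
    linarith [norm_nonneg v]
  have hu : ‖‖v'‖⁻¹ • v'‖ = 1 := norm_smul_inv_norm hv'
  set u := ‖v'‖⁻¹ • v'
  have hv'' : v' = ‖v'‖ • u := by simp [u, smul_smul, hv']
  have hGv' : s.G v' = ‖v'‖ • s.G u := by rw [← s.G_smul, ← hv'']
  have habs : |‖v‖ - ‖v'‖| ≤ ‖v - v'‖ := abs_norm_sub_norm_le v v'
  calc ‖s.G v - s.G v'‖ = ‖(s.G v - ‖v‖ • s.G u) + (‖v‖ - ‖v'‖) • s.G u‖ := by
        rw [hGv']; congr 1; module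
    _ ≤ ‖v - ‖v‖ • u‖ + |‖v‖ - ‖v'‖| := (norm_add_le _ _).trans <| by
        rw [s.key v u hu, norm_smul, s.norm_G, hu, mul_one, Real.norm_eq_abs]
    _ ≤ (‖v - v'‖ + |‖v‖ - ‖v'‖|) + |‖v‖ - ‖v'‖| := by
        gcongr
        have e : v - ‖v‖ • u = (v - ‖v'‖ • u) + (‖v'‖ - ‖v‖) • u := by module
        rw [← hv''] at e
        calc ‖v - ‖v‖ • u‖ = ‖(v - v') + (‖v'‖ - ‖v‖) • u‖ := by rw [e]
          _ ≤ ‖v - v'‖ + |‖v‖ - ‖v'‖| := (norm_add_le _ _).trans <| by
              rw [norm_smul, hu, mul_one, Real.norm_eq_abs, abs_sub_comm]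
    _ ≤ 3 * ‖v - v'‖ := by linarith

lemma continuous_G : Continuous s.G :=
  (LipschitzWith.of_dist_le_mul (K := 3) fun v w => by
    simpa [dist_eq_norm] using s.norm_G_sub_le v w).continuous

section R1

include s

/-- At a unit point the norm of `F` has no corner: the symmetric second difference is `o(t)`. -/
lemma second_diff_isLittleO (hE : SmoothNorm E 1) {a : F} (ha : ‖a‖ = 1) (η : F) :
    (fun t : ℝ => ‖a + t • η‖ + ‖a - t • η‖ - 2) =o[𝓝 0] fun t => t := by
  have hu1 : ‖s.H a‖ = 1 := by rw [s.norm_H, ha]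
  have hu0 : s.H a ≠ 0 := fun h => by simp [h] at hu1
  set ρ : E → ℝ := fun h => ‖s.H a + h‖ - ‖s.H a‖ - dN (s.H a) h with hρ
  have hρo : ρ =o[𝓝 0] fun h => h :=
    hasFDerivAt_iff_isLittleO_nhds_zero.1 (hE.hasFDerivAt le_rfl hu0)
  -- the two nearby unit points
  set P : ℝ → F := fun t => ‖a + t • η‖⁻¹ • (a + t • η) with hP
  set h : ℝ → E := fun t => s.H (P t) - s.H a with hh
  have hsmall : ∀ᶠ t in 𝓝 (0 : ℝ), |t| * ‖η‖ ≤ 1 / 2 := by
    have : Tendsto (fun t : ℝ => |t| * ‖η‖) (𝓝 0) (𝓝 0) := by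
      have hc : Continuous fun t : ℝ => |t| * ‖η‖ := continuous_abs.mul continuous_const
      exact hc.tendsto' 0 0 (by simp)
    exact this.eventually (ge_mem_nhds (by norm_num))
  have est : ∀ t : ℝ, |t| * ‖η‖ ≤ 1 / 2 →
      (1 / 2 ≤ ‖a + t • η‖ ∧ |‖a + t • η‖ - 1| ≤ |t| * ‖η‖) ∧
        ‖P t - a‖ ≤ 4 * (|t| * ‖η‖) ∧ ‖P t‖ = 1 := by
    intro t ht
    have h1 : |‖a + t • η‖ - 1| ≤ |t| * ‖η‖ := by
      have := abs_norm_sub_norm_le (a + t • η) a
      rwa [ha, add_sub_cancel_left, norm_smul, Real.norm_eq_abs] at this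
    have h2 : 1 / 2 ≤ ‖a + t • η‖ := by linarith [(abs_le.1 h1).1]
    have hne : a + t • η ≠ 0 := fun h => by norm_num [h] at h2
    refine ⟨⟨h2, h1⟩, ?_, norm_smul_inv_norm hne⟩
    have hpos : 0 < ‖a + t • η‖ := by linarith
    have e : ‖a + t • η‖ • (P t - a) = (1 - ‖a + t • η‖) • a + t • η := by
      simp only [hP, smul_sub, smul_smul, mul_inv_cancel₀ hpos.ne', one_smul]; module
    have h3 : ‖a + t • η‖ * ‖P t - a‖ ≤ 2 * (|t| * ‖η‖) := by
      have hh' := norm_add_le ((1 - ‖a + t • η‖) • a) (t • η)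
      rw [← e, norm_smul, norm_smul, norm_smul, ha, mul_one, Real.norm_of_nonneg hpos.le,
        Real.norm_eq_abs, Real.norm_eq_abs, abs_sub_comm] at hh'
      linarith
    nlinarith [norm_nonneg (P t - a)]
  have hhO : h =O[𝓝 0] fun t : ℝ => t := by
    refine IsBigO.of_bound (12 * ‖η‖) ?_
    filter_upwards [hsmall] with t ht
    calc ‖h t‖ ≤ 3 * ‖P t - a‖ := s.symm.norm_G_sub_le _ _
      _ ≤ 3 * (4 * (|t| * ‖η‖)) := by gcongr; exact (est t ht).2.1
      _ = 12 * ‖η‖ * ‖t‖ := by rw [Real.norm_eq_abs]; ring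
  have hh0 : Tendsto h (𝓝 0) (𝓝 0) := hhO.trans_tendsto (continuous_id.tendsto' 0 0 rfl)
  have hρh : (fun t => ρ (h t)) =o[𝓝 0] fun t : ℝ => t := (hρo.comp_tendsto hh0).trans_isBigO hhO
  have hneg : Tendsto (fun t : ℝ => -t) (𝓝 0) (𝓝 0) := by
    simpa using (continuous_neg.tendsto (0 : ℝ))
  have hρh' : (fun t => ρ (h (-t))) =o[𝓝 0] fun t : ℝ => t := by
    simpa [Function.comp_def] using (hρh.comp_tendsto hneg).neg_right
  have hsq : (fun t : ℝ => 8 * ‖η‖ ^ 2 * t ^ 2) =o[𝓝 0] fun t => t :=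
    (isLittleO_pow_id one_lt_two).const_mul_left _
  refine IsBigO.trans_isLittleO (IsBigO.of_bound 1 ?_) ((hρh.add hρh').add hsq)
  filter_upwards [hsmall] with t ht
  have ht' : |-t| * ‖η‖ ≤ 1 / 2 := by rwa [abs_neg]
  obtain ⟨⟨hm2, hm1⟩, -, hp1⟩ := est t ht
  obtain ⟨⟨hn2, hn1⟩, -, hq1⟩ := est (-t) ht'
  rw [abs_neg] at hn1
  have eneg : a + (-t) • η = a - t • η := by module
  rw [eneg] at hn2 hn1
  set m := ‖a + t • η‖ with hm
  set n := ‖a - t • η‖ with hn
  have hconv : 2 ≤ m + n := by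
    have := norm_add_le (a + t • η) (a - t • η)
    rw [show a + t • η + (a - t • η) = (2 : ℝ) • a by module, norm_smul, ha] at this
    simpa using this
  -- upper bound
  have hup : ‖P t + P (-t)‖ ≤ 2 - (m + n - 2) + 8 * ‖η‖ ^ 2 * t ^ 2 := by
    have e : P t + P (-t) = (m⁻¹ + n⁻¹) • a + (t * (m⁻¹ - n⁻¹)) • η := by
      simp only [hP, eneg, ← hm, ← hn]; module
    have hinv : ∀ z : ℝ, 1 / 2 ≤ z → |z - 1| ≤ |t| * ‖η‖ →
        z⁻¹ ≤ 1 - (z - 1) + 2 * (t ^ 2 * ‖η‖ ^ 2) ∧ |z⁻¹ - 1| ≤ 2 * (|t| * ‖η‖) := by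
      intro z hz hz1
      have hz0 : 0 < z := by linarith
      have hsq : (z - 1) ^ 2 ≤ t ^ 2 * ‖η‖ ^ 2 := by
        rw [← sq_abs (z - 1), ← sq_abs t, ← mul_pow]
        exact pow_le_pow_left₀ (abs_nonneg _) hz1 2
      constructor
      · rw [inv_le_iff_one_le_mul₀ hz0]; nlinarith
      · rw [show z⁻¹ - 1 = -((z - 1) * z⁻¹) by field_simp; ring, abs_neg, abs_mul,
          abs_of_pos (inv_pos.2 hz0)]
        calc |z - 1| * z⁻¹ ≤ (|t| * ‖η‖) * 2 := by
              gcongr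
              rw [inv_le_comm₀ hz0 two_pos]; linarith
          _ = 2 * (|t| * ‖η‖) := mul_comm _ _
    obtain ⟨i1, j1⟩ := hinv m hm2 hm1
    obtain ⟨i2, j2⟩ := hinv n hn2 hn1
    have hd : |t * (m⁻¹ - n⁻¹)| * ‖η‖ ≤ 4 * (t ^ 2 * ‖η‖ ^ 2) := by
      have h4 : |m⁻¹ - n⁻¹| ≤ 4 * (|t| * ‖η‖) := by
        have := abs_sub_le m⁻¹ 1 n⁻¹
        rw [abs_sub_comm 1 n⁻¹] at this
        linarith
      rw [abs_mul]
      calc |t| * |m⁻¹ - n⁻¹| * ‖η‖ ≤ |t| * (4 * (|t| * ‖η‖)) * ‖η‖ := by gcongr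
        _ = 4 * (t ^ 2 * ‖η‖ ^ 2) := by rw [← sq_abs t]; ring
    have hmn : 0 ≤ m⁻¹ + n⁻¹ := by positivity
    rw [e]
    refine (norm_add_le _ _).trans ?_
    rw [norm_smul, norm_smul, ha, mul_one, Real.norm_of_nonneg hmn, Real.norm_eq_abs]
    linarith
  -- lower bound
  have hlow : 2 - ρ (h t) - ρ (h (-t)) ≤ ‖P t + P (-t)‖ := by
    have e1 : ‖s.H (P t) + s.H (P (-t))‖ = ‖P t + P (-t)‖ := by
      have := s.symm.norm_G_sub_of_unit (x := P t) (y := -P (-t)) hp1 (by rw [norm_neg, hq1])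
      simpa [s.symm.G_neg, ← sub_eq_add_neg] using this
    have e2 : ∀ t', ‖P t'‖ = 1 → ρ (h t') = 1 - dN (s.H a) (s.H (P t')) := by
      intro t' h'
      simp only [hρ, hh, add_sub_cancel, s.norm_H, h', map_sub, hE.dN_self le_rfl hu0, ha]
      ring
    have e3 := dN_le (s.H a) (s.H (P t) + s.H (P (-t)))
    rw [map_add, e1] at e3
    rw [e2 t hp1, e2 (-t) hq1]
    linarith
  rw [one_mul, Real.norm_of_nonneg (by linarith), Real.norm_eq_abs]
  exact le_trans (by linarith) (le_abs_self _)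

/-- The norm of the target is differentiable away from zero. -/
lemma differentiableAt_norm [FiniteDimensional ℝ F] (hE : SmoothNorm E 1) {a : F} (ha : a ≠ 0) :
    DifferentiableAt ℝ (fun z : F => ‖z‖) a := by
  wlog hone : ‖a‖ = 1 generalizing a
  · have h := this (a := ‖a‖⁻¹ • a) (by simp [ha]) (norm_smul_inv_norm ha)
    exact (differentiableAt_norm_smul (inv_ne_zero (norm_ne_zero_iff.2 ha))).2 h
  obtain ⟨φ, hφ1, hφa⟩ := exists_dual_vector'' ℝ a
  rw [RCLike.ofReal_real_eq_id, id_eq, hone] at hφa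
  have hφ : ∀ z, φ z ≤ ‖z‖ := fun z => by
    calc φ z ≤ ‖φ z‖ := Real.le_norm_self _
      _ ≤ ‖φ‖ * ‖z‖ := φ.le_opNorm z
      _ ≤ 1 * ‖z‖ := by gcongr
      _ = ‖z‖ := one_mul _
  refine (LipschitzWith.hasFDerivAt_of_hasLineDerivAt_of_closure (C := 1) (s := Set.univ)
    (L := φ) lipschitzWith_one_norm (by simp) fun η _ => ?_).differentiableAt
  rw [hasLineDerivAt_iff_isLittleO_nhds_zero]
  refine IsBigO.trans_isLittleO (IsBigO.of_bound 1 ?_) (s.second_diff_isLittleO hE hone η)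
  refine Eventually.of_forall fun t => ?_
  have h1 := hφ (a + t • η)
  have h2 := hφ (a - t • η)
  simp only [map_add, map_sub, map_smul, hφa, smul_eq_mul] at h1 h2
  rw [hone, one_mul, smul_eq_mul, Real.norm_of_nonneg (by linarith),
    Real.norm_of_nonneg (by linarith)]
  linarith

/-- The norm of the target is `C¹` away from zero. -/
lemma smoothNorm_one [FiniteDimensional ℝ F] (hE : SmoothNorm E 1) : SmoothNorm F 1 := by
  have hd : ∀ z : F, z ≠ 0 → DifferentiableAt ℝ (fun z : F => ‖z‖) z :=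
    fun z hz => s.differentiableAt_norm hE hz
  intro a ha
  rw [Nat.cast_one, contDiffAt_one_iff]
  refine ⟨fun z => dN z, {0}ᶜ, isOpen_compl_singleton.mem_nhds ha, ?_,
    fun z hz => (hd z hz).hasFDerivAt⟩
  intro z hz
  refine ContinuousAt.continuousWithinAt ?_
  refine (isCompact_closedBall (0 : F →L[ℝ] ℝ) 1).tendsto_nhds_of_unique_mapClusterPt
    (Eventually.of_forall fun w => mem_closedBall_zero_iff.2
      (NNReal.coe_one ▸ norm_fderiv_le_of_lipschitz ℝ lipschitzWith_one_norm)) ?_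
  intro φ hφ1 hφc
  rw [mem_closedBall_zero_iff] at hφ1
  have hφle : ∀ b, φ b ≤ ‖b‖ := fun b => by
    calc φ b ≤ ‖φ b‖ := Real.le_norm_self _
      _ ≤ ‖φ‖ * ‖b‖ := φ.le_opNorm b
      _ ≤ 1 * ‖b‖ := by gcongr
      _ = ‖b‖ := one_mul _
  have hφz : φ z = ‖z‖ := by
    refine le_antisymm (hφle z) (le_of_forall_sub_le fun δ hδ => ?_)
    have hcl : IsClosed {ψ : F →L[ℝ] ℝ | ‖z‖ - δ ≤ ψ z} :=
      isClosed_le continuous_const (ContinuousLinearMap.apply ℝ ℝ z).continuous
    refine hcl.mem_of_mapClusterPt hφc ?_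
    filter_upwards [Metric.ball_mem_nhds z (half_pos hδ), eventually_ne_nhds hz] with w hw hw0
    have h1 := (hd w hw0).fderiv_norm_self
    have h2 := dN_le w (w - z)
    have h3 := norm_sub_norm_le z w
    rw [mem_ball_iff_norm] at hw
    rw [map_sub, h1] at h2
    rw [norm_sub_rev] at h3
    show ‖z‖ - δ ≤ dN w z
    linarith
  have hmin : IsLocalMin (fun b => ‖b‖ - φ b) z :=
    Eventually.of_forall fun b => by
      show ‖z‖ - φ z ≤ ‖b‖ - φ b
      linarith [hφle b]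
  have := hmin.hasFDerivAt_eq_zero ((hd z hz).hasFDerivAt.sub φ.hasFDerivAt)
  exact (sub_eq_zero.1 this).symm

end R1

section Smooth

include s

/-- The extension is as smooth as the two norms. -/
lemma contDiffAt_G [FiniteDimensional ℝ F] {k : ℕ} (hk : 1 ≤ k) (hE : SmoothNorm E k)
    (hF : SmoothNorm F k) {v : E} (hv : v ≠ 0) : ContDiffAt ℝ k s.G v := by
  have hk0 : ((k : ℕ) : WithTop ℕ∞) ≠ 0 := by exact_mod_cast Nat.one_le_iff_ne_zero.1 hk
  set w := s.G v with hw
  have hw0 : w ≠ 0 := fun h => hv (s.G_injective (by rw [← hw, h, G_zero]))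
  have hnw : ‖w‖ = ‖v‖ := s.norm_G v
  -- functionals that are derivatives at `w` of functions whose composition with `G` is smooth
  let W : Submodule ℝ (F →L[ℝ] ℝ) :=
    { carrier := {φ | ∃ ψ : F → ℝ, HasFDerivAt ψ φ w ∧ ContDiffAt ℝ k ψ w ∧
        ContDiffAt ℝ k (fun v' => ψ (s.G v')) v}
      zero_mem' := ⟨fun _ => 0, hasFDerivAt_const 0 w, contDiffAt_const, contDiffAt_const⟩
      add_mem' := by
        rintro _ _ ⟨f, hf, hf', hf''⟩ ⟨g, hg, hg', hg''⟩
        exact ⟨fun x => f x + g x, hf.add hg, hf'.add hg', hf''.add hg''⟩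
      smul_mem' := by
        rintro c _ ⟨f, hf, hf', hf''⟩
        exact ⟨fun x => c • f x, hf.const_smul c, hf'.const_smul c, hf''.const_smul c⟩ }
  have hmem0 : dN w ∈ W := by
    refine ⟨fun x => ‖x‖, hF.hasFDerivAt hk hw0, hF w hw0, ?_⟩
    simpa only [s.norm_G] using hE v hv
  have hmem : ∀ z : F, ‖z‖ = 1 → w - ‖w‖ • z ≠ 0 →
      (dN (w - ‖w‖ • z)).comp (ContinuousLinearMap.id ℝ F - (dN w).smulRight z) ∈ W := by
    intro z hz hne
    have hne' : v - ‖v‖ • s.H z ≠ 0 := fun h => hne <| by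
      rw [sub_eq_zero] at h ⊢
      conv_lhs => rw [hw, h, s.G_smul, s.G_H]
      rw [hnw]
    refine ⟨fun x => ‖x - ‖x‖ • z‖, ?_, ?_, ?_⟩
    · exact (hF.hasFDerivAt hk hne).comp w
        ((hasFDerivAt_id w).sub ((hF.hasFDerivAt hk hw0).smul_const z))
    · exact (hF _ hne).comp w (contDiffAt_id.sub ((hF w hw0).smul contDiffAt_const))
    · have e : (fun v' => ‖s.G v' - ‖s.G v'‖ • z‖) = fun v' => ‖v' - ‖v'‖ • s.H z‖ := by
        funext v'
        have := s.key v' (s.H z) (by rw [s.norm_H, hz])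
        rw [s.G_H] at this
        simp only [s.norm_G]
        exact this
      rw [e]
      exact (hE _ hne').comp v (contDiffAt_id.sub ((hE v hv).smul contDiffAt_const))
  -- they separate the vectors
  have hsep : ∀ h : F, (∀ φ ∈ W, φ h = 0) → h = 0 := by
    intro h hh
    by_contra hne
    have hνh : dN w h = 0 := hh _ hmem0
    have hr : 0 < ‖w‖ := norm_pos_iff.2 hw0
    set c : ℝ → ℝ := fun t => (‖w - t • h‖ - ‖w‖) / (t * ‖w‖) with hc
    have hd : HasDerivAt (fun t : ℝ => ‖w - t • h‖) 0 0 := by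
      have h1 : HasDerivAt (fun t : ℝ => w - t • h) (-h) 0 := by
        simpa using ((hasDerivAt_id (0 : ℝ)).smul_const h).const_sub w
      have := (hF.hasFDerivAt hk hw0).comp_hasDerivAt_of_eq 0 h1 (by simp)
      simpa [Function.comp_def, hνh] using this
    have hc0 : Tendsto c (𝓝[>] 0) (𝓝 0) := by
      have := (hd.tendsto_slope_zero.mono_left
        (nhdsWithin_mono _ fun t (ht : 0 < t) => ne_of_gt ht)).div_const ‖w‖
      rw [zero_div] at this
      refine this.congr fun t => ?_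
      simp only [hc, zero_add, zero_smul, sub_zero, smul_eq_mul]
      rw [div_mul_eq_div_div, inv_mul_eq_div]
    have hq : Tendsto (fun t => c t • w + h) (𝓝[>] 0) (𝓝 h) := by
      simpa using (hc0.smul_const w).add_const h
    have hlim : Tendsto (fun t => dN (c t • w + h) h) (𝓝[>] 0) (𝓝 (dN h h)) :=
      ((ContinuousLinearMap.apply ℝ ℝ h).continuous.tendsto _).comp
        ((hF.continuousAt_dN hk hne).tendsto.comp hq)
    have hzero : ∀ᶠ t in 𝓝[>] (0 : ℝ), dN (c t • w + h) h = 0 := by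
      have hm : ∀ᶠ t in 𝓝 (0 : ℝ), w - t • h ≠ 0 := by
        have hcont : Continuous fun t : ℝ => w - t • h := by fun_prop
        exact (hcont.tendsto' 0 w (by simp)).eventually_ne hw0
      filter_upwards [self_mem_nhdsWithin, hq.eventually_ne hne,
        hm.filter_mono nhdsWithin_le_nhds] with t (ht : 0 < t) hq0 hm0
      set z := ‖w - t • h‖⁻¹ • (w - t • h) with hz
      have hmpos : 0 < ‖w - t • h‖ := norm_pos_iff.2 hm0
      have e : w - ‖w‖ • z = (t * ‖w‖ / ‖w - t • h‖) • (c t • w + h) := by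
        simp only [hz, hc, smul_add, smul_smul, smul_sub]
        match_scalars
        · field_simp
        · field_simp
      have hpos : 0 < t * ‖w‖ / ‖w - t • h‖ := by positivity
      have h2 := hh _ (hmem z (norm_smul_inv_norm hm0) (by rw [e]; exact smul_ne_zero hpos.ne' hq0))
      simp only [ContinuousLinearMap.comp_apply, sub_apply,
        ContinuousLinearMap.id_apply, ContinuousLinearMap.smulRight_apply, hνh, zero_smul,
        sub_zero] at h2
      rwa [e, dN_smul_pos _ hpos] at h2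
    have h0 : dN h h = 0 :=
      tendsto_nhds_unique hlim (tendsto_const_nhds.congr' (hzero.mono fun t ht => ht.symm))
    rw [hF.dN_self hk hne] at h0
    exact hne (norm_eq_zero.1 h0)
  have hW : W = ⊤ := by
    apply Submodule.eq_top_of_finrank_eq
    refine le_antisymm (Submodule.finrank_le W) ?_
    let ev : F →ₗ[ℝ] W →ₗ[ℝ] ℝ :=
      LinearMap.mk₂ ℝ (fun h φ => (φ : F →L[ℝ] ℝ) h) (fun a b φ => map_add _ a b)
        (fun c a φ => map_smul _ c a) (fun _ _ _ => rfl) (fun _ _ _ => rfl)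
    have hinj : Function.Injective ev := by
      rw [injective_iff_map_eq_zero]
      exact fun h hh => hsep h fun φ hφ => LinearMap.congr_fun hh ⟨φ, hφ⟩
    calc Module.finrank ℝ (F →L[ℝ] ℝ) = Module.finrank ℝ F :=
          (LinearMap.toContinuousLinearMap.finrank_eq).symm.trans Subspace.dual_finrank_eq
      _ ≤ Module.finrank ℝ (W →ₗ[ℝ] ℝ) := LinearMap.finrank_le_finrank_of_injective hinj
      _ = Module.finrank ℝ W := by
        have : Module.Free ℝ W := Module.Free.of_divisionRing ℝ W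
        exact Subspace.dual_finrank_eq (K := ℝ) (V := W)
  exact contDiffAt_of_functionals hk0 s.continuous_G.continuousAt
    fun φ => (hW ▸ Submodule.mem_top : φ ∈ W)

/-- The norm of the target is `C²` away from zero. -/
lemma smoothNorm_two [FiniteDimensional ℝ E] [FiniteDimensional ℝ F] (hE : SmoothNorm E 2) :
    SmoothNorm F 2 := by
  have hE1 := hE.of_le one_le_two
  have hF1 := s.smoothNorm_one hE1
  have hG : ∀ x : E, x ≠ 0 → ContDiffAt ℝ 1 s.G x := fun x hx => by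
    simpa using s.contDiffAt_G le_rfl hE1 hF1 hx
  have hH : ∀ x : F, x ≠ 0 → ContDiffAt ℝ 1 s.H x := fun x hx => by
    simpa using s.symm.contDiffAt_G le_rfl hF1 hE1 hx
  have main : ∀ a : F, ‖a‖ = 1 → ContDiffAt ℝ 1 (fun z : F => dN z) ((2 : ℝ) • a) := by
    intro a ha
    have ha0 : a ≠ 0 := fun h => by simp [h] at ha
    have hνa : dN a a = 1 := by rw [hF1.dN_self le_rfl ha0, ha]
    set v := s.H a with hv
    have hva : s.G v = a := s.G_H a
    have hv1 : ‖v‖ = 1 := by rw [hv, s.norm_H, ha]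
    have hv0 : v ≠ 0 := fun h => by simp [h] at hv1
    have hHna : s.H (-a) = -v := s.symm.G_neg a
    -- the chord chart
    let φ' : F ≃L[ℝ] F := ContinuousLinearEquiv.equivOfInverse
      (-(dN a).smulRight a - ContinuousLinearMap.id ℝ F)
      ((2⁻¹ : ℝ) • (dN a).smulRight a - ContinuousLinearMap.id ℝ F)
      (fun x => by simp [hνa]; module) (fun x => by simp [hνa]; module)
    set φ : F → F := fun x => ‖x‖ • a - x with hφ
    have hna0 : -a ≠ 0 := neg_ne_zero.2 ha0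
    have hφd : HasFDerivAt φ (φ' : F →L[ℝ] F) (-a) := by
      refine (((hF1.hasFDerivAt le_rfl hna0).smul_const a).sub
        (hasFDerivAt_id (-a))).congr_fderiv ?_
      rw [dN_neg]
      ext x
      simp [φ']
    have hφc : ContDiffAt ℝ 1 φ (-a) := by
      simpa using ((hF1 _ hna0).smul contDiffAt_const).sub contDiffAt_id
    have hφa : φ (-a) = (2 : ℝ) • a := by simp [hφ, ha, two_smul]
    set θ := hφc.localInverse hφd one_ne_zero with hθ
    have hθc : ContDiffAt ℝ 1 θ ((2 : ℝ) • a) := hφa ▸ hφc.to_localInverse hφd one_ne_zero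
    have hθa : θ ((2 : ℝ) • a) = -a := hφa ▸ hφc.localInverse_apply_image hφd one_ne_zero
    have hright : ∀ᶠ x in 𝓝 ((2 : ℝ) • a), φ (θ x) = x :=
      hφa ▸ (hφc.hasStrictFDerivAt' hφd one_ne_zero).eventually_right_inverse
    set Z : F → F := fun x => ‖θ x‖⁻¹ • θ x with hZ
    have hθ0 : θ ((2 : ℝ) • a) ≠ 0 := by rw [hθa]; exact hna0
    have hZc : ContDiffAt ℝ 1 Z ((2 : ℝ) • a) := by
      have hn : ContDiffAt ℝ 1 (fun x => ‖θ x‖) ((2 : ℝ) • a) :=
        (show ContDiffAt ℝ 1 (fun z : F => ‖z‖) (θ ((2 : ℝ) • a)) by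
          simpa using hF1 _ hθ0).comp _ hθc
      exact (hn.inv (norm_ne_zero_iff.2 hθ0)).smul hθc
    have hZa : Z ((2 : ℝ) • a) = -a := by simp [hZ, hθa, ha]
    -- the derivative of the identity
    have hLd : HasFDerivAt s.G (fderiv ℝ s.G v) v :=
      ((hG v hv0).differentiableAt one_ne_zero).hasFDerivAt
    have hJd : HasFDerivAt s.H (fderiv ℝ s.H a) a :=
      ((hH a ha0).differentiableAt one_ne_zero).hasFDerivAt
    have hLJ : ∀ x, fderiv ℝ s.G v (fderiv ℝ s.H a x) = x := fun x => by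
      have h1 : HasFDerivAt (fun y => s.G (s.H y)) ((fderiv ℝ s.G v).comp (fderiv ℝ s.H a)) a :=
        hLd.comp a hJd
      simp only [s.G_H] at h1
      exact DFunLike.congr_fun (h1.unique (hasFDerivAt_id a)) x
    have hJL : ∀ x, fderiv ℝ s.H a (fderiv ℝ s.G v x) = x := fun x => by
      have h1 : HasFDerivAt (fun y => s.H (s.G y)) ((fderiv ℝ s.H a).comp (fderiv ℝ s.G v)) v :=
        (hva.symm ▸ hJd : HasFDerivAt s.H (fderiv ℝ s.H a) (s.G v)).comp v hLd
      simp only [s.H_G] at h1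
      exact DFunLike.congr_fun (h1.unique (hasFDerivAt_id v)) x
    set L := fderiv ℝ s.G v with hLdef
    set J := fderiv ℝ s.H a with hJdef
    have hLv : L v = a := by
      have h1 : HasDerivAt (fun t : ℝ => s.G (v + t • v)) (L v) 0 := by
        have : HasDerivAt (fun t : ℝ => v + t • v) v 0 := by
          simpa using ((hasDerivAt_id (0 : ℝ)).smul_const v).const_add v
        exact hLd.comp_hasDerivAt_of_eq 0 this (by simp)
      have h2 : HasDerivAt (fun t : ℝ => s.G (v + t • v)) a 0 := by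
        have e : (fun t : ℝ => s.G (v + t • v)) = fun t => (1 + t) • a := by
          funext t
          rw [← hva, ← s.G_smul, add_smul, one_smul]
        rw [e]
        simpa using ((hasDerivAt_id (0 : ℝ)).const_add 1).smul_const a
      exact h1.unique h2
    have hnv : dN v v = 1 := by rw [hE1.dN_self le_rfl hv0, hv1]
    have hJa : J a = v := by rw [← hLv, hJL]
    let T : F → E →L[ℝ] F := fun z => L - (dN v).smulRight z
    let T₀ : E ≃L[ℝ] F := ContinuousLinearEquiv.equivOfInverse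
      (L + (dN v).smulRight a) (J - (2⁻¹ : ℝ) • ((dN v).comp J).smulRight v)
      (fun x => by simp [hJL, hJa, hnv]; module)
      (fun x => by simp [hLJ, hLv, hnv]; module)
    have hT0 : T (-a) = (T₀ : E →L[ℝ] F) := by
      ext x; simp [T, T₀]
    let R : F → E →L[ℝ] ℝ := fun z =>
      (dN (v - s.H z)).comp (ContinuousLinearMap.id ℝ E - (dN v).smulRight (s.H z))
    have hident : ∀ z : F, ‖z‖ = 1 → z ≠ a → (dN (a - z)).comp (T z) = R z := by
      intro z hz hza
      have hne : a - z ≠ 0 := sub_ne_zero.2 (Ne.symm hza)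
      have hne' : v - s.H z ≠ 0 := sub_ne_zero.2 fun h => hza (by rw [← hva, h, s.G_H])
      have hn := hE1.hasFDerivAt le_rfl hv0
      have e : (fun v' => ‖s.G v' - ‖v'‖ • z‖) = fun v' => ‖v' - ‖v'‖ • s.H z‖ := by
        funext v'
        have := s.key v' (s.H z) (by rw [s.norm_H, hz])
        rwa [s.G_H] at this
      have h1 : HasFDerivAt (fun v' => ‖s.G v' - ‖v'‖ • z‖) ((dN (a - z)).comp (T z)) v :=
        (show HasFDerivAt (fun x : F => ‖x‖) (dN (a - z)) (s.G v - ‖v‖ • z) by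
          rw [hva, hv1, one_smul]; exact hF1.hasFDerivAt le_rfl hne).comp v
          (hLd.sub (hn.smul_const z))
      have h2 : HasFDerivAt (fun v' => ‖v' - ‖v'‖ • s.H z‖) (R z) v :=
        (show HasFDerivAt (fun x : E => ‖x‖) (dN (v - s.H z)) (v - ‖v‖ • s.H z) by
          rw [hv1, one_smul]; exact hE1.hasFDerivAt le_rfl hne').comp v
          ((hasFDerivAt_id v).sub (hn.smul_const (s.H z)))
      rw [e] at h1
      exact h1.unique h2
    have hev : (fun x => dN x) =ᶠ[𝓝 ((2 : ℝ) • a)]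
        fun x => (R (Z x)).comp (T (Z x)).inverse := by
      have hTc : ContinuousAt (fun x => T (Z x)) ((2 : ℝ) • a) := by
        have : Continuous T := continuous_const.sub
          ((ContinuousLinearMap.smulRightL ℝ E F (dN v)).continuous)
        exact this.continuousAt.comp hZc.continuousAt
      have hTi : ∀ᶠ x in 𝓝 ((2 : ℝ) • a),
          T (Z x) ∈ Set.range ((↑) : (E ≃L[ℝ] F) → E →L[ℝ] F) :=
        hTc.eventually_mem (by rw [hZa, hT0]; exact T₀.nhds)
      have hZne : ∀ᶠ x in 𝓝 ((2 : ℝ) • a), Z x ≠ a :=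
        hZc.continuousAt.eventually_ne (by
          rw [hZa]
          intro h
          rw [neg_eq_iff_add_eq_zero, ← two_smul ℝ a] at h
          exact smul_ne_zero two_ne_zero ha0 h)
      filter_upwards [hright, hTi, hZne, hθc.continuousAt.eventually_ne hθ0] with x hx hxT hxa hx0
      obtain ⟨e, he⟩ := hxT
      have hz1 : ‖Z x‖ = 1 := norm_smul_inv_norm hx0
      have hxe : x = ‖θ x‖ • (a - Z x) := by
        conv_lhs => rw [← hx]
        simp [hφ, hZ, smul_sub, smul_smul, hx0]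
      have hdn : dN x = dN (a - Z x) := by
        conv_lhs => rw [hxe]
        exact dN_smul_pos _ (norm_pos_iff.2 hx0)
      rw [hdn, ← hident _ hz1 hxa, ← he, ContinuousLinearMap.inverse_equiv]
      ext y
      simp
    have hHZ : ContDiffAt ℝ 1 (fun x => s.H (Z x)) ((2 : ℝ) • a) :=
      (show ContDiffAt ℝ 1 s.H (Z ((2 : ℝ) • a)) by rw [hZa]; exact hH _ hna0).comp _ hZc
    have hdNE : ContDiffAt ℝ 1 (fun y : E => dN y) ((2 : ℝ) • v) :=
      (hE _ (smul_ne_zero two_ne_zero hv0)).fderiv_right (by norm_num)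
    have hRc : ContDiffAt ℝ 1 (fun x => R (Z x)) ((2 : ℝ) • a) := by
      refine ContDiffAt.clm_comp ?_ ?_
      · have hsub : ContDiffAt ℝ 1 (fun x => v - s.H (Z x)) ((2 : ℝ) • a) :=
          contDiffAt_const.sub hHZ
        exact (show ContDiffAt ℝ 1 (fun y : E => dN y) (v - s.H (Z ((2 : ℝ) • a))) by
          rw [hZa, hHna, sub_neg_eq_add, ← two_smul ℝ v]; exact hdNE).comp ((2 : ℝ) • a) hsub
      · exact contDiffAt_const.sub
          ((ContinuousLinearMap.smulRightL ℝ E E (dN v)).contDiff.contDiffAt.comp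
            ((2 : ℝ) • a) hHZ)
    have hTZ : ContDiffAt ℝ 1 (fun x => T (Z x)) ((2 : ℝ) • a) :=
      contDiffAt_const.sub
        ((ContinuousLinearMap.smulRightL ℝ E F (dN v)).contDiff.contDiffAt.comp ((2 : ℝ) • a) hZc)
    have hi : ContDiffAt ℝ 1 (ContinuousLinearMap.inverse : (E →L[ℝ] F) → F →L[ℝ] E)
        (T (Z ((2 : ℝ) • a))) := by
      rw [hZa, hT0]
      exact contDiffAt_map_inverse T₀
    have hinvc : ContDiffAt ℝ 1 (fun x => (T (Z x)).inverse) ((2 : ℝ) • a) :=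
      ContDiffAt.comp (f := fun x => T (Z x))
        (g := (ContinuousLinearMap.inverse : (E →L[ℝ] F) → F →L[ℝ] E)) ((2 : ℝ) • a) hi hTZ
    exact (hRc.clm_comp hinvc).congr_of_eventuallyEq hev
  intro x hx
  have hdN : ContDiffAt ℝ 1 (fun z : F => dN z) x := by
    have hr : 0 < 2 / ‖x‖ := div_pos two_pos (norm_pos_iff.2 hx)
    have e : (2 / ‖x‖) • x = (2 : ℝ) • (‖x‖⁻¹ • x) := by rw [smul_smul]; rfl
    have h1 : ContDiffAt ℝ 1 (fun z : F => dN ((2 / ‖x‖) • z)) x :=
      (e ▸ main _ (norm_smul_inv_norm hx) :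
        ContDiffAt ℝ 1 (fun z : F => dN z) ((2 / ‖x‖) • x)).comp x
        (contDiff_const_smul (2 / ‖x‖)).contDiffAt
    simpa only [dN_smul_pos _ hr] using h1
  rw [show ((2 : ℕ) : WithTop ℕ∞) = ((1 : ℕ) : WithTop ℕ∞) + 1 by norm_num,
    contDiffAt_succ_iff_hasFDerivAt]
  exact ⟨fun z => dN z, ⟨{0}ᶜ, isOpen_compl_singleton.mem_nhds hx,
    fun z hz => hF1.hasFDerivAt le_rfl hz⟩, by simpa using hdN⟩

end Smooth

end SphIso

end Vale.Agent.P084
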