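import Vale.Agent.P084.Vanish

/-!
P084 (Tingley's problem), library: a Grönwall argument along curves in the sphere.
-/

namespace Vale.Agent.P084

open Filter Topology

variable {E F : Type*} [NormedAddCommGroup E] [NormedSpace ℝ E] [FiniteDimensional ℝ E]
  [NormedAddCommGroup F] [NormedSpace ℝ F] [FiniteDimensional ℝ F]

omit [FiniteDimensional ℝ E] [FiniteDimensional ℝ F] in
/-- The estimate at a single time: if `v, v'` are the derivatives of the chords `w, w'`, then
`v' - v` is bounded by a multiple of `A⁻¹ w' - w`. -/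
lemma chord_bound (hE : SmoothNorm E 2) (hF : SmoothNorm F 2) {A : E ≃L[ℝ] F} {y w v v' : E}
    {w' : F} {κ σ σ' c c' : ℝ} {a a' W : E} (hny : dN y y = 1) (hκ : 0 < κ)
    (hW : W = A.symm w') (hσ : σ = dN y w) (hσ' : σ' = dN y W) (hσp : 0 < σ) (hσ'p : 0 < σ')
    (hcdef : c = dN y v / σ) (hc'def : c' = dN y v' / σ')
    (hadef : a = v - c • w) (ha'def : a' = v' - c' • W)
    (hw : w ≠ 0) (hw' : w' ≠ 0) (hnorm : ‖w'‖ = ‖w‖)
    (hrad : dN w' (A v') = dN w v)
    (hI1 : ∀ h : E, dN y h = 0 → dN w' (A h) = dN w h)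
    (hI2 : ∀ h k : E, dN y h = 0 → dN y k = 0 →
      ddN w' (A h) (A k) - ddN w h k = ddN y h k * (dN w' (A y) - dN w y))
    (hder : ∀ k : E, dN y k = 0 → ddN w' (A a') (A k) = ddN w a k)
    (hcoer : ∀ h : E, dN y h = 0 → κ * ‖h‖ ^ 2 ≤ ddN w h h) :
    ‖v' - v‖ ≤ ((‖ddN y‖ * ‖a'‖ / (κ * σ')) * (1 + ‖W‖ / ‖w‖) + |c|) * ‖W - w‖ := by
  have hha : dN y a = 0 := by simp [hadef, hcdef, ← hσ, hσp.ne']
  have hha' : dN y a' = 0 := by simp [ha'def, hc'def, ← hσ', hσ'p.ne']
  have hAW : A W = w' := by rw [hW, A.apply_symm_apply]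
  have hr : 0 < ‖w‖ := norm_pos_iff.2 hw
  have hpw : dN w w = ‖w‖ := hE.dN_self one_le_two hw
  have hPW : dN w' (A W) = ‖w‖ := by rw [hAW, hF.dN_self one_le_two hw', hnorm]
  set Δ := dN w' (A y) - dN w y with hΔ
  -- `Δ` is controlled by `D`
  have hΔD : σ' * Δ = -dN w (W - w) := by
    have hdec : W = (W - σ' • y) + σ' • y := by simp
    have hP0 : dN y (W - σ' • y) = 0 := by simp [hny, ← hσ']
    have e : dN w' (A W) =
        dN w (W - σ' • y) + σ' * dN w' (A y) := by
      rw [← hI1 _ hP0, ← smul_eq_mul, ← map_smul, ← map_smul, ← map_add, ← map_add,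
        sub_add_cancel]
    rw [hPW] at e
    simp only [map_sub, map_smul, smul_eq_mul] at e
    simp only [map_sub, hpw]
    rw [hΔ]
    linarith
  have hΔle : |Δ| ≤ ‖(W - w)‖ / σ' := by
    rw [le_div_iff₀ hσ'p, ← abs_of_pos hσ'p, ← abs_mul, mul_comm, hΔD, abs_neg]
    exact abs_dN_le _ _
  -- compare the horizontal parts
  set e := a' - a with he
  have hhe : dN y e = 0 := by simp [he, hha, hha']
  have hKe : ddN w e e = -(ddN y a' e * Δ) := by
    have h1 := hI2 a' e hha' hhe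
    rw [hder e hhe] at h1
    have h2 : ddN w e e = ddN w a' e - ddN w a e := by rw [← sub_apply, ← map_sub, ← he]
    linarith
  have heb : κ * ‖e‖ ≤ ‖ddN y‖ * ‖a'‖ * |Δ| := by
    rcases eq_or_ne e 0 with h0 | h0
    · rw [h0, norm_zero, mul_zero]; positivity
    have hp' : 0 < ‖e‖ := norm_pos_iff.2 h0
    have h1 := hcoer e hhe
    have h2 : |ddN y a' e| ≤ ‖ddN y‖ * ‖a'‖ * ‖e‖ := by
      rw [← Real.norm_eq_abs]
      exact (ddN y).le_opNorm₂ a' e
    have h3 : -(ddN y a' e * Δ) ≤ |ddN y a' e| * |Δ| := by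
      rw [← abs_mul]; exact neg_le_abs _
    refine le_of_mul_le_mul_right ?_ hp'
    nlinarith [mul_le_mul_of_nonneg_right h2 (abs_nonneg Δ)]
  have hebD : ‖e‖ ≤ ‖ddN y‖ * ‖a'‖ / (κ * σ') * ‖(W - w)‖ := by
    rw [div_mul_eq_mul_div, le_div_iff₀ (mul_pos hκ hσ'p)]
    have := mul_le_mul_of_nonneg_left hΔle (mul_nonneg (norm_nonneg (ddN y)) (norm_nonneg a'))
    rw [mul_div, le_div_iff₀ hσ'p] at this
    nlinarith [mul_le_mul_of_nonneg_right heb hσ'p.le]
  have hcc : (c' - c) * ‖w‖ = -dN w e := by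
    have e1 : dN w' (A v') = dN w a' + c' * ‖w‖ := by
      have : v' = a' + c' • W := by simp [ha'def]
      rw [this, map_add, map_smul, map_add, map_smul, hI1 a' hha', hPW, smul_eq_mul]
    have e2 : dN w v = dN w a + c * ‖w‖ := by
      have : v = a + c • w := by simp [hadef]
      rw [this, map_add, map_smul, hpw, smul_eq_mul]
    rw [he, map_sub]
    linarith [hrad]
  have hccb : |c' - c| ≤ ‖e‖ / ‖w‖ := by
    rw [le_div_iff₀ hr, show |c' - c| * ‖w‖ = |(c' - c) * ‖w‖| by rw [abs_mul, abs_norm], hcc,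
      abs_neg]
    exact abs_dN_le _ _
  have hsplit : v' - v = e + (c' - c) • W + c • (W - w) := by
    rw [he, ha'def, hadef]
    module
  calc ‖v' - v‖ ≤ ‖e‖ + |c' - c| * ‖W‖ + |c| * ‖(W - w)‖ := by
        rw [hsplit]
        refine norm_add₃_le.trans ?_
        rw [norm_smul, norm_smul, Real.norm_eq_abs, Real.norm_eq_abs]
    _ ≤ ‖e‖ + ‖e‖ / ‖w‖ * ‖W‖ + |c| * ‖(W - w)‖ := by gcongr
    _ = ‖e‖ * (1 + ‖W‖ / ‖w‖) + |c| * ‖(W - w)‖ := by ring
    _ ≤ ‖ddN y‖ * ‖a'‖ / (κ * σ') * ‖(W - w)‖ * (1 + ‖W‖ / ‖w‖) + |c| * ‖(W - w)‖ := by gcongr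
    _ = ((‖ddN y‖ * ‖a'‖ / (κ * σ')) * (1 + ‖W‖ / ‖w‖) + |c|) * ‖W - w‖ := by
        ring

namespace SphIso

variable (s : SphIso E F)

include s

variable (hE : SmoothNorm E 2)
include hE

/-- If the second derivative vanishes at `y`, the extension is linear. -/
lemma eq_linear (hc : Curved E) {y : E} (hy : ‖y‖ = 1) {A : E ≃L[ℝ] F}
    (hA : (A : E →L[ℝ] F) = s.dG y) (hB : s.ddG y = 0) {x₁ : E} (hx₁ : ‖x₁‖ = 1)
    (hx₁y : x₁ ≠ y) : s.G x₁ = A x₁ := by
  have hy0 : y ≠ 0 := fun h => by simp [h] at hy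
  have hF := s.smoothNorm_two hE
  have hsE := hc.strictNorm hE
  have hsF := s.strictNorm hsE
  have hA' : ∀ a, A a = s.dG y a := fun a => DFunLike.congr_fun hA a
  have hAy : A y = s.G y := by rw [hA', s.dG_self hE hy0]
  have hny : dN y y = 1 := by rw [hE.dN_self one_le_two hy0, hy]
  have hGy : ‖s.G y‖ = 1 := by rw [s.norm_G, hy]
  -- the curve
  set q : ℝ → E := fun t => -y + t • (x₁ + y) with hq
  set γ : ℝ → E := fun t => ‖q t‖⁻¹ • q t with hγ
  have hq0 : ∀ t ∈ Set.Icc (0 : ℝ) 1, q t ≠ 0 ∧ γ t ≠ y := by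
    intro t ht
    have aux : ∀ c : ℝ, 0 ≤ c → q t ≠ c • y := by
      intro c hc0 e
      have e' : t • x₁ = (c + (1 - t)) • y := by
        rw [show t • x₁ = q t + (1 - t) • y by rw [hq]; module, e, add_smul]
      rcases eq_or_lt_of_le ht.1 with h0 | h0
      · rw [← h0, zero_smul, sub_zero] at e'
        have : c + 1 = 0 := (smul_eq_zero.1 e'.symm).resolve_right hy0
        linarith
      · refine hx₁y ?_
        have hnn := congr_arg norm e'
        rw [norm_smul, norm_smul, hx₁, hy, Real.norm_of_nonneg h0.le,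
          Real.norm_of_nonneg (by linarith [ht.2]), mul_one, mul_one] at hnn
        rw [← hnn] at e'
        exact smul_right_injective E h0.ne' e'
    refine ⟨fun h => aux 0 le_rfl (by rw [h, zero_smul]), fun h => ?_⟩
    have hne : q t ≠ 0 := fun h => aux 0 le_rfl (by rw [h, zero_smul])
    refine aux ‖q t‖ (norm_nonneg _) ?_
    rw [← h, hγ, smul_smul, mul_inv_cancel₀ (norm_ne_zero_iff.2 hne), one_smul]
  have hγ1 : ∀ t ∈ Set.Icc (0 : ℝ) 1, ‖γ t‖ = 1 := fun t ht => norm_smul_inv_norm (hq0 t ht).1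
  have hqd : ∀ t, HasDerivAt q (x₁ + y) t := fun t => by
    simpa [hq] using ((hasDerivAt_id t).smul_const (x₁ + y)).const_add (-y)
  have hqc : Continuous q := by fun_prop
  -- the chord vectors and their derivatives
  set w : ℝ → E := fun t => y - γ t with hw
  set w' : ℝ → F := fun t => s.G y - s.G (γ t) with hw'
  set D : ℝ → E := fun t => A.symm (w' t) - w t with hD
  set dq : ℝ → E := fun t => -(‖q t‖⁻¹ • (x₁ + y) +
    (-(dN (q t) (x₁ + y)) / ‖q t‖ ^ 2) • q t) with hdq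
  set dq' : ℝ → E := fun t => A.symm (s.dG (γ t) (dq t)) with hdq'
  have hwd : ∀ t ∈ Set.Icc (0 : ℝ) 1, HasDerivAt w (dq t) t := by
    intro t ht
    obtain ⟨hne, -⟩ := hq0 t ht
    have hn : HasDerivAt (fun u => ‖q u‖) (dN (q t) (x₁ + y)) t :=
      (hE.hasFDerivAt one_le_two hne).comp_hasDerivAt t (hqd t)
    exact ((hn.inv (norm_ne_zero_iff.2 hne)).smul (hqd t)).const_sub y
  have hγne : ∀ t ∈ Set.Icc (0 : ℝ) 1, γ t ≠ 0 := fun t ht h => by
    simpa [h] using hγ1 t ht
  have hw'd : ∀ t ∈ Set.Icc (0 : ℝ) 1, HasDerivAt w' (A (dq' t)) t := by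
    intro t ht
    have hγd : HasDerivAt γ (-dq t) t := by
      have := (hwd t ht).const_sub y
      simpa [hw] using this
    have := ((s.hasFDerivAt_G hE (hγne t ht)).comp_hasDerivAt t hγd).const_sub (s.G y)
    refine this.congr_deriv ?_
    simp [hdq']
  have hDd : ∀ t ∈ Set.Icc (0 : ℝ) 1, HasDerivAt D (dq' t - dq t) t := by
    intro t ht
    have h := ((A.symm : F →L[ℝ] E).hasFDerivAt.comp_hasDerivAt t (hw'd t ht)).sub (hwd t ht)
    refine h.congr_deriv ?_
    simp
  -- facts about the chords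
  have hwne : ∀ t ∈ Set.Icc (0 : ℝ) 1, w t ≠ 0 :=
    fun t ht => sub_ne_zero.2 (hq0 t ht).2.symm
  have hnorm : ∀ t ∈ Set.Icc (0 : ℝ) 1, ‖w' t‖ = ‖w t‖ :=
    fun t ht => s.norm_G_sub_of_unit hy (hγ1 t ht)
  have hw'ne : ∀ t ∈ Set.Icc (0 : ℝ) 1, w' t ≠ 0 := fun t ht => by
    rw [← norm_ne_zero_iff, hnorm t ht, norm_ne_zero_iff]; exact hwne t ht
  have hspos : ∀ t ∈ Set.Icc (0 : ℝ) 1, 0 < dN y (w t) := fun t ht => by
    have := hsE.dN_lt hE one_le_two hy (hγ1 t ht) (hq0 t ht).2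
    simp only [hw, map_sub, hny]
    linarith
  have hnA : ∀ z, dN y (A.symm z) = dN (s.G y) z := fun z => by
    rw [← s.dN_dG hE hy0, ← hA', A.apply_symm_apply]
  have hs'pos : ∀ t ∈ Set.Icc (0 : ℝ) 1, 0 < dN y (A.symm (w' t)) := fun t ht => by
    have hne : s.G (γ t) ≠ s.G y := fun h => (hq0 t ht).2 (s.G_injective h)
    have := hsF.dN_lt hF one_le_two hGy (by rw [s.norm_G, hγ1 t ht]) hne
    have e : dN (s.G y) (s.G y) = 1 := by
      rw [hF.dN_self one_le_two (fun h => by simp [h] at hGy), hGy]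
    rw [hnA, hw', map_sub, e]
    linarith
  -- the identities at `y`
  have hI1 : ∀ t ∈ Set.Icc (0 : ℝ) 1, ∀ h : E, dN y h = 0 →
      dN (w' t) (A h) = dN (w t) h := by
    intro t ht h hh
    have := s.first_identity hE hy0 (hγ1 t ht) (by simpa [hy] using hwne t ht) hh
    simpa [hy, hA'] using this
  have hI2 : ∀ t ∈ Set.Icc (0 : ℝ) 1, ∀ h k : E, dN y h = 0 → dN y k = 0 →
      ddN (w' t) (A h) (A k) - ddN (w t) h k =
        ddN y h k * (dN (w' t) (A y) - dN (w t) y) := by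
    intro t ht h k hh hk
    have := s.second_identity hE hy0 (hγ1 t ht) (by simpa [hy] using hwne t ht) hh hk
    rw [hB] at this
    simp only [hy, one_smul, zero_apply, zero_sub, map_neg, map_smul, ← hA', smul_eq_mul] at this
    have e1 : dN (w' t) (s.G (γ t)) = dN (w' t) (A y) - ‖w' t‖ := by
      rw [hAy, show s.G (γ t) = s.G y - w' t by simp [hw'], map_sub,
        hF.dN_self one_le_two (hw'ne t ht)]
    have e2 : dN (w t) (γ t) = dN (w t) y - ‖w t‖ := by
      rw [show γ t = y - w t by simp [hw], map_sub, hE.dN_self one_le_two (hwne t ht)]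
    change ddN (w' t) (A h) (A k) + -(ddN y h k * dN (w' t) (s.G (γ t))) =
      ddN (w t) h k + -(ddN y h k * dN (w t) (γ t)) at this
    rw [e1, e2, hnorm t ht] at this
    linarith
  -- continuity
  have hγc : ContinuousOn γ (Set.Icc 0 1) :=
    ((hqc.norm.continuousOn).inv₀ fun t ht => norm_ne_zero_iff.2 (hq0 t ht).1).smul
      hqc.continuousOn
  have hwc : ContinuousOn w (Set.Icc 0 1) := continuousOn_const.sub hγc
  have hw'c : ContinuousOn w' (Set.Icc 0 1) :=
    continuousOn_const.sub (s.continuous_G.comp_continuousOn hγc)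
  have hsc : ContinuousOn (fun t => A.symm (w' t)) (Set.Icc 0 1) :=
    A.symm.continuous.comp_continuousOn hw'c
  have hdqc : ContinuousOn dq (Set.Icc 0 1) := by
    have hdn : ContinuousOn (fun t => dN (q t) (x₁ + y)) (Set.Icc 0 1) := fun t ht =>
      ContinuousAt.continuousWithinAt
        (((ContinuousLinearMap.apply ℝ ℝ (x₁ + y)).continuous.continuousAt).comp
          ((hE.continuousAt_dN one_le_two (hq0 t ht).1).comp hqc.continuousAt))
    refine (((hqc.norm.continuousOn).inv₀ fun t ht => norm_ne_zero_iff.2 (hq0 t ht).1).smul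
      continuousOn_const |>.add ((hdn.neg.div (hqc.norm.pow 2).continuousOn fun t ht => ?_).smul
      hqc.continuousOn)).neg
    exact pow_ne_zero _ (norm_ne_zero_iff.2 (hq0 t ht).1)
  have hdq'c : ContinuousOn dq' (Set.Icc 0 1) := by
    intro t ht
    exact (A.symm.continuous.tendsto _).comp
      ((((s.continuousAt_dG hE (hγne t ht)).comp_continuousWithinAt (hγc t ht)).clm_apply
        (hdqc t ht)))
  -- coercivity
  set H₁ : Set E := Metric.sphere 0 1 ∩ {h | dN y h = 0} with hH₁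
  have hH₁c : IsCompact H₁ :=
    (isCompact_sphere 0 1).inter_right (isClosed_eq (dN y).continuous continuous_const)
  obtain ⟨κ, hκ, hκle⟩ : ∃ κ, 0 < κ ∧ ∀ p ∈ Set.Icc (0 : ℝ) 1 ×ˢ H₁,
      κ ≤ ddN (w p.1) p.2 p.2 := by
    refine (isCompact_Icc.prod hH₁c).exists_forall_le' ?_ ?_
    · intro p hp
      have h1 : ContinuousWithinAt (fun p : ℝ × E => ddN (w p.1))
          (Set.Icc (0 : ℝ) 1 ×ˢ H₁) p :=
        (hE.continuousAt_ddN (hwne p.1 hp.1)).comp_continuousWithinAt (f := fun p : ℝ × E => w p.1)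
          ((hwc p.1 hp.1).comp continuous_fst.continuousWithinAt fun r hr => hr.1)
      exact (h1.clm_apply continuous_snd.continuousWithinAt).clm_apply
        continuous_snd.continuousWithinAt
    · rintro ⟨t, h⟩ ⟨ht, hh1, hh0⟩
      refine hc _ (hwne t ht) _ fun c e => ?_
      have e' : dN y h = c * dN y (w t) := by rw [show h = c • w t from e, map_smul, smul_eq_mul]
      rw [show dN y h = 0 from hh0] at e'
      have : c = 0 := (mul_eq_zero.1 e'.symm).resolve_right (hspos t ht).ne'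
      rw [mem_sphere_zero_iff_norm, show h = c • w t from e, this, zero_smul, norm_zero] at hh1
      exact zero_ne_one hh1
  have hcoer : ∀ t ∈ Set.Icc (0 : ℝ) 1, ∀ h : E, dN y h = 0 →
      κ * ‖h‖ ^ 2 ≤ ddN (w t) h h := by
    intro t ht h hh
    rcases eq_or_ne h 0 with rfl | hne
    · simp
    have hp : 0 < ‖h‖ := norm_pos_iff.2 hne
    have := hκle (t, ‖h‖⁻¹ • h)
      ⟨ht, mem_sphere_zero_iff_norm.2 (norm_smul_inv_norm hne), by simp [hh]⟩
    simp only [map_smul, smul_apply, smul_eq_mul] at this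
    calc κ * ‖h‖ ^ 2 ≤ ‖h‖⁻¹ * (‖h‖⁻¹ * ddN (w t) h h) * ‖h‖ ^ 2 := by gcongr
      _ = ddN (w t) h h := by field_simp
  -- the bound
  set hp : ℝ → E := fun t =>
    dq' t - (dN y (dq' t) / dN y (A.symm (w' t))) • A.symm (w' t) with hhp
  set C : ℝ → ℝ := fun t =>
    (‖ddN y‖ * ‖hp t‖ / (κ * dN y (A.symm (w' t)))) * (1 + ‖A.symm (w' t)‖ / ‖w t‖) +
      |dN y (dq t) / dN y (w t)| with hC
  have hCc : ContinuousOn C (Set.Icc 0 1) := by
    have hs : ContinuousOn (fun t => dN y (A.symm (w' t))) (Set.Icc 0 1) :=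
      (dN y).continuous.comp_continuousOn hsc
    have hhpc : ContinuousOn hp (Set.Icc 0 1) :=
      hdq'c.sub ((((dN y).continuous.comp_continuousOn hdq'c).div hs
        fun t ht => (hs'pos t ht).ne').smul hsc)
    refine (((continuousOn_const.mul hhpc.norm).div (continuousOn_const.mul hs)
      fun t ht => (mul_pos hκ (hs'pos t ht)).ne').mul
        (continuousOn_const.add (hsc.norm.div hwc.norm fun t ht =>
          norm_ne_zero_iff.2 (hwne t ht)))).add ?_
    exact (((dN y).continuous.comp_continuousOn hdqc).div ((dN y).continuous.comp_continuousOn hwc)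
      fun t ht => (hspos t ht).ne').abs
  obtain ⟨K, hK⟩ : ∃ K, ∀ t ∈ Set.Icc (0 : ℝ) 1, C t ≤ K := by
    obtain ⟨K, hK⟩ := (isCompact_Icc.bddAbove_image hCc)
    exact ⟨K, fun t ht => hK ⟨t, ht, rfl⟩⟩
  have hbound : ∀ t ∈ Set.Ico (0 : ℝ) 1, ‖dq' t - dq t‖ ≤ C t * ‖D t‖ := by
    intro t ht'
    have ht : t ∈ Set.Icc (0 : ℝ) 1 := Set.Ico_subset_Icc_self ht'
    set W := A.symm (w' t) with hW
    have hAW : A W = w' t := A.apply_symm_apply _
    set σ := dN y (w t) with hσ
    set σ' := dN y W with hσ'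
    have hσp : 0 < σ := hspos t ht
    have hσ'p : 0 < σ' := hs'pos t ht
    set c := dN y (dq t) / σ with hcdef
    set c' := dN y (dq' t) / σ' with hc'def
    set a := dq t - c • w t with hadef
    set a' := dq' t - c' • W with ha'def
    -- radial component
    have hrad : dN (w' t) (A (dq' t)) = dN (w t) (dq t) := by
      have h1 : HasDerivWithinAt (fun u => ‖w' u‖) (dN (w' t) (A (dq' t))) (Set.Icc 0 1) t :=
        ((hF.hasFDerivAt one_le_two (hw'ne t ht)).comp_hasDerivAt t (hw'd t ht)).hasDerivWithinAt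
      have h2 : HasDerivWithinAt (fun u => ‖w u‖) (dN (w t) (dq t)) (Set.Icc 0 1) t :=
        ((hE.hasFDerivAt one_le_two (hwne t ht)).comp_hasDerivAt t (hwd t ht)).hasDerivWithinAt
      exact ((uniqueDiffOn_Icc zero_lt_one) t ht).eq_deriv _ h1
        (h2.congr (fun u hu => hnorm u hu) (hnorm t ht))
    -- derivative of the first identity
    have hder : ∀ k : E, dN y k = 0 → ddN (w' t) (A a') (A k) = ddN (w t) a k := by
      intro k hk
      have h1 : HasDerivWithinAt (fun u => dN (w' u) (A k)) (ddN (w' t) (A (dq' t)) (A k))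
          (Set.Icc 0 1) t := by
        have h := ((hF.differentiableAt_dN (hw'ne t ht)).hasFDerivAt.comp_hasDerivAt t
          (hw'd t ht)).clm_apply (hasDerivAt_const t (A k))
        simpa using h.hasDerivWithinAt
      have h2 : HasDerivWithinAt (fun u => dN (w u) k) (ddN (w t) (dq t) k) (Set.Icc 0 1) t := by
        have h := ((hE.differentiableAt_dN (hwne t ht)).hasFDerivAt.comp_hasDerivAt t
          (hwd t ht)).clm_apply (hasDerivAt_const t k)
        simpa using h.hasDerivWithinAt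
      have h3 := ((uniqueDiffOn_Icc zero_lt_one) t ht).eq_deriv _ h1
        (h2.congr (fun u hu => hI1 u hu k hk) (hI1 t ht k hk))
      have e1 : ddN (w' t) (A a') (A k) = ddN (w' t) (A (dq' t)) (A k) := by
        rw [ha'def, map_sub, map_smul, hAW, map_sub, map_smul, sub_apply, smul_apply,
          hF.ddN_self_left (hw'ne t ht), smul_zero, sub_zero]
      have e2 : ddN (w t) a k = ddN (w t) (dq t) k := by
        rw [hadef, map_sub, map_smul, sub_apply, smul_apply,
          hE.ddN_self_left (hwne t ht), smul_zero, sub_zero]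
      rw [e1, e2, h3]
    exact chord_bound hE hF hny hκ hW hσ hσ' hσp hσ'p hcdef hc'def hadef ha'def (hwne t ht)
      (hw'ne t ht) (hnorm t ht) hrad (hI1 t ht) (hI2 t ht) hder (hcoer t ht)
  have hDc : ContinuousOn D (Set.Icc 0 1) := fun t ht => (hDd t ht).continuousAt.continuousWithinAt
  have hD0 : D 0 = 0 := by
    simp [hD, hw, hw', hγ, hq, hy, s.G_neg, ← two_smul ℝ, ← hAy]
  have hg := norm_le_gronwallBound_of_norm_deriv_right_le (δ := 0) (K := K) (ε := 0) hDc
    (fun t ht => (hDd t (Set.Ico_subset_Icc_self ht)).hasDerivWithinAt) (by simp [hD0])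
    (fun t ht => by
      rw [add_zero]
      exact (hbound t ht).trans
        (mul_le_mul_of_nonneg_right (hK t (Set.Ico_subset_Icc_self ht)) (norm_nonneg _)))
    1 (Set.right_mem_Icc.2 zero_le_one)
  rw [gronwallBound_ε0_δ0, norm_le_zero_iff] at hg
  simp only [hD, hw, hw', hγ, hq, one_smul, neg_add_cancel_comm_assoc, hx₁, inv_one] at hg
  have h := congr_arg A (sub_eq_zero.1 hg)
  rw [A.apply_symm_apply, map_sub, hAy, sub_right_inj] at h
  exact h

end SphIso

end Vale.Agent.P084
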